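import Vale.Agent.P203.CoxLong

namespace Vale.Agent.P203

variable {S : Type} [Fintype S] [DecidableEq S] {M : CoxeterMatrix S} {T : Finset S}

theorem PD.mono {T' : Finset S} (h : PD M T) (h' : T' ⊆ T) : PD M T' :=
  fun x hx => h x fun s hs => hx s fun h1 => hs (h' h1)

theorem pd_empty : PD M ∅ :=
  fun x hx h0 => absurd (funext fun s => hx s (Finset.notMem_empty s)) h0

theorem pd_singleton (s : S) : PD M {s} := by
  intro x hx h0
  have e : x = Pi.single s (x s) := by
    funext t
    by_cases ht : t = s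
    · rw [ht, Pi.single_eq_same]
    · rw [Pi.single_eq_of_ne ht, hx t fun h => ht (Finset.mem_singleton.1 h)]
  have h1 : x s ≠ 0 := fun h => h0 (by rw [e, h, Pi.single_zero])
  rw [e, Bf_single_left, Ax_single, cf_self]
  nlinarith [mul_self_pos.2 h1]

theorem PD.nonpos (h : PD M T) {v : S → ℝ} (hv : ∀ s, s ∉ T → v s ≤ 0)
    (hA : ∀ s ∈ T, Ax M v s ≤ 0) : v ≤ 0 := by
  by_contra h0
  refine (h (fun t => max (v t) 0) (fun s hs => max_eq_right (hv s hs)) fun h1 =>
    h0 fun t => (le_max_left _ _).trans (congrFun h1 t).le).not_ge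
      (Finset.sum_nonpos fun s _ => ?_)
  rcases le_or_gt (v s) 0 with h2 | h2
  · exact (mul_eq_zero_of_left (max_eq_right h2) _).le
  · exact mul_nonpos_of_nonneg_of_nonpos (le_max_right _ _)
      ((Ax_anti (fun t _ => le_max_left _ _) (max_eq_left h2.le).symm).trans
        (hA s (by_contra fun h3 => (hv s h3).not_gt h2)))

theorem PD.solve (h : PD M T) (b c : S → ℝ) :
    ∃ θ : S → ℝ, (∀ s ∈ T, Ax M θ s = b s) ∧ ∀ t, t ∉ T → θ t = c t := by
  let L : (S → ℝ) →ₗ[ℝ] S → ℝ :=
    { toFun := fun x s => if s ∈ T then Ax M x s else x s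
      map_add' := fun x y => funext fun s => by
        by_cases hs : s ∈ T <;> simp [hs, Ax_add]
      map_smul' := fun a x => funext fun s => by
        by_cases hs : s ∈ T <;> simp [hs, Ax_smul] }
  have hL : ∀ x s, L x s = if s ∈ T then Ax M x s else x s := fun _ _ => rfl
  have key : ∀ x, L x = 0 → x ≤ 0 := fun x hx => h.nonpos
    (fun s hs => by simpa [hL, hs] using (congrFun hx s).le)
    fun s hs => by simpa [hL, hs] using (congrFun hx s).le
  obtain ⟨θ, hθ⟩ := LinearMap.injective_iff_surjective.1 ((injective_iff_map_eq_zero L).2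
    fun x hx => le_antisymm (key x hx) (neg_nonpos.1 (key (-x) (by rw [map_neg, hx, neg_zero]))))
    fun s => if s ∈ T then b s else c s
  exact ⟨θ, fun s hs => by simpa [hL, hs] using congrFun hθ s,
    fun s hs => by simpa [hL, hs] using congrFun hθ s⟩

theorem PD.nonneg_self (h : PD M T) {x : S → ℝ} (hx : ∀ s, s ∉ T → x s = 0) : 0 ≤ Bf M x x := by
  by_cases h0 : x = 0
  · rw [h0, Bf_zero_left]
  · exact (h x hx h0).le

theorem vinberg (h : ¬ PD M T) :
    ∃ v : S → ℝ, 0 ≤ v ∧ v ≠ 0 ∧ (∀ s, s ∉ T → v s = 0) ∧ ∀ s, Ax M v s ≤ 0 := by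
  induction T using Finset.induction_on with
  | empty => exact absurd pd_empty h
  | insert s T hs ih =>
    by_cases hT : PD M T
    swap
    · obtain ⟨v, h1, h2, h3, h4⟩ := ih hT
      exact ⟨v, h1, h2, fun t ht => h3 t fun h5 => ht (Finset.mem_insert_of_mem h5), h4⟩
    obtain ⟨θ, h1, h2⟩ := hT.solve 0 (Pi.single s 1)
    have h3 : θ s = 1 := by rw [h2 s hs, Pi.single_eq_same]
    have h4 : ∀ t, t ∉ insert s T → θ t = 0 := fun t ht => by
      rw [Finset.mem_insert, not_or] at ht
      rw [h2 t ht.2, Pi.single_eq_of_ne ht.1]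
    have h5 : 0 ≤ θ := neg_nonpos.1 (hT.nonpos
      (fun t ht => by
        rw [Pi.neg_apply, h2 t ht, neg_nonpos]
        exact (Pi.single_nonneg.2 zero_le_one : 0 ≤ (Pi.single s 1 : S → ℝ)) t)
      fun t ht => by rw [Ax_neg, h1 t ht, Pi.zero_apply, neg_zero])
    have h6 : ∀ y : S → ℝ, (∀ t, t ≠ s → t ∉ T → y t = 0) → Bf M θ y = Ax M θ s * y s := by
      intro y hy
      rw [Bf_eq_sum, Finset.sum_eq_single s (fun t _ ht => ?_) (by simp)]
      by_cases h7 : t ∈ T
      · rw [h1 t h7, Pi.zero_apply, zero_mul]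
      · rw [hy t ht h7, mul_zero]
    refine ⟨θ, h5, fun h0 => by simp [h0] at h3, h4, fun t => ?_⟩
    by_cases ht : t ∈ insert s T
    swap
    · exact (Ax_anti (fun u _ => h5 u) (h4 t ht).symm).trans (Ax_zero t).le
    rcases Finset.mem_insert.1 ht with rfl | ht
    swap
    · exact (h1 t ht).le
    by_contra h7
    refine h fun x hx h0 => ?_
    have h8 : ∀ u, u ∉ T → (x - x t • θ) u = 0 := fun u hu => by
      by_cases hut : u = t
      · simp [hut, h3]
      · have : u ∉ insert t T := by simp [hut, hu]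
        simp [hx u this, h4 u this]
    have h9 := hT.nonneg_self h8
    by_cases hc : x t = 0
    · rw [hc, zero_smul, sub_zero] at h8
      exact hT x h8 h0
    · have e1 := h6 x fun u h1 h2 => hx u (by simp [h1, h2])
      have e2 := h6 θ fun u h1 h2 => h4 u (by simp [h1, h2])
      simp only [Bf_sub_left, Bf_sub_right, Bf_smul_left, Bf_smul_right, Bf_symm x θ, e1, e2,
        h3] at h9
      nlinarith [mul_pos (mul_self_pos.2 hc) (not_le.1 h7)]

theorem one_le_sum_root {W : Type} [Group W] (cs : CoxeterSystem M W) {w : W} {s : S}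
    (h : 0 ≤ rho cs w (Pi.single s 1)) : 1 ≤ ∑ t, rho cs w (Pi.single s 1) t := by
  have h1 := Bf_rho cs w (Pi.single s 1) (Pi.single s 1)
  rw [Bf_single_left, Ax_single, cf_self] at h1
  generalize rho cs w (Pi.single s 1) = x at h h1
  have h2 : Bf M x x ≤ ∑ u, x u * ∑ t, 2 * x t := by
    refine Finset.sum_le_sum fun u _ => mul_le_mul_of_nonneg_left
      (Finset.sum_le_sum fun t _ => mul_le_mul_of_nonneg_right ?_ (h t)) (h u)
    unfold cf
    linarith [Real.neg_one_le_cos (Real.pi / (M u t : ℝ))]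
  rw [← Finset.sum_mul, ← Finset.mul_sum] at h2
  have h3 : 0 ≤ ∑ t, x t := Finset.sum_nonneg fun t _ => h t
  nlinarith

theorem pd_iff_finite {W : Type} [Group W] (cs : CoxeterSystem M W) :
    PD M T ↔ Finite (par cs T) := by
  refine ⟨fun h => ?_, fun h => by_contra fun h1 => ?_⟩
  · obtain ⟨y, h1, h2⟩ := h.solve 1 0
    have h3 : ∀ x : S → ℝ, (∀ t, t ∉ T → x t = 0) → Bf M y x = ∑ t, x t := fun x hx => by
      rw [Bf_eq_sum]
      refine Finset.sum_congr rfl fun t _ => ?_
      by_cases ht : t ∈ T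
      · rw [h1 t ht, Pi.one_apply, one_mul]
      · rw [hx t ht, mul_zero]
    have h4 : ∀ w ∈ par cs T, (cs.length w : ℝ) ≤ Bf M y y - Bf M y (rho cs w y) := by
      intro w hw
      refine par_induction_left cs
        (p := fun w => (cs.length w : ℝ) ≤ Bf M y y - Bf M y (rho cs w y)) (by simp)
        (fun w hw s hs h5 ih => ?_) hw
      have h6 := cs.length_simple_mul w s
      have h7 := one_le_sum_root cs (root_pos cs (w := w⁻¹) (s := s)
        (by rwa [length_inv_mul_simple, cs.length_inv]))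
      rw [← h3 _ (root_off cs (inv_mem hw) hs), ← Ax_rho] at h7
      rw [show cs.length (cs.simple s * w) = cs.length w + 1 by omega, rho_mul, rho_simple,
        Bf_sub_right, Bf_smul_right, Bf_single_right, h1 s hs, Pi.one_apply]
      push_cast
      linarith
    have h5 : ∀ w ∈ par cs T, cs.length w ≤ ⌈2 * Bf M y y⌉₊ := fun w hw => by
      have h6 := h.nonneg_self (x := y + rho cs w y) fun t ht => by
        rw [Pi.add_apply, rho_off cs hw y ht, h2 t ht, Pi.zero_apply, add_zero]
      rw [Bf_add_left, Bf_add_right, Bf_add_right, Bf_rho, Bf_symm (rho cs w y) y] at h6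
      have h7 := Nat.le_ceil (2 * Bf M y y)
      exact_mod_cast (show (cs.length w : ℝ) ≤ ⌈2 * Bf M y y⌉₊ by linarith [h4 w hw])
    refine Set.Finite.to_subtype (s := (par cs T : Set W))
      (((List.finite_length_le S ⌈2 * Bf M y y⌉₊).image cs.wordProd).subset fun w hw => ?_)
    obtain ⟨ω, h6, rfl⟩ := cs.exists_isReduced w
    exact ⟨ω, h6.eq.ge.trans (h5 _ hw), rfl⟩
  · obtain ⟨v, h2, h3, h4, h5⟩ := vinberg h1
    obtain ⟨w, hw⟩ := exists_longest h
    have h6 := rho_le_of_dominant cs hw.1 (z := -v) fun t _ => by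
      rw [Ax_neg, neg_nonneg]
      exact h5 t
    rw [map_neg, neg_le_neg_iff, rho_expand] at h6
    refine h3 (le_antisymm (h6.trans (Finset.sum_nonpos fun t _ => ?_)) h2)
    by_cases ht : t ∈ T
    · exact smul_nonpos_of_nonneg_of_nonpos (h2 t) (root_neg cs (hw.descent ht))
    · rw [h4 t ht, zero_smul]

end Vale.Agent.P203
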