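import Vale.Agent.P203.ArtBasic
import Vale.Agent.P203.CoxPD

namespace Vale.Agent.P203

universe u

variable {S W : Type} [Fintype S] [DecidableEq S] [Group W] {M : CoxeterMatrix S}
  {cs : CoxeterSystem M W} {G : Type u} [Group G] (Y : Sys cs G) {n : ℕ} {T : Finset S}
  {θ : S → ℝ} {K : G}

namespace Apt1Aux

theorem eq_add_single {e e' : S → ℝ} {s : S} (h : ∀ t, t ≠ s → e' t = e t) :
    e' = e + Pi.single s (e' s - e s) := by
  funext t
  by_cases ht : t = s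
  · subst ht; simp
  · simp [h t ht, ht]

theorem Bf_upd {e e' : S → ℝ} {s : S} (h : ∀ t, t ≠ s → e' t = e t) (z θ : S → ℝ) :
    Bf M z (e' - θ) = Bf M z (e - θ) + (e' s - e s) * Ax M z s := by
  rw [← Bf_single_right, ← Bf_add_right]
  congr 1
  conv_lhs => rw [eq_add_single h]
  abel

theorem Ax_upd {e e' : S → ℝ} {s : S} (h : ∀ t, t ≠ s → e' t = e t) :
    Ax M e' s = Ax M e s + 2 * (e' s - e s) := by
  conv_lhs => rw [eq_add_single h]
  rw [Ax_add, Ax_single, cf_self]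

theorem Bf_refl (cs : CoxeterSystem M W) (s : S) (z v : S → ℝ) :
    Bf M (rho cs (cs.simple s) z) v = Bf M z v - Ax M z s * Ax M v s := by
  rw [rho_simple, Bf_sub_left, Bf_smul_left, Bf_single_left, one_mul]

theorem Ax_refl (cs : CoxeterSystem M W) (s : S) (z : S → ℝ) :
    Ax M (rho cs (cs.simple s) z) s = -Ax M z s := by
  rw [rho_simple, Ax_sub, Ax_smul, Ax_single, cf_self]
  ring

theorem L_left (A : Art cs G) {w : W} {s : S} (h : cs.length w < cs.length (cs.simple s * w)) :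
    A.L (cs.simple s * w) = A.σ s * A.L w := by
  rw [A.L_mul, A.L_simple]
  rw [cs.length_simple]
  rcases cs.length_simple_mul w s with h1 | h1 <;> omega

end Apt1Aux

theorem Sys.lam_nonneg (n : ℕ) : 0 ≤ Y.lam n := by
  rcases Nat.eq_zero_or_pos n with rfl | h
  · exact fun s => (Y.lam_pos s).le
  · exact (Y.lam_zero n h).ge

theorem Sys.d_nonneg (g : G) (n : ℕ) : 0 ≤ Y.d g n := fun s =>
  ((Y.Q_le g n _ _ (Y.Q_top g n)).1 s)

theorem InA.mono {d : G → ℕ → S → ℝ} {n m : ℕ} {g : G} (h : InA d n g) (hm : n ≤ m) :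
    InA d m g := fun k hk => h k (lt_of_le_of_lt hm hk)

theorem Sys.d_off_AT {g b : G} (h : g⁻¹ * b ∈ AT Y.σ T) (n : ℕ) {t : S} (ht : t ∉ T) :
    Y.d b n t = Y.d g n t := by
  have key : ∀ a ∈ AT Y.σ T, ∀ g, Y.d (g * a) n t = Y.d g n t := by
    intro a ha
    induction ha using Subgroup.closure_induction with
    | mem x hx =>
      obtain ⟨s, hs, rfl⟩ := hx
      exact fun g => Y.d_off g s n t fun h => ht (h ▸ hs)
    | one => intro g; rw [mul_one]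
    | mul x y _ _ hx hy => intro g; rw [← mul_assoc, hy, hx]
    | inv x _ hx => intro g; rw [← hx (g * x⁻¹), inv_mul_cancel_right]
  have := key _ h g
  rwa [mul_inv_cancel_left] at this

theorem Sys.down_Pos {g p : G} (hg : InA Y.d n g) (hp : p ∈ Pos Y.σ T) : InA Y.d n (g * p) := by
  induction hp using Submonoid.closure_induction_right with
  | one => rwa [mul_one]
  | mul_right x _ y hy ih =>
    obtain ⟨s, -, rfl⟩ := hy
    rw [← mul_assoc]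
    exact Y.down _ s n ih

theorem Sys.inA_of_two {T' : Finset S} (hd : Disjoint T T') {a b c : G} (ha : InA Y.d n a)
    (hb : InA Y.d n b) (hac : a⁻¹ * c ∈ AT Y.σ T) (hbc : b⁻¹ * c ∈ AT Y.σ T') : InA Y.d n c :=
  fun m hm => funext fun t => by
    by_cases ht : t ∈ T
    · rw [Y.d_off_AT hbc m (Finset.disjoint_left.1 hd ht), hb m hm]
    · rw [Y.d_off_AT hac m ht, ha m hm]

theorem Sys.IsTheta.coset {Y : Sys cs G} (h : Y.IsTheta n T K θ) {b : G}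
    (hb : K⁻¹ * b ∈ AT Y.σ T) : Y.IsTheta n T b θ :=
  ⟨h.1, fun t ht => (h.2 t ht).trans (Y.d_off_AT hb n ht).symm⟩

theorem Sys.exists_theta (hT : PD M T) (n : ℕ) (K : G) : ∃ θ, Y.IsTheta n T K θ :=
  hT.solve (Y.lam n) (Y.d K n)

theorem Sys.le_hh {e : S → ℝ} (he : e ∈ Y.QT n T K) (x : S → ℝ) :
    Bf M x (e - θ) ≤ Y.hh n T θ K x :=
  le_csSup ((((Y.Q_fin K n).image Prod.fst).subset
    fun e' (he' : e' ∈ Y.QT n T K) => ⟨_, he'.1, rfl⟩).image _).bddAbove ⟨e, he, rfl⟩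

theorem Sys.exists_hh (x : S → ℝ) : ∃ e ∈ Y.QT n T K, Y.hh n T θ K x = Bf M x (e - θ) := by
  have h1 : (Y.QT n T K).Finite := ((Y.Q_fin K n).image Prod.fst).subset
    fun e' (he' : e' ∈ Y.QT n T K) => ⟨_, he'.1, rfl⟩
  have h2 : (Y.QT n T K).Nonempty := ⟨Y.d K n, Y.Q_top K n, fun _ _ => rfl⟩
  obtain ⟨e, he, h3⟩ := (h2.image fun e => Bf M x (e - θ)).csSup_mem (h1.image _)
  exact ⟨e, he, h3.symm⟩

theorem Sys.d_mem_QT : Y.d K n ∈ Y.QT n T K := ⟨Y.Q_top K n, fun _ _ => rfl⟩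

theorem Sys.hh_convex : ConvexOn ℝ Set.univ (Y.hh n T θ K) := by
  refine ⟨convex_univ, fun x _ y _ a b ha hb _ => ?_⟩
  obtain ⟨e, he, h⟩ := Y.exists_hh (n := n) (T := T) (θ := θ) (K := K) (a • x + b • y)
  rw [h, Bf_add_left, Bf_smul_left, Bf_smul_left]
  exact add_le_add (mul_le_mul_of_nonneg_left (Y.le_hh he x) ha)
    (mul_le_mul_of_nonneg_left (Y.le_hh he y) hb)

theorem Sys.hh_smul {c : ℝ} (hc : 0 ≤ c) (x : S → ℝ) :
    Y.hh n T θ K (c • x) = c * Y.hh n T θ K x := by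
  apply le_antisymm
  · obtain ⟨e, he, h⟩ := Y.exists_hh (n := n) (T := T) (θ := θ) (K := K) (c • x)
    rw [h, Bf_smul_left]
    exact mul_le_mul_of_nonneg_left (Y.le_hh he x) hc
  · obtain ⟨e, he, h⟩ := Y.exists_hh (n := n) (T := T) (θ := θ) (K := K) x
    rw [h, ← Bf_smul_left]
    exact Y.le_hh he _

theorem Sys.hh_step (hK : InA Y.d n K) (hθ : Y.IsTheta n T K θ) {s : S} (hs : s ∈ T) {z : S → ℝ}
    (hz : 0 ≤ Ax M z s) :
    Y.hh n T θ K (rho cs (cs.simple s) z) = Y.hh n T θ (K * Y.σ s) z := by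
  have hne : ∀ t, t ∉ T → t ≠ s := fun t ht h => ht (h ▸ hs)
  apply le_antisymm
  · obtain ⟨e, he, h⟩ := Y.exists_hh (n := n) (T := T) (θ := θ) (K := K) (rho cs (cs.simple s) z)
    obtain ⟨e', h1, h2, h3⟩ := Y.I1 K s n e _ hK he.1
    refine le_trans ?_ (Y.le_hh (e := e') ⟨h1, fun t ht => (h2 t (hne t ht)).trans
      ((he.2 t ht).trans (Y.d_off K s n t (hne t ht)).symm)⟩ z)
    rw [h, Apt1Aux.Bf_refl, Apt1Aux.Bf_upd h2, Ax_sub, hθ.1 s hs]
    nlinarith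
  · obtain ⟨e', he, h⟩ := Y.exists_hh (n := n) (T := T) (θ := θ) (K := K * Y.σ s) z
    obtain ⟨e, h1, h2, h3⟩ := Y.I2 K s n e' _ hK he.1
    refine le_trans ?_ (Y.le_hh (e := e) ⟨h1, fun t ht => (h2 t (hne t ht)).trans
      ((he.2 t ht).trans (Y.d_off K s n t (hne t ht)))⟩ _)
    rw [h, Apt1Aux.Bf_refl, Apt1Aux.Bf_upd h2, Ax_sub, hθ.1 s hs, Apt1Aux.Ax_upd h2]
    nlinarith

theorem Sys.hh_apart (hK : InA Y.d n K) (hθ : Y.IsTheta n T K θ) {w : W} (hw : w ∈ par cs T)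
    {z : S → ℝ} (hz : ∀ s ∈ T, 0 ≤ Ax M z s) :
    Y.hh n T θ K (rho cs w z) = Bf M z (Y.d (K * Y.L w) n - θ) := by
  refine par_induction_left cs (p := fun w => ∀ K, InA Y.d n K → Y.IsTheta n T K θ →
    Y.hh n T θ K (rho cs w z) = Bf M z (Y.d (K * Y.L w) n - θ)) (fun K _ _ => ?_)
    (fun w hw s hs hl ih K hK hθ => ?_) hw K hK hθ
  · rw [Y.L_one, mul_one, map_one, Module.End.one_apply]
    refine le_antisymm ?_ (Y.le_hh Y.d_mem_QT z)
    obtain ⟨e, he, h⟩ := Y.exists_hh (n := n) (T := T) (θ := θ) (K := K) z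
    rw [h, Bf_eq_sum, Bf_eq_sum]
    refine Finset.sum_le_sum fun t _ => ?_
    by_cases ht : t ∈ T
    · exact mul_le_mul_of_nonneg_left (sub_le_sub_right ((Y.Q_le K n _ _ he.1).2 t) _) (hz t ht)
    · rw [Pi.sub_apply, Pi.sub_apply, he.2 t ht]
  · rw [rho_mul, Y.hh_step hK hθ hs (Ax_rho_nonneg cs hw hs hz hl),
      ih _ (Y.down K s n hK) (hθ.coset (by rw [inv_mul_cancel_left]; exact Y.σ_mem_AT hs)),
      Apt1Aux.L_left Y.toArt hl, mul_assoc]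

theorem Sys.hh_up {s : S} (hs : s ∈ T) (hK : InA Y.d n (K * (Y.σ s)⁻¹)) (hθ : Y.IsTheta n T K θ)
    {z : S → ℝ} (hz : 0 ≤ Ax M z s) :
    Y.hh n T θ K z ≤ Y.hh n T θ K (rho cs (cs.simple s) z) := by
  have hK' : InA Y.d n K := by
    have := Y.down _ s n hK
    rwa [inv_mul_cancel_right] at this
  have h1 := Y.I3 _ s n hK
  rw [inv_mul_cancel_right] at h1
  rw [Y.hh_step hK' hθ hs hz]
  obtain ⟨e, he, h⟩ := Y.exists_hh (n := n) (T := T) (θ := θ) (K := K) z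
  rw [h]
  exact Y.le_hh ⟨h1 he.1, fun t ht => (he.2 t ht).trans
    (Y.d_off K s n t fun h => ht (h ▸ hs)).symm⟩ z

theorem Sys.carry {U : Finset S} {z : S → ℝ} (hz : ∀ s ∈ U, 0 ≤ Ax M z s) {w : W}
    (hw : w ∈ par cs U) : ∀ (g : G) (e : S → ℝ), InA Y.d n g → (e, (0 : S → ℝ)) ∈ Y.Q g n →
      (∀ t, t ∉ U → e t = 0) → ∃ e', (e', (0 : S → ℝ)) ∈ Y.Q (g * Y.L w) n ∧
        (∀ t, t ∉ U → e' t = 0) ∧ Bf M (rho cs w z) e ≤ Bf M z e' := by
  refine par_induction_left cs (p := fun w => ∀ (g : G) (e : S → ℝ), InA Y.d n g →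
    (e, (0 : S → ℝ)) ∈ Y.Q g n → (∀ t, t ∉ U → e t = 0) →
      ∃ e', (e', (0 : S → ℝ)) ∈ Y.Q (g * Y.L w) n ∧ (∀ t, t ∉ U → e' t = 0) ∧
        Bf M (rho cs w z) e ≤ Bf M z e') (fun g e _ he hU => ?_)
    (fun w hw s hs hl ih g e hg he hU => ?_) hw
  · exact ⟨e, by rwa [Y.L_one, mul_one], hU, by simp⟩
  · obtain ⟨e₁, h1, h2, h3⟩ := Y.I1 g s n e 0 hg he
    obtain ⟨e', h4, h5, h6⟩ := ih (g * Y.σ s) e₁ (Y.down g s n hg) h1
      fun t ht => (h2 t fun h => ht (h ▸ hs)).trans (hU t ht)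
    refine ⟨e', by rwa [Apt1Aux.L_left Y.toArt hl, ← mul_assoc], h5, le_trans ?_ h6⟩
    have h7 := Apt1Aux.Bf_upd (M := M) h2 (rho cs w z) 0
    rw [sub_zero, sub_zero] at h7
    have h8 := Ax_rho_nonneg cs hw hs hz hl
    rw [rho_mul, Apt1Aux.Bf_refl, h7]
    simp only [Pi.zero_apply, add_zero] at h3
    nlinarith

theorem Sys.join {U : Finset S} (hU : PD M U) {g : G} (hg : InA Y.d n g)
    (h : ∀ s ∈ U, InA Y.d n (g * (Y.σ s)⁻¹)) {w : W} (hw : w ∈ par cs U) :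
    InA Y.d n (g * (Y.L w)⁻¹) := by
  refine par_induction_left cs (p := fun w => InA Y.d n (g * (Y.L w)⁻¹)) ?_
    (fun w hw s hs hl ih => ?_) hw
  · rwa [Y.L_one, inv_one, mul_one]
  · rw [Apt1Aux.L_left Y.toArt hl, mul_inv_rev, ← mul_assoc]
    by_contra hn
    obtain ⟨c, hc, hq⟩ := Y.J1 _ s n ih hn
    obtain ⟨z, hz, -⟩ := hU.solve (fun _ => 1) 0
    obtain ⟨e', h1, h2, h3⟩ := Y.carry (fun t ht => by rw [hz t ht]; exact zero_le_one) hw _ _ ih hq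
      fun t ht => Pi.single_eq_of_ne (fun h : t = s => ht (h ▸ hs)) _
    rw [inv_mul_cancel_right] at h1
    have h4 := Ax_rho_pos cs hw hs (fun t ht => by rw [hz t ht]; exact one_pos) hl
    rw [Bf_single_right] at h3
    obtain ⟨t, ht, h5⟩ := Y.J3 g n U e' hg hU h1 h2 (by
      rintro rfl
      rw [Bf_zero_right] at h3
      nlinarith)
    exact h5 (h t ht)

theorem Sys.kill (hT : PD M T) {g : G} (hg : InA Y.d (n + 1) g)
    (h : ∀ t, t ∉ T → Y.d g (n + 1) t = 0) : ∃ a ∈ AT Y.σ T, InA Y.d n (g * a) := by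
  obtain ⟨w₀, hw⟩ := exists_longest ((pd_iff_finite cs).1 hT)
  have hθ : Y.IsTheta (n + 1) T g 0 :=
    ⟨fun s _ => by rw [Ax_zero, Y.lam_zero _ n.succ_pos]; rfl, fun t ht => (h t ht).symm⟩
  obtain ⟨z, hz, -⟩ := hT.solve (fun _ => 1) 0
  have hz' : ∀ s ∈ T, 0 ≤ Ax M z s := fun t ht => by rw [hz t ht]; exact zero_le_one
  have h1 := Y.hh_apart hg hθ hw.1 hz'
  obtain ⟨e, he, h2⟩ := Y.exists_hh (n := n + 1) (T := T) (θ := 0) (K := g) (rho cs w₀ z)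
  have h3 : Bf M (rho cs w₀ z) (e - 0) ≤ 0 := by
    rw [sub_zero, Bf_eq_sum]
    refine Finset.sum_nonpos fun t _ => ?_
    by_cases ht : t ∈ T
    · exact mul_nonpos_of_nonpos_of_nonneg (hw.antidominant hz' t ht) ((Y.Q_le g _ _ _ he.1).1 t)
    · rw [he.2 t ht, h t ht, mul_zero]
  have h4 : ∀ t, t ∉ T → Y.d (g * Y.L w₀) (n + 1) t = 0 := fun t ht => by
    rw [Y.d_off_AT (g := g) (by rw [inv_mul_cancel_left]; exact Y.L_mem_AT hw.1) _ ht, h t ht]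
  have h5 : ∀ t ∈ Finset.univ, 0 ≤ Ax M z t * Y.d (g * Y.L w₀) (n + 1) t := fun t _ => by
    by_cases ht : t ∈ T
    · exact mul_nonneg (hz' t ht) (Y.d_nonneg _ _ t)
    · rw [h4 t ht, mul_zero]
  rw [← h2, h1, sub_zero, Bf_eq_sum] at h3
  have h6 := (Finset.sum_eq_zero_iff_of_nonneg h5).1 (le_antisymm h3 (Finset.sum_nonneg h5))
  refine ⟨Y.L w₀, Y.L_mem_AT hw.1, fun m hm => ?_⟩
  rcases (Nat.succ_le_of_lt hm).eq_or_lt with rfl | hm'
  · funext t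
    by_cases ht : t ∈ T
    · have := h6 t (Finset.mem_univ t)
      rwa [hz t ht, one_mul] at this
    · exact h4 t ht
  · exact Y.down_Pos hg (Y.L_mem_Pos hw.1) m hm'

end Vale.Agent.P203
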