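import Vale.Agent.P203.Apt1

namespace Vale.Agent.P203

universe u

variable {S W : Type} [Fintype S] [DecidableEq S] [Group W] {M : CoxeterMatrix S}
  {cs : CoxeterSystem M W} {G : Type u} [Group G] (Y : Sys cs G) {n : ℕ} {T Z : Finset S}
  {θ P : S → ℝ} {K : G} {w : W}

namespace Apt2Aux

theorem supp_zero {x y : S → ℝ} {Z : Finset S} (hx : ∀ s ∈ Z, Ax M x s = 0)
    (hy : ∀ s, s ∉ Z → y s = 0) : Bf M x y = 0 := by
  rw [Bf_eq_sum]
  refine Finset.sum_eq_zero fun t _ => ?_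
  by_cases ht : t ∈ Z
  · rw [hx t ht, zero_mul]
  · rw [hy t ht, mul_zero]

theorem low (A : Art cs G) {J : Set G} (hlow : ∀ g ∈ J, ∀ s ∈ T, g * A.σ s ∈ J) {g p : G}
    (hg : g ∈ J) (hp : p ∈ Pos A.σ T) : g * p ∈ J := by
  induction hp using Submonoid.closure_induction_right with
  | one => rwa [mul_one]
  | mul_right x _ y hy ih =>
    obtain ⟨s, hs, rfl⟩ := hy
    rw [← mul_assoc]
    exact hlow _ ih s hs

theorem climb0 (A : Art cs G) {J : Set G} (hlow : ∀ g ∈ J, ∀ s ∈ T, g * A.σ s ∈ J) {N : ℤ}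
    (h : ∀ a, K⁻¹ * a ∈ Pos A.σ T → A.len (K⁻¹ * a) < N → ∀ s ∈ T, a * (A.σ s)⁻¹ ∈ J →
      K⁻¹ * (a * (A.σ s)⁻¹) ∈ Pos A.σ T) {p : G} (hp : p ∈ Pos A.σ T) :
    ∀ a, K⁻¹ * a ∈ Pos A.σ T → A.len (K⁻¹ * a) < N → a * p⁻¹ ∈ J →
      K⁻¹ * (a * p⁻¹) ∈ Pos A.σ T := by
  induction hp using Submonoid.closure_induction_right with
  | one => intro a ha _ _; rwa [inv_one, mul_one]
  | mul_right x hx y hy ih =>
    obtain ⟨s, hs, rfl⟩ := hy
    intro a ha hl hJ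
    rw [mul_inv_rev, ← mul_assoc a] at hJ ⊢
    have h1 := low A hlow hJ hx
    rw [inv_mul_cancel_right] at h1
    refine ih _ (h a ha hl s hs h1) ?_ hJ
    rw [← mul_assoc, A.len_mul, A.len_inv, A.len_σ]
    omega

theorem climb1 (Y : Sys cs G) {p : G → Prop} {a : G}
    (hup : ∀ g, a⁻¹ * g ∈ AT Y.σ T → ∀ s ∈ T, InA Y.d n (g * (Y.σ s)⁻¹) → p g →
      p (g * (Y.σ s)⁻¹)) {q : G} (hq : q ∈ Pos Y.σ T) :
    ∀ g, a⁻¹ * g ∈ AT Y.σ T → InA Y.d n (g * q⁻¹) → p g → p (g * q⁻¹) := by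
  induction hq using Submonoid.closure_induction_right with
  | one => intro g _ _ h; rwa [inv_one, mul_one]
  | mul_right x hx y hy ih =>
    obtain ⟨s, hs, rfl⟩ := hy
    intro g hg hA hp
    rw [mul_inv_rev, ← mul_assoc g] at hA ⊢
    have h1 := Y.down_Pos hA hx
    rw [inv_mul_cancel_right] at h1
    refine ih _ ?_ hA (hup g hg s hs h1 hp)
    rw [← mul_assoc]
    exact mul_mem hg (inv_mem (Y.σ_mem_AT hs))

theorem pair_sub {s t : S} (hs : s ∈ T) (ht : t ∈ T) : ({s, t} : Finset S) ⊆ T :=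
  Finset.insert_subset hs (Finset.singleton_subset_iff.2 ht)

theorem pair_cases {p : S → Prop} {s t : S} (hs : p s) (ht : p t) :
    ∀ r ∈ ({s, t} : Finset S), p r := fun r hr => by
  rcases Finset.mem_insert.1 hr with rfl | h
  · exact hs
  · rw [Finset.mem_singleton.1 h]; exact ht

theorem up_down (Y : Sys cs G) {g : G} {s : S} (h : InA Y.d n (g * (Y.σ s)⁻¹)) : InA Y.d n g := by
  have := Y.down _ s n h
  rwa [inv_mul_cancel_right] at this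

end Apt2Aux

theorem Sys.locglob (hT : PD M T) (hZ : Z ⊆ T) (hK : InA Y.d n K) (hθ : Y.IsTheta n T K θ)
    (hw : w ∈ par cs T) (hP : Y.IsTheta n Z (K * Y.L w) P) (hq : Y.Quiet n (K * Y.L w) Z Z P)
    (v : S → ℝ) : -Bf M (rho cs w (θ - P)) v ≤ Y.hh n T θ K v := by
  classical
  have hν : ∀ s ∈ Z, Ax M (θ - P) s = 0 := fun s hs => by
    rw [Ax_sub, hθ.1 s (hZ hs), hP.1 s hs, sub_self]
  obtain ⟨y, hy, -⟩ := hT.solve (fun s => if s ∈ Z then 0 else 1) 0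
  have hy0 : ∀ s ∈ T, 0 ≤ Ax M y s := fun s hs => by rw [hy s hs]; split_ifs <;> norm_num
  have hyZ : (T.filter fun s => Ax M y s = 0) ⊆ Z := fun s hs => by
    obtain ⟨h1, h2⟩ := Finset.mem_filter.1 hs
    by_contra hn
    rw [hy s h1, if_neg hn] at h2
    exact one_ne_zero h2
  let φ : (S → ℝ) → ℝ := fun v => Y.hh n T θ K v + Bf M (rho cs w (θ - P)) v
  have hc : ConvexOn ℝ Set.univ φ := Y.hh_convex.add ⟨convex_univ, fun x _ y _ a b _ _ _ =>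
    le_of_eq (by rw [Bf_add_right, Bf_smul_right, Bf_smul_right]; rfl)⟩
  have key : ∀ u ∈ par cs Z, ∀ z, (∀ s ∈ T, 0 ≤ Ax M z s) →
      φ (rho cs (w * u) z) = Bf M z (Y.d (K * Y.L (w * u)) n - P) := by
    intro u hu z hz
    change Y.hh n T θ K _ + _ = _
    rw [Y.hh_apart hK hθ (mul_mem hw (par_mono cs hZ hu)) hz, rho_mul, Bf_rho, Bf_symm (θ - P),
      Bf_rho_left, rho_fix cs (inv_mem hu) hν, ← Bf_add_right, sub_add_sub_cancel]
  have h0 : φ (rho cs w y) = 0 := by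
    have := key 1 (one_mem _) y hy0
    rw [mul_one] at this
    rw [this]
    exact Apt2Aux.supp_zero (Z := Z) (fun s hs => by rw [hy s (hZ hs), if_pos hs])
      fun s hs => by rw [Pi.sub_apply, hP.2 s hs, sub_self]
  have hcont : Continuous (rho cs w⁻¹) := LinearMap.continuous_of_finiteDimensional _
  have ht : Filter.Tendsto (rho cs w⁻¹) (nhds (rho cs w y)) (nhds y) := by
    have := hcont.tendsto (rho cs w y)
    rwa [rho_inv_rho] at this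
  have hmin : IsLocalMin φ (rho cs w y) := by
    filter_upwards [ht.eventually (star_lemma cs ((pd_iff_finite cs).1 hT) hy0)] with x hx
    obtain ⟨u, hu, z, hz, -, hx⟩ := hx
    have hu' := par_mono cs hyZ hu
    have e : x = rho cs (w * u) z := by
      rw [rho_mul, ← hx, ← rho_mul, mul_inv_cancel, map_one, Module.End.one_apply]
    have hb : (K * Y.L w)⁻¹ * (K * Y.L (w * u)) ∈ AT Y.σ Z := by
      rw [mul_inv_rev, mul_assoc, inv_mul_cancel_left]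
      exact Y.L_coset hu'
    rw [h0, e, key u hu' z hz, Bf_eq_sum]
    refine Finset.sum_nonneg fun t _ => ?_
    by_cases ht : t ∈ Z
    · exact mul_nonneg (hz t (hZ ht)) (sub_nonneg.2 (hq _ hb
        (Y.down_Pos hK (Y.L_mem_Pos (mul_mem hw (par_mono cs hZ hu')))) t ht))
    · rw [Pi.sub_apply, Y.d_off_AT hb n ht, hP.2 t ht, sub_self, mul_zero]
  have := IsMinOn.of_isLocalMin_of_convex_univ hmin hc v
  rw [h0] at this
  exact neg_le_iff_add_nonneg.2 this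

theorem Sys.hh_center (hZ : Z ⊆ T) (hK : InA Y.d n K) (hθ : Y.IsTheta n T K θ)
    (hw : w ∈ par cs T) (hP : Y.IsTheta n Z (K * Y.L w) P)
    (hnef : ∀ s ∈ T, Ax M P s ≤ Y.lam n s) :
    Y.hh n T θ K (rho cs w (θ - P)) = -Bf M (θ - P) (θ - P) := by
  have hν : ∀ s ∈ Z, Ax M (θ - P) s = 0 := fun s hs => by
    rw [Ax_sub, hθ.1 s (hZ hs), hP.1 s hs, sub_self]
  have h1 : Bf M (θ - P) (Y.d (K * Y.L w) n - P) = 0 :=
    Apt2Aux.supp_zero hν fun s hs => by rw [Pi.sub_apply, hP.2 s hs, sub_self]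
  rw [Y.hh_apart hK hθ hw fun s hs => by rw [Ax_sub, hθ.1 s hs]; linarith [hnef s hs],
    ← sub_sub_sub_cancel_right _ θ P, Bf_sub_right, h1, zero_sub]

theorem Sys.step_lt (hT : PD M T) (hZ : Z ⊆ T) (hθ : Y.IsTheta n T K θ)
    (hw : w ∈ par cs T) (hm : IsMinRep cs Z w) (hP : Y.IsTheta n Z (K * Y.L w) P)
    (hq : Y.Quiet n (K * Y.L w) Z Z P) (hst : ∀ s ∈ T, s ∉ Z → Ax M P s < Y.lam n s)
    {s : S} (hs : s ∈ T) (hK : InA Y.d n (K * (Y.σ s)⁻¹)) :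
    cs.length w < cs.length (cs.simple s * w) := by
  have hK' := Apt2Aux.up_down Y hK
  have hnef : ∀ t ∈ T, Ax M P t ≤ Y.lam n t := fun t ht => by
    by_cases h : t ∈ Z
    · exact (hP.1 t h).le
    · exact (hst t ht h).le
  have hν : ∀ t ∈ T, 0 ≤ Ax M (θ - P) t := fun t ht => by
    rw [Ax_sub, hθ.1 t ht]; linarith [hnef t ht]
  have hf : (T.filter fun t => Ax M (θ - P) t = 0) = Z := by
    ext t
    rw [Finset.mem_filter]
    refine ⟨fun h => ?_, fun h => ⟨hZ h, by rw [Ax_sub, hθ.1 t (hZ h), hP.1 t h, sub_self]⟩⟩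
    by_contra hn
    have h1 := hst t h.1 hn
    have h2 := h.2
    rw [Ax_sub, hθ.1 t h.1] at h2
    linarith
  refine lt_simple_mul_of_nonneg cs hw hs hν (by rwa [hf]) ?_
  by_contra hn
  have hx := not_le.1 hn
  have h1 := Y.locglob hT hZ hK' hθ hw hP hq (rho cs (cs.simple s) (rho cs w (θ - P)))
  have h2 := Y.hh_up hs hK hθ (z := rho cs (cs.simple s) (rho cs w (θ - P)))
    (by rw [Apt1Aux.Ax_refl]; linarith)
  rw [← rho_mul cs (cs.simple s) (cs.simple s), cs.simple_mul_simple_self, map_one,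
    Module.End.one_apply, Y.hh_center hZ hK' hθ hw hP hnef] at h2
  rw [Bf_symm, Apt1Aux.Bf_refl, Bf_rho] at h1
  nlinarith

theorem Art.top (A : Art cs G) (hT : Finite (par cs T)) {J : Set G}
    (hlow : ∀ g ∈ J, ∀ s ∈ T, g * A.σ s ∈ J)
    (hjoin : ∀ g, ∀ s ∈ T, ∀ t ∈ T, g * (A.σ s)⁻¹ ∈ J → g * (A.σ t)⁻¹ ∈ J →
      ∀ w ∈ par cs {s, t}, g * (A.L w)⁻¹ ∈ J)
    (hKJ : K ∈ J) (hK : ∀ s ∈ T, K * (A.σ s)⁻¹ ∉ J) {a b : G} (ha : K⁻¹ * a ∈ Pos A.σ T) (hb : b ∈ J)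
    (hab : b⁻¹ * a ∈ Pos A.σ T) : K⁻¹ * b ∈ Pos A.σ T := by
  have key : ∀ N : ℕ, ∀ a, K⁻¹ * a ∈ Pos A.σ T → A.len (K⁻¹ * a) < N → ∀ s ∈ T,
      a * (A.σ s)⁻¹ ∈ J → K⁻¹ * (a * (A.σ s)⁻¹) ∈ Pos A.σ T := by
    intro N
    induction N with
    | zero => intro a ha hl; exact absurd (A.len_nonneg ha) (by omega)
    | succ N ih =>
      intro a ha hl s hs hJ
      rcases A.pos_cases ha with h1 | ⟨q, hq, t, ht, h1⟩
      · rw [inv_mul_eq_one.1 h1] at hK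
        exact absurd hJ (hK s hs)
      have e1 : a * (A.σ t)⁻¹ = K * q := by
        rw [mul_inv_eq_iff_eq_mul, mul_assoc, ← h1, mul_inv_cancel_left]
      have hst := Apt2Aux.pair_sub hs ht
      obtain ⟨w₀, hw⟩ := exists_longest (finite_par_mono cs hst hT)
      have h2 := hjoin a s hs t ht hJ (by rw [e1]; exact Apt2Aux.low A hlow hKJ hq) w₀ hw.1
      have mem : ∀ r ∈ ({s, t} : Finset S), ∃ u ∈ Pos A.σ T, A.L w₀ = u * A.σ r := fun r hr => by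
        have h3 := (simple_mem_par cs).2 hr
        refine ⟨_, A.Pos_mono hst (A.L_mem_Pos (mul_mem hw.1 (inv_mem h3))), ?_⟩
        rw [A.L_longest_right hw h3, A.L_simple]
      obtain ⟨u, hu, e2⟩ := mem t (by simp)
      obtain ⟨u', hu', e3⟩ := mem s (by simp)
      have e4 : a * (A.L w₀)⁻¹ = K * q * u⁻¹ := by rw [e2, mul_inv_rev, ← mul_assoc, e1]
      have h4 := Apt2Aux.climb0 A hlow ih hu (K * q) (by rwa [inv_mul_cancel_left]) (by
        rw [inv_mul_cancel_left]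
        rw [h1, A.len_mul, A.len_σ] at hl
        omega) (by rwa [← e4])
      rw [← e4, e3] at h4
      have h5 := mul_mem h4 hu'
      rwa [mul_inv_rev, ← mul_assoc a, mul_assoc K⁻¹, inv_mul_cancel_right] at h5
  have h1 := Apt2Aux.climb0 A hlow (key ((A.len (K⁻¹ * a)).toNat + 1)) hab a ha (by omega)
  rw [mul_inv_rev, inv_inv, mul_inv_cancel_left] at h1
  exact h1 hb

theorem Sys.lcm : Y.toArt.Lcm := by
  intro T U v hT hU hs hv w hw
  have hPD := (pd_iff_finite cs).2 hT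
  obtain ⟨w₀, hw₀⟩ := exists_longest hT
  have h1 : InA Y.d 0 1 := fun m _ => Y.d_one m
  have h2 : InA Y.d 0 (Y.L w₀)⁻¹ := by
    have := Y.join hPD h1 (fun s _ => by
      by_contra hn
      obtain ⟨c, hc, hq⟩ := Y.J1 1 s 0 h1 hn
      have h3 := (Y.Q_le _ _ _ _ hq).2 s
      rw [Y.d_one, Pi.single_eq_same] at h3
      exact absurd h3 (not_le.2 hc)) hw₀.1
    rwa [one_mul] at this
  have hK : (Y.L w₀)⁻¹ ∈ AT Y.σ T := inv_mem (Y.L_mem_AT hw₀.1)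
  have h3 : ∀ s ∈ T, ¬ InA Y.d 0 ((Y.L w₀)⁻¹ * (Y.σ s)⁻¹) := fun s hs hn => by
    obtain ⟨θ, hθ⟩ := Y.exists_theta hPD 0 (Y.L w₀)⁻¹
    have h4 := Y.step_lt (Z := ∅) (P := 0) hPD (Finset.empty_subset _) hθ hw₀.1
      ((isMinRep_iff cs).2 fun s hs => absurd hs (Finset.notMem_empty s))
      ⟨fun s hs => absurd hs (Finset.notMem_empty s), fun t _ => by
        rw [inv_mul_cancel, Y.d_one]⟩
      (fun _ _ _ j hj => absurd hj (Finset.notMem_empty j))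
      (fun s _ _ => by rw [Ax_zero]; exact Y.lam_pos s) hs hn
    have h5 := hw₀.left ((simple_mem_par cs).2 hs)
    omega
  have h6 : ∀ b, InA Y.d 0 b → b ∈ AT Y.σ T → (Y.L w₀)⁻¹⁻¹ * b ∈ Pos Y.σ T := fun b hb hb' => by
    obtain ⟨p, hp, hp'⟩ := Y.ore_right hT (mul_mem (inv_mem hK) hb')
    refine Y.top hT (J := {g | InA Y.d 0 g ∧ g ∈ AT Y.σ T})
      (fun g hg s hs => ⟨Y.down g s 0 hg.1, mul_mem hg.2 (Y.σ_mem_AT hs)⟩)
      (fun g s hs t ht hgs hgt x hx => ⟨Y.join (hPD.mono (Apt2Aux.pair_sub hs ht))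
        (Apt2Aux.up_down Y hgs.1) (Apt2Aux.pair_cases hgs.1 hgt.1) hx, ?_⟩)
      ⟨h2, hK⟩ (fun s hs h => h3 s hs h.1) (a := b * p) (by rwa [← mul_assoc]) ⟨hb, hb'⟩
      (by rwa [inv_mul_cancel_left])
    have h7 := mul_mem hgs.2 (Y.σ_mem_AT hs)
    rw [inv_mul_cancel_right] at h7
    exact mul_mem h7 (inv_mem (Y.AT_mono (Apt2Aux.pair_sub hs ht) (Y.L_mem_AT hx)))
  have h8 := h6 ((Y.L w₀)⁻¹ * v * (Y.L w)⁻¹)
    (Y.join (hPD.mono hU) (Y.down_Pos h2 hv)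
      (fun s h => by rw [mul_assoc]; exact Y.down_Pos h2 (hs s h)) hw)
    (mul_mem (mul_mem hK (Y.mem_AT_of_Pos hv)) (inv_mem (Y.AT_mono hU (Y.L_mem_AT hw))))
  rwa [mul_assoc, inv_mul_cancel_left] at h8

theorem Sys.directed (hT : PD M T) {a b : G} (ha : InA Y.d n a) (hb : InA Y.d n b)
    (hab : a⁻¹ * b ∈ AT Y.σ T) :
    ∃ K, InA Y.d n K ∧ K⁻¹ * a ∈ Pos Y.σ T ∧ K⁻¹ * b ∈ Pos Y.σ T := by
  have hF := (pd_iff_finite cs).1 hT
  obtain ⟨p, hp, hp'⟩ := Y.ore_left hF hab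
  obtain ⟨K₀, ha0, hb0⟩ : ∃ K₀ : G, K₀⁻¹ * a ∈ Pos Y.σ T ∧ K₀⁻¹ * b ∈ Pos Y.σ T :=
    ⟨a * p⁻¹, by rwa [mul_inv_rev, inv_inv, inv_mul_cancel_right],
      by rwa [mul_inv_rev, inv_inv, mul_assoc]⟩
  obtain ⟨K, ⟨⟨k1, k2⟩, k3⟩, hmin⟩ := exists_minimalFor_of_wellFoundedLT
    (fun K => (InA Y.d n K ∧ K₀⁻¹ * K ∈ Pos Y.σ T) ∧ K⁻¹ * a ∈ Pos Y.σ T)
    (fun K => (Y.len (K₀⁻¹ * K)).toNat) ⟨a, ⟨ha, ha0⟩, by rw [inv_mul_cancel]; exact one_mem _⟩
  obtain ⟨q, hq, hq'⟩ := Y.ore_right hF hab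
  refine ⟨K, k1, k3, Y.top hF (J := {g | InA Y.d n g ∧ K₀⁻¹ * g ∈ Pos Y.σ T})
    (fun g hg s hs => ⟨Y.down g s n hg.1, by
      rw [← mul_assoc]; exact mul_mem hg.2 (Y.σ_mem_Pos hs)⟩)
    (fun g s hs t ht hgs hgt x hx => ⟨Y.join (hT.mono (Apt2Aux.pair_sub hs ht))
      (Apt2Aux.up_down Y hgs.1) (Apt2Aux.pair_cases hgs.1 hgt.1) hx, ?_⟩)
    ⟨k1, k2⟩ (fun s hs h => ?_) (a := b * q) ?_ ⟨hb, hb0⟩ (by rwa [inv_mul_cancel_left])⟩
  · have h1 := hgs.2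
    have h2 := hgt.2
    rw [← mul_assoc] at h1 h2 ⊢
    have h3 := mul_mem h1 (Y.σ_mem_Pos hs)
    rw [inv_mul_cancel_right] at h3
    exact Y.lcm T {s, t} _ hF (Apt2Aux.pair_sub hs ht) (Apt2Aux.pair_cases h1 h2) h3 x hx
  · have h1 : Y.len (K₀⁻¹ * (K * (Y.σ s)⁻¹)) = Y.len (K₀⁻¹ * K) - 1 := by
      rw [← mul_assoc, Y.len_mul, Y.len_inv, Y.len_σ, sub_eq_add_neg]
    have h2 := Y.len_nonneg h.2
    have h3 := hmin (j := K * (Y.σ s)⁻¹) ⟨h, by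
      rw [mul_inv_rev, inv_inv, mul_assoc]; exact mul_mem (Y.σ_mem_Pos hs) k3⟩ (by
        change (Y.len _).toNat ≤ (Y.len _).toNat
        omega)
    change (Y.len _).toNat ≤ (Y.len _).toNat at h3
    omega
  · have := mul_mem k3 hq'
    rwa [mul_assoc, mul_assoc, mul_inv_cancel_left] at this

theorem Sys.walk (hT : PD M T) {p : G → Prop} {a : G} (ha : InA Y.d n a) (h0 : p a)
    (hup : ∀ g, a⁻¹ * g ∈ AT Y.σ T → ∀ s ∈ T, InA Y.d n (g * (Y.σ s)⁻¹) → p g →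
      p (g * (Y.σ s)⁻¹))
    (hdown : ∀ g, a⁻¹ * g ∈ AT Y.σ T → ∀ s ∈ T, InA Y.d n g → p g → p (g * Y.σ s))
    {b : G} (hb : InA Y.d n b) (hab : a⁻¹ * b ∈ AT Y.σ T) : p b := by
  obtain ⟨K, hK, ka, kb⟩ := Y.directed hT ha hb hab
  have hKa : a⁻¹ * K ∈ AT Y.σ T := by
    have := inv_mem (Y.mem_AT_of_Pos ka)
    rwa [mul_inv_rev, inv_inv] at this
  have h1 := Apt2Aux.climb1 Y hup ka a (by rw [inv_mul_cancel]; exact one_mem _)
  rw [mul_inv_rev, inv_inv, mul_inv_cancel_left] at h1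
  have key : ∀ q ∈ Pos Y.σ T, p (K * q) := by
    intro q hq
    induction hq using Submonoid.closure_induction_right with
    | one => rw [mul_one]; exact h1 hK h0
    | mul_right x hx y hy ih =>
      obtain ⟨s, hs, rfl⟩ := hy
      rw [← mul_assoc]
      refine hdown _ ?_ s hs (Y.down_Pos hK hx) ih
      rw [← mul_assoc]
      exact mul_mem hKa (Y.mem_AT_of_Pos hx)
  have := key _ kb
  rwa [mul_inv_cancel_left] at this

theorem Sys.climb {p : G → Prop} {a : G} (hK : InA Y.d n K) (ha : K⁻¹ * a ∈ Pos Y.σ T) (h0 : p a)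
    (hup : ∀ g, a⁻¹ * g ∈ AT Y.σ T → ∀ s ∈ T, InA Y.d n (g * (Y.σ s)⁻¹) → p g →
      p (g * (Y.σ s)⁻¹)) : p K := by
  have h1 := Apt2Aux.climb1 Y hup ha a (by rw [inv_mul_cancel]; exact one_mem _)
  rw [mul_inv_rev, inv_inv, mul_inv_cancel_left] at h1
  exact h1 hK h0

end Vale.Agent.P203
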