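import Vale.Agent.P203.Apt2

namespace Vale.Agent.P203

universe u

variable {S W : Type} [Fintype S] [DecidableEq S] [Group W] {M : CoxeterMatrix S}
  {cs : CoxeterSystem M W} {G : Type u} [Group G] (Y : Sys cs G) {n : ℕ}

namespace Apt3

variable {U T₁ Z : Finset S} {a : G} {P : S → ℝ}

theorem face (horth : ∀ s ∈ U, ∀ t ∈ T₁, cf M s t = 0) (hZ : Z ⊆ U)
    (e : ∀ j, j ∉ Z ∪ T₁ → P j = Y.d a n j) (z : ∀ j ∈ Z, Ax M P j = Y.lam n j)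
    (q : Y.Quiet n a (Z ∪ T₁) Z P) {b : G} (hb : a⁻¹ * b ∈ AT Y.σ (Z ∪ T₁)) :
    ∃ P', Y.IsTheta n Z b P' ∧ Y.Quiet n b Z Z P' ∧ ∀ s ∈ U, Ax M P' s = Ax M P s := by
  have h : ∀ s ∈ U, Ax M (fun j => if j ∈ Z then P j else Y.d b n j) s = Ax M P s := by
    intro s hs
    refine Ax_congr fun t ht => ?_
    split_ifs with h1
    · rfl
    · have h2 : t ∉ Z ∪ T₁ := fun h =>
        (Finset.mem_union.1 h).elim h1 fun h3 => ht (horth s hs t h3)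
      rw [Y.d_off_AT hb n h2, e t h2]
  refine ⟨_, ⟨fun s hs => (h s (hZ hs)).trans (z s hs), fun t ht => if_neg ht⟩,
    fun b' h1 h2 j hj => ?_, h⟩
  refine (if_pos hj).trans_le (q b' ?_ h2 j hj)
  have := mul_mem hb (Y.AT_mono Finset.subset_union_left h1)
  rwa [mul_assoc, mul_inv_cancel_left] at this

theorem up (hT : PD M (U ∪ T₁)) (horth : ∀ s ∈ U, ∀ t ∈ T₁, cf M s t = 0) (hZ : Z ⊆ U)
    (e : ∀ j, j ∉ Z ∪ T₁ → P j = Y.d a n j) (z : ∀ j ∈ Z, Ax M P j = Y.lam n j)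
    (st : ∀ j ∈ U, j ∉ Z → Ax M P j < Y.lam n j) (q : Y.Quiet n a (Z ∪ T₁) Z P) {K : G}
    (hK : InA Y.d n K) (ha : K⁻¹ * a ∈ Pos Y.σ (U ∪ T₁)) :
    ∃ w ∈ par cs U, a⁻¹ * (K * Y.L w) ∈ AT Y.σ (Z ∪ T₁) := by
  have hU := hT.mono Finset.subset_union_left
  refine Y.climb (p := fun g => ∃ w ∈ par cs U, a⁻¹ * (g * Y.L w) ∈ AT Y.σ (Z ∪ T₁)) hK ha
    ⟨1, one_mem _, by rw [Y.L_one, mul_one, inv_mul_cancel]; exact one_mem _⟩ ?_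
  rintro g - s hs hg ⟨w, hw, h⟩
  rcases Finset.mem_union.1 hs with hs | hs
  · obtain ⟨v, u, hu, hv, rfl⟩ := exists_minRep cs Z w
    have hvU : v ∈ par cs U := by
      have := mul_mem hw (inv_mem (par_mono cs hZ hu))
      rwa [mul_inv_cancel_right] at this
    have hb : a⁻¹ * (g * Y.L v) ∈ AT Y.σ (Z ∪ T₁) := by
      have := mul_mem h (inv_mem (Y.AT_mono Finset.subset_union_left (Y.L_coset (w := v) hu)))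
      rwa [mul_inv_rev, inv_inv, mul_assoc, mul_assoc, mul_inv_cancel_left] at this
    obtain ⟨θ, hθ⟩ := Y.exists_theta hU n g
    obtain ⟨P', h1, h2, h3⟩ := face Y horth hZ e z q hb
    have hl := Y.step_lt hU hZ hθ hvU hv h1 h2
      (fun t ht ht' => (h3 t ht).trans_lt (st t ht ht')) hs hg
    have hl' : cs.length (cs.simple s * v) = cs.length (cs.simple s) + cs.length v := by
      rw [cs.length_simple]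
      rcases cs.length_simple_mul v s with h4 | h4 <;> omega
    refine ⟨cs.simple s * v, mul_mem ((simple_mem_par cs).2 hs) hvU, ?_⟩
    rwa [Y.L_mul hl', Y.L_simple, mul_assoc, inv_mul_cancel_left]
  · refine ⟨w, hw, ?_⟩
    have hc := (Y.commute_AT (fun t ht => horth t ht s hs) (Y.L_mem_AT hw)).inv_right
    rw [mul_assoc, ← hc.eq, ← mul_assoc g, ← mul_assoc]
    exact mul_mem h (inv_mem (Y.σ_mem_AT (Finset.mem_union_right _ hs)))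

end Apt3

theorem Sys.uniq {U T₁ Z₁ Z₂ : Finset S} (hT : PD M (U ∪ T₁))
    (horth : ∀ s ∈ U, ∀ t ∈ T₁, cf M s t = 0) {a₁ a₂ : G} (h₁ : InA Y.d n a₁) (h₂ : InA Y.d n a₂)
    (h12 : a₁⁻¹ * a₂ ∈ AT Y.σ (U ∪ T₁)) (hZ₁ : Z₁ ⊆ U) (hZ₂ : Z₂ ⊆ U) {P₁ P₂ : S → ℝ}
    (e₁ : ∀ j, j ∉ Z₁ ∪ T₁ → P₁ j = Y.d a₁ n j) (e₂ : ∀ j, j ∉ Z₂ ∪ T₁ → P₂ j = Y.d a₂ n j)
    (z₁ : ∀ j ∈ Z₁, Ax M P₁ j = Y.lam n j) (z₂ : ∀ j ∈ Z₂, Ax M P₂ j = Y.lam n j)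
    (s₁ : ∀ j ∈ U, j ∉ Z₁ → Ax M P₁ j < Y.lam n j) (s₂ : ∀ j ∈ U, j ∉ Z₂ → Ax M P₂ j < Y.lam n j)
    (q₁ : Y.Quiet n a₁ (Z₁ ∪ T₁) Z₁ P₁) (q₂ : Y.Quiet n a₂ (Z₂ ∪ T₁) Z₂ P₂) :
    Z₁ = Z₂ ∧ a₁⁻¹ * a₂ ∈ AT Y.σ (Z₁ ∪ T₁) := by
  have hU := hT.mono Finset.subset_union_left
  obtain ⟨K, hK, k₁, k₂⟩ := Y.directed hT h₁ h₂ h12
  obtain ⟨w₁, hw₁, b₁⟩ := Apt3.up Y hT horth hZ₁ e₁ z₁ s₁ q₁ hK k₁
  obtain ⟨w₂, hw₂, b₂⟩ := Apt3.up Y hT horth hZ₂ e₂ z₂ s₂ q₂ hK k₂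
  obtain ⟨θ, hθ⟩ := Y.exists_theta hU n K
  obtain ⟨Q₁, t₁, r₁, c₁⟩ := Apt3.face Y horth hZ₁ e₁ z₁ q₁ b₁
  obtain ⟨Q₂, t₂, r₂, c₂⟩ := Apt3.face Y horth hZ₂ e₂ z₂ q₂ b₂
  have key : ∀ {Z : Finset S} {P Q : S → ℝ} {w : W}, Z ⊆ U → w ∈ par cs U →
      (∀ j ∈ Z, Ax M P j = Y.lam n j) → (∀ j ∈ U, j ∉ Z → Ax M P j < Y.lam n j) →
      Y.IsTheta n Z (K * Y.L w) Q → (∀ s ∈ U, Ax M Q s = Ax M P s) →
      (∀ s ∈ U, Ax M Q s ≤ Y.lam n s) ∧ (∀ s ∈ U, 0 ≤ Ax M (θ - Q) s) ∧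
        (U.filter fun s => Ax M (θ - Q) s = 0) = Z ∧ ∀ t, t ∉ U → rho cs w (θ - Q) t = 0 := by
    intro Z P Q w hZ hw z st t c
    have h1 : ∀ s ∈ U, Ax M Q s ≤ Y.lam n s := fun s hs => by
      rw [c s hs]
      by_cases h : s ∈ Z
      · exact (z s h).le
      · exact (st s hs h).le
    refine ⟨h1, fun s hs => ?_, ?_, fun j hj => ?_⟩
    · rw [Ax_sub, hθ.1 s hs]
      linarith [h1 s hs]
    · ext s
      rw [Finset.mem_filter, Ax_sub]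
      constructor
      · rintro ⟨hs, h⟩
        by_contra h'
        rw [hθ.1 s hs, c s hs] at h
        linarith [st s hs h']
      · intro h
        exact ⟨hZ h, by rw [hθ.1 s (hZ h), t.1 s h, sub_self]⟩
    · rw [rho_off cs hw _ hj, Pi.sub_apply, hθ.2 j hj, t.2 j fun h => hj (hZ h),
        Y.d_off_AT (g := K) (b := K * Y.L w) (T := U)
          (by rw [inv_mul_cancel_left]; exact Y.L_mem_AT hw) n hj,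
        sub_self]
  obtain ⟨n₁, d₁, f₁, o₁⟩ := key hZ₁ hw₁ z₁ s₁ t₁ c₁
  obtain ⟨n₂, d₂, f₂, o₂⟩ := key hZ₂ hw₂ z₂ s₂ t₂ c₂
  have l₁ := Y.locglob hU hZ₁ hK hθ hw₁ t₁ r₁ (rho cs w₂ (θ - Q₂))
  have l₂ := Y.locglob hU hZ₂ hK hθ hw₂ t₂ r₂ (rho cs w₁ (θ - Q₁))
  rw [Y.hh_center hZ₂ hK hθ hw₂ t₂ n₂, ← Bf_rho cs w₂ (θ - Q₂)] at l₁
  rw [Y.hh_center hZ₁ hK hθ hw₁ t₁ n₁, ← Bf_rho cs w₁ (θ - Q₁)] at l₂
  have hx : rho cs w₁ (θ - Q₁) = rho cs w₂ (θ - Q₂) := by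
    by_contra h
    have := hU _ (fun t ht => by rw [Pi.sub_apply, o₁ t ht, o₂ t ht, sub_self]) (sub_ne_zero.2 h)
    rw [Bf_sub_left, Bf_sub_right, Bf_sub_right] at this
    linarith
  obtain ⟨hν, hu⟩ := stab cs (mul_mem (inv_mem hw₂) hw₁) d₁ d₂
    (by rw [rho_mul, hx, rho_inv_rho])
  rw [f₁] at hu
  have hZ : Z₁ = Z₂ := by rw [← f₁, ← f₂, hν]
  refine ⟨hZ, ?_⟩
  rw [← hZ] at b₂
  have h3 := Y.AT_mono (Finset.subset_union_left (s₂ := T₁)) (Y.L_coset (w := w₂) hu)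
  rw [mul_inv_cancel_left] at h3
  have h4 := mul_mem (mul_mem b₁ (inv_mem h3)) (inv_mem b₂)
  have e : a₁⁻¹ * (K * Y.L w₁) * ((Y.L w₂)⁻¹ * Y.L w₁)⁻¹ * (a₂⁻¹ * (K * Y.L w₂))⁻¹
      = a₁⁻¹ * a₂ := by group
  rwa [e] at h4

end Vale.Agent.P203
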