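import Vale.Agent.P203.Apt2

namespace Vale.Agent.P203

universe u

variable {S W : Type} [Fintype S] [DecidableEq S] [Group W] {M : CoxeterMatrix S}
  {cs : CoxeterSystem M W} {G : Type u} [Group G] (Y : Sys cs G) {n : ℕ}

namespace Apt4

variable {T : Finset S} {θ x y : S → ℝ} {K : G} {w : W}

/-- the point lies in a quiet face of the apartment -/
def Gd (n : ℕ) (T : Finset S) (θ : S → ℝ) (K : G) (x : S → ℝ) : Prop :=
  ∃ w ∈ par cs T, ∃ y, (∀ s ∈ T, 0 ≤ Ax M y s) ∧ x = rho cs w y ∧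
    Y.Quiet n (K * Y.L w) (T.filter fun s => Ax M y s = 0) T θ

/-- nonzero null points -/
def Nz (n : ℕ) (T : Finset S) (θ : S → ℝ) (K : G) (x : S → ℝ) : Prop :=
  (∀ t, t ∉ T → x t = 0) ∧ x ≠ 0 ∧ Y.hh n T θ K x = 0

/-- the statement for all proper subsets of `T` -/
def IH (n : ℕ) (T : Finset S) (θ : S → ℝ) : Prop :=
  ∀ U : Finset S, U ⊂ T → ∀ U' : Finset S, U' ⊆ U → ∀ a : G, InA Y.d n a →
    (∀ j, j ∉ U' → θ j = Y.d a n j) → Y.Quiet n a U' U' θ → Y.Quiet n a U U θ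

variable {Y}

theorem quiet_coset {Z Z' U : Finset S} {a a' : G} (h : Y.Quiet n a Z U θ) (hZ : Z' ⊆ Z)
    (ha : a⁻¹ * a' ∈ AT Y.σ Z) : Y.Quiet n a' Z' U θ := by
  intro b hb hn j hj
  refine h b ?_ hn j hj
  have := mul_mem ha (Y.AT_mono hZ hb)
  rwa [mul_assoc, mul_inv_cancel_left] at this

theorem quiet_widen {Z U : Finset S} {a : G} (h : Y.Quiet n a Z Z θ)
    (he : ∀ j, j ∉ Z → θ j = Y.d a n j) : Y.Quiet n a Z U θ := by
  intro b hb hn j _
  by_cases hj : j ∈ Z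
  · exact h b hb hn j hj
  · rw [he j hj, Y.d_off_AT hb n hj]

theorem L_cos {Z : Finset S} {u : W} (K : G) (w : W) (hu : u ∈ par cs Z) :
    (K * Y.L w)⁻¹ * (K * Y.L (w * u)) ∈ AT Y.σ Z := by
  have := Y.L_coset (w := w) hu
  rwa [mul_inv_rev, mul_assoc, inv_mul_cancel_left]

theorem L_cos' {Z : Finset S} {u : W} (K : G) (w : W) (hu : u ∈ par cs Z) :
    (K * Y.L (w * u))⁻¹ * (K * Y.L w) ∈ AT Y.σ Z := by
  have := inv_mem (L_cos (Y := Y) K w hu)
  rwa [mul_inv_rev, inv_inv] at this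

theorem mem_L (K : G) (hw : w ∈ par cs T) : K⁻¹ * (K * Y.L w) ∈ AT Y.σ T := by
  rw [inv_mul_cancel_left]
  exact Y.L_mem_AT hw

theorem Gd.quiet (h : Gd Y n T θ K x) (hw : w ∈ par cs T) (hy : ∀ s ∈ T, 0 ≤ Ax M y s)
    (e : x = rho cs w y) : Y.Quiet n (K * Y.L w) (T.filter fun s => Ax M y s = 0) T θ := by
  obtain ⟨w', hw', y', hy', e', hq⟩ := h
  have h1 : rho cs (w'⁻¹ * w) y = y' := by rw [rho_mul, ← e, e', rho_inv_rho]
  obtain ⟨rfl, hu⟩ := stab cs (mul_mem (inv_mem hw') hw) hy hy' h1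
  refine quiet_coset hq subset_rfl ?_
  have := L_cos (Y := Y) K w' hu
  rwa [mul_inv_cancel_left] at this

theorem off_zero (hK : InA Y.d n K) (hθ : Y.IsTheta n T K θ) (hw : w ∈ par cs T)
    (hy : ∀ s ∈ T, 0 ≤ Ax M y s)
    (hq : Y.Quiet n (K * Y.L w) (T.filter fun s => Ax M y s = 0) T θ)
    (h0 : Y.hh n T θ K (rho cs w y) = 0) :
    Y.IsTheta n (T.filter fun s => Ax M y s = 0) (K * Y.L w) θ := by
  have hθ' := hθ.coset (mem_L K hw)
  refine ⟨fun s hs => hθ.1 s (Finset.mem_filter.1 hs).1, fun t ht => ?_⟩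
  by_cases htT : t ∈ T
  swap
  · exact hθ'.2 t htT
  rw [Y.hh_apart hK hθ hw hy, Bf_eq_sum] at h0
  have hn : ∀ s ∈ (Finset.univ : Finset S), 0 ≤ Ax M y s * (Y.d (K * Y.L w) n - θ) s := by
    intro s _
    by_cases hs : s ∈ T
    · refine mul_nonneg (hy s hs) (sub_nonneg.2 (hq _ ?_ (Y.down_Pos hK (Y.L_mem_Pos hw)) s hs))
      rw [inv_mul_cancel]
      exact one_mem _
    · rw [Pi.sub_apply, hθ'.2 s hs, sub_self, mul_zero]
  have h1 := (Finset.sum_eq_zero_iff_of_nonneg hn).1 h0 t (Finset.mem_univ t)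
  rcases mul_eq_zero.1 h1 with h2 | h2
  · exact absurd (Finset.mem_filter.2 ⟨htT, h2⟩) ht
  · exact (sub_eq_zero.1 h2).symm

theorem Gd.nonneg (hT : PD M T) (hK : InA Y.d n K) (hθ : Y.IsTheta n T K θ)
    (h : Gd Y n T θ K x) (h0 : Y.hh n T θ K x = 0) (v : S → ℝ) : 0 ≤ Y.hh n T θ K v := by
  obtain ⟨w, hw, y, hy, rfl, hq⟩ := h
  have h1 := Y.locglob hT (Finset.filter_subset _ _) hK hθ hw (off_zero hK hθ hw hy hq h0)
    (fun b hb hn j hj => hq b hb hn j (Finset.mem_filter.1 hj).1) v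
  rwa [sub_self, map_zero, Bf_zero_left, neg_zero] at h1

theorem filter_ssubset (hT : PD M T) (hy : ∀ t, t ∉ T → y t = 0) (h0 : y ≠ 0) :
    (T.filter fun s => Ax M y s = 0) ⊂ T := by
  refine Finset.ssubset_iff_subset_ne.2 ⟨Finset.filter_subset _ _, fun e => ?_⟩
  have h1 := hT y hy h0
  have h2 : Bf M y y = 0 := by
    refine Finset.sum_eq_zero fun s _ => ?_
    by_cases hs : s ∈ T
    · rw [← e] at hs
      rw [(Finset.mem_filter.1 hs).2, mul_zero]
    · rw [hy s hs, zero_mul]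
  exact h1.ne' h2

theorem local_const (hT : PD M T) (hK : InA Y.d n K) (hθ : Y.IsTheta n T K θ) (ih : IH Y n T θ)
    {x' : S → ℝ} (hx' : Nz Y n T θ K x') :
    ∀ᶠ x in nhds x', Nz Y n T θ K x → (Gd Y n T θ K x ↔ Gd Y n T θ K x') := by
  have hfin := (pd_iff_finite cs).1 hT
  obtain ⟨w', hw', y', hy', rfl⟩ := exists_dominant cs hfin x'
  have hc : ContinuousAt (rho cs w'⁻¹) (rho cs w' y') :=
    (LinearMap.continuous_of_finiteDimensional _).continuousAt
  have hst := star_lemma cs hfin hy'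
  rw [← rho_inv_rho cs w' y'] at hst
  filter_upwards [hc.eventually hst] with x hx hN
  rw [rho_inv_rho] at hx
  obtain ⟨u, hu, z, hz, hzz, e⟩ := hx
  have huT : u ∈ par cs T := par_mono cs (Finset.filter_subset _ _) hu
  have ex : x = rho cs (w' * u) z := by
    rw [rho_mul, ← e, ← rho_mul, mul_inv_cancel, map_one, Module.End.one_apply]
  have hsub : (T.filter fun s => Ax M z s = 0) ⊆ T.filter fun s => Ax M y' s = 0 := by
    intro s hs
    rw [Finset.mem_filter] at hs ⊢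
    exact ⟨hs.1, hzz s hs.1 hs.2⟩
  have hwu := mul_mem hw' huT
  constructor
  · intro hg
    have hq := hg.quiet hwu hz ex
    have hth := off_zero hK hθ hwu hz hq (ex ▸ hN.2.2)
    have hss : (T.filter fun s => Ax M y' s = 0) ⊂ T := by
      refine filter_ssubset hT (fun t ht => ?_) fun h => hx'.2.1 (by rw [h, map_zero])
      rw [← rho_off cs hw' y' ht]
      exact hx'.1 t ht
    have h1 := ih _ hss _ hsub _ (Y.down_Pos hK (Y.L_mem_Pos hwu)) hth.2
      (fun b hb hn j hj => hq b hb hn j (Finset.mem_filter.1 hj).1)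
    have h2 : Y.Quiet n (K * Y.L (w' * u)) (T.filter fun s => Ax M y' s = 0) T θ :=
      quiet_widen h1 fun j hj => hth.2 j fun h => hj (hsub h)
    exact ⟨w', hw', y', hy', rfl, quiet_coset h2 subset_rfl (L_cos' K w' hu)⟩
  · intro hg
    exact ⟨w' * u, hwu, z, hz, ex, quiet_coset (hg.quiet hw' hy' rfl) hsub (L_cos K w' hu)⟩

theorem move (hT : PD M T) (hK : InA Y.d n K) (hθ : Y.IsTheta n T K θ) (ih : IH Y n T θ)
    (hx : Nz Y n T θ K x) (hg : Gd Y n T θ K x) {x' : S → ℝ} (h1 : ∀ t, t ∉ T → x' t = 0)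
    (h2 : Y.hh n T θ K x' ≤ 0) (h3 : (0 : S → ℝ) ∉ segment ℝ x x') :
    Nz Y n T θ K x' ∧ Gd Y n T θ K x' := by
  have hN : ∀ v ∈ segment ℝ x x', Nz Y n T θ K v := by
    intro v hv
    refine ⟨fun t ht => ?_, fun e => h3 (e ▸ hv), le_antisymm ?_ (hg.nonneg hT hK hθ hx.2.2 v)⟩
    · obtain ⟨a, b, -, -, -, rfl⟩ := hv
      simp [hx.1 t ht, h1 t ht]
    · refine (Y.hh_convex.le_on_segment (Set.mem_univ _) (Set.mem_univ _) hv).trans ?_
      exact max_le hx.2.2.le h2
  refine ⟨hN _ (right_mem_segment _ _ _), ?_⟩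
  refine (convex_segment x x').isPreconnected.induction₂'
    (fun a b => Gd Y n T θ K a → Gd Y n T θ K b) ?_ (fun _ _ _ _ _ _ h h' a => h' (h a))
    (left_mem_segment _ _ _) (right_mem_segment _ _ _) hg
  intro v hv
  filter_upwards [mem_nhdsWithin_of_mem_nhds (local_const hT hK hθ ih (hN v hv)),
    self_mem_nhdsWithin] with a ha ha'
  exact ⟨(ha (hN a ha')).2, (ha (hN a ha')).1⟩

theorem theta_up (hθ : Y.IsTheta n T K θ) {s : S} (hs : s ∈ T) :
    Y.IsTheta n T (K * (Y.σ s)⁻¹) θ := by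
  refine hθ.coset ?_
  rw [inv_mul_cancel_left]
  exact inv_mem (Y.σ_mem_AT hs)

theorem up_pos (hθ : Y.IsTheta n T K θ) {s : S} (hs : s ∈ T) (hK : InA Y.d n (K * (Y.σ s)⁻¹))
    (hx : Nz Y n T θ K x) (hg : Gd Y n T θ K x) (h : 0 ≤ Ax M x s) :
    ∃ x', Nz Y n T θ (K * (Y.σ s)⁻¹) x' ∧ Gd Y n T θ (K * (Y.σ s)⁻¹) x' := by
  obtain ⟨w, hw, y, hy, e, -⟩ := id hg
  obtain ⟨v, u, hu, hm, rfl⟩ := exists_minRep cs (T.filter fun s => Ax M y s = 0) w
  have hv : v ∈ par cs T := by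
    have := mul_mem hw (inv_mem (par_mono cs (Finset.filter_subset _ _) hu))
    rwa [mul_inv_cancel_right] at this
  rw [rho_mul, rho_fix cs hu fun s hs => (Finset.mem_filter.1 hs).2] at e
  have hq := hg.quiet hv hy e
  have hsT : cs.simple s ∈ par cs T := (simple_mem_par cs).2 hs
  have hl := lt_simple_mul_of_nonneg cs hv hs hy hm (e ▸ h)
  have hL : Y.L (cs.simple s * v) = Y.σ s * Y.L v := by
    rw [Y.L_mul, Y.L_simple]
    rw [cs.length_simple]
    have := cs.length_simple_mul v s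
    omega
  refine ⟨rho cs (cs.simple s) x, ⟨fun t ht => ?_, fun h0 => hx.2.1 ?_, ?_⟩,
    cs.simple s * v, mul_mem hsT hv, y, hy, by rw [rho_mul, e], ?_⟩
  · rw [rho_off cs hsT x ht, hx.1 t ht]
  · rw [← rho_inv_rho cs (cs.simple s) x, h0, map_zero]
  · rw [Y.hh_step hK (theta_up hθ hs) hs h, inv_mul_cancel_right]
    exact hx.2.2
  · rw [hL, mul_assoc, inv_mul_cancel_left]
    exact hq

theorem Ax_simple (s : S) (x : S → ℝ) : Ax M (rho cs (cs.simple s) x) s = -Ax M x s := by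
  rw [rho_simple, Ax_sub, Ax_smul, Ax_single, cf_self]
  ring

theorem simple_simple (s : S) (x : S → ℝ) : rho cs (cs.simple s) (rho cs (cs.simple s) x) = x := by
  rw [← rho_mul, cs.simple_mul_simple_self, map_one, Module.End.one_apply]

theorem Bf_coord {ω v : S → ℝ} {t : S} {c : ℝ} (ht : t ∈ T)
    (hω : ∀ s ∈ T, Ax M ω s = if s = t then c else 0) (hv : ∀ s, s ∉ T → v s = 0) :
    Bf M ω v = c * v t := by
  rw [Bf_eq_sum, Finset.sum_eq_single t]
  · rw [hω t ht, if_pos rfl]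
  · intro s _ hs
    by_cases hsT : s ∈ T
    · rw [hω s hsT, if_neg hs, zero_mul]
    · rw [hv s hsT, mul_zero]
  · simp

theorem up_root (hT : PD M T) (hθ : Y.IsTheta n T K θ) (ih : IH Y n T θ) {s : S} (hs : s ∈ T)
    (hK : InA Y.d n K) {k : ℝ} (hk : 0 < k) (hx : Nz Y n T θ K (Pi.single s (-k)))
    (hg : Gd Y n T θ K (Pi.single s (-k))) (hz : Y.hh n T θ K (Pi.single s k) = 0) :
    ∃ x', Nz Y n T θ K x' ∧ Gd Y n T θ K x' ∧ 0 ≤ Ax M x' s := by
  have hoff : ∀ e ∈ Y.QT n T K, ∀ t, t ∉ T → (e - θ) t = 0 := by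
    intro e he t ht
    rw [Pi.sub_apply, he.2 t ht, hθ.2 t ht, sub_self]
  have hA : ∀ e ∈ Y.QT n T K, Ax M e s = Ax M θ s := by
    intro e he
    have h1 := Y.le_hh (θ := θ) he (Pi.single s k)
    have h2 := Y.le_hh (θ := θ) he (Pi.single s (-k))
    rw [hz, Bf_single_left, Ax_sub] at h1
    rw [hx.2.2, Bf_single_left, Ax_sub] at h2
    have h3 : k * (Ax M e s - Ax M θ s) = 0 := by linarith
    rcases mul_eq_zero.1 h3 with h4 | h4
    · exact absurd h4 hk.ne'
    · exact sub_eq_zero.1 h4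
  by_cases hc : ∃ t ∈ T, t ≠ s ∧ cf M s t ≠ 0
  · obtain ⟨t, ht, hts, hcf⟩ := hc
    have hI : ∀ e ∈ Y.QT n T K, e t = Y.d K n t := by
      intro e he
      refine Y.I5 K n T (fun t => cf M s t) hT (fun e' h1 h2 => ?_) e he.1 he.2 t hcf
      exact (hA e' ⟨h1, h2⟩).trans (hA _ Y.d_mem_QT).symm
    obtain ⟨ω, hω, hω0⟩ := hT.solve (fun r => if r = t then 1 else 0) 0
    have hω' : ∀ r ∈ T, Ax M (-ω) r = if r = t then -1 else 0 := by
      intro r hr
      rw [Ax_neg, hω r hr]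
      split_ifs <;> simp
    obtain ⟨e, he, h1⟩ := Y.exists_hh (n := n) (T := T) (θ := θ) (K := K) ω
    obtain ⟨e', he', h2⟩ := Y.exists_hh (n := n) (T := T) (θ := θ) (K := K) (-ω)
    rw [Bf_coord ht hω (hoff e he), Pi.sub_apply, hI e he] at h1
    rw [Bf_coord ht hω' (hoff e' he'), Pi.sub_apply, hI e' he'] at h2
    have h3 := hg.nonneg hT hK hθ hx.2.2 (-ω)
    have h4 : (0 : S → ℝ) ∉ segment ℝ (Pi.single s (-k)) ω := by
      rintro ⟨a, b, ha, hb, hab, h0⟩
      have h5 := congrArg (fun v => Ax M v t) h0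
      simp only [Ax_add, Ax_smul, Ax_single, Ax_zero, hω t ht, if_true] at h5
      have h6 : cf M t s < 0 := lt_of_le_of_ne (cf_nonpos hts) (by rwa [cf_symm])
      have h7 : 0 < cf M t s * -k := mul_pos_of_neg_of_neg h6 (by linarith)
      have h8 : 0 ≤ a * (cf M t s * -k) := mul_nonneg ha h7.le
      have hb0 : b = 0 := by linarith
      have ha1 : a = 1 := by linarith
      rw [hb0, ha1] at h5
      linarith
    obtain ⟨h5, h6⟩ := move hT hK hθ ih hx hg (x' := ω) hω0 (by linarith) h4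
    exact ⟨ω, h5, h6, by rw [hω s hs, if_neg hts.symm]⟩
  · have hc' : ∀ t ∈ T, t ≠ s → cf M t s = 0 := by
      intro t ht hts
      by_contra h
      exact hc ⟨t, ht, hts, by rwa [cf_symm]⟩
    have hAx : ∀ r ∈ T, Ax M (Pi.single s k) r = if r = s then 2 * k else 0 := by
      intro r hr
      rw [Ax_single]
      split_ifs with h
      · rw [h, cf_self]
      · rw [hc' r hr h, zero_mul]
    have hdom : ∀ r ∈ T, 0 ≤ Ax M (Pi.single s k) r := by
      intro r hr
      rw [hAx r hr]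
      split_ifs
      · linarith
      · exact le_rfl
    have hZ : ∀ r ∈ T.filter fun r => Ax M (Pi.single s k) r = 0, r ∈ T ∧ r ≠ s := by
      intro r hr
      obtain ⟨h1, h2⟩ := Finset.mem_filter.1 hr
      refine ⟨h1, fun h => ?_⟩
      rw [hAx r h1, if_pos h] at h2
      linarith
    have e : (Pi.single s (-k) : S → ℝ) = rho cs (cs.simple s) (Pi.single s k) := by
      rw [rho_simple, hAx s hs, if_pos rfl, ← Pi.single_smul', ← Pi.single_sub]
      congr 1
      rw [smul_eq_mul]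
      ring
    have hq := hg.quiet ((simple_mem_par cs).2 hs) hdom e
    rw [Y.L_simple] at hq
    have hds : θ s = Y.d K n s := by
      have h1 := Y.hh_apart hK hθ (one_mem _) hdom
      rw [map_one, Module.End.one_apply, hz, Y.L_one, mul_one,
        Bf_coord hs hAx (hoff _ Y.d_mem_QT), Pi.sub_apply] at h1
      rcases mul_eq_zero.1 h1.symm with h2 | h2
      · linarith
      · exact (sub_eq_zero.1 h2).symm
    refine ⟨Pi.single s k, ⟨fun t ht => ?_, fun h => ?_, hz⟩,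
      ⟨1, one_mem _, _, hdom, by rw [map_one, Module.End.one_apply], ?_⟩, hdom s hs⟩
    · exact Pi.single_eq_of_ne (ne_of_mem_of_not_mem hs ht).symm _
    · have := congrFun h s
      rw [Pi.single_eq_same] at this
      exact hk.ne' this
    · rw [Y.L_one, mul_one]
      intro b hb hn j hj
      by_cases hjs : j = s
      · rw [hjs, hds, Y.d_off_AT hb n fun h => (hZ s h).2 rfl]
      · rw [← Y.d_off b s n j hjs]
        refine hq _ ?_ (Y.down b s n hn) j hj
        have hcm := Y.commute_AT (t := s) (fun r hr => hc' r (hZ r hr).1 (hZ r hr).2) hb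
        rw [mul_inv_rev, mul_assoc, ← mul_assoc K⁻¹, hcm.eq, inv_mul_cancel_left]
        exact hb

theorem up_step (hT : PD M T) (hθ : Y.IsTheta n T K θ) (ih : IH Y n T θ) {s : S} (hs : s ∈ T)
    (hK' : InA Y.d n (K * (Y.σ s)⁻¹)) (hx : Nz Y n T θ K x) (hg : Gd Y n T θ K x) :
    ∃ x', Nz Y n T θ (K * (Y.σ s)⁻¹) x' ∧ Gd Y n T θ (K * (Y.σ s)⁻¹) x' := by
  have hK : InA Y.d n K := by
    have := Y.down _ s n hK'
    rwa [inv_mul_cancel_right] at this
  rcases le_or_gt 0 (Ax M x s) with h | h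
  · exact up_pos hθ hs hK' hx hg h
  have h1 : Y.hh n T θ K (rho cs (cs.simple s) x) ≤ 0 := by
    have := Y.hh_up hs hK' hθ (z := rho cs (cs.simple s) x) (by rw [Ax_simple]; linarith)
    rwa [simple_simple, hx.2.2] at this
  by_cases hm : x = Pi.single s (Ax M x s / 2)
  · obtain ⟨k, hk, rfl⟩ : ∃ k : ℝ, 0 < k ∧ x = Pi.single s (-k) :=
      ⟨-(Ax M x s / 2), by linarith, by rwa [neg_neg]⟩
    have e : rho cs (cs.simple s) (Pi.single s (-k)) = (Pi.single s k : S → ℝ) := by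
      rw [rho_simple, Ax_single, cf_self, ← Pi.single_smul', ← Pi.single_sub]
      congr 1
      rw [smul_eq_mul]
      ring
    rw [e] at h1
    obtain ⟨x', h2, h3, h4⟩ := up_root hT hθ ih hs hK hk hx hg
      (le_antisymm h1 (hg.nonneg hT hK hθ hx.2.2 _))
    exact up_pos hθ hs hK' h2 h3 h4
  · have hA : Ax M (x - Pi.single s (Ax M x s / 2)) s = 0 := by
      rw [Ax_sub, Ax_single, cf_self]
      ring
    have h2 : Y.hh n T θ K (x - Pi.single s (Ax M x s / 2)) ≤ 0 := by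
      have hseg : x - Pi.single s (Ax M x s / 2) ∈ segment ℝ x (rho cs (cs.simple s) x) := by
        refine ⟨1 / 2, 1 / 2, by norm_num, by norm_num, by norm_num, ?_⟩
        rw [rho_simple]
        funext t
        simp only [Pi.add_apply, Pi.smul_apply, Pi.sub_apply, smul_eq_mul, Pi.single_apply]
        split_ifs <;> ring
      refine (Y.hh_convex.le_on_segment (Set.mem_univ _) (Set.mem_univ _) hseg).trans ?_
      exact max_le hx.2.2.le h1
    have h3 : (0 : S → ℝ) ∉ segment ℝ x (x - Pi.single s (Ax M x s / 2)) := by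
      rintro ⟨a, b, ha, hb, hab, h0⟩
      have h5 := congrArg (fun v => Ax M v s) h0
      simp only [Ax_add, Ax_smul, Ax_zero, hA, mul_zero, add_zero] at h5
      have ha0 : a = 0 := (mul_eq_zero.1 h5).resolve_right h.ne
      have hb1 : b = 1 := by linarith
      rw [ha0, hb1, zero_smul, one_smul, zero_add] at h0
      exact hm (sub_eq_zero.1 h0)
    have h6 : ∀ t, t ∉ T → (x - Pi.single s (Ax M x s / 2) : S → ℝ) t = 0 := by
      intro t ht
      rw [Pi.sub_apply, hx.1 t ht, Pi.single_eq_of_ne (ne_of_mem_of_not_mem hs ht).symm, sub_zero]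
    obtain ⟨h4, h5⟩ := move hT hK hθ ih hx hg h6 h2 h3
    exact up_pos hθ hs hK' h4 h5 hA.ge

theorem down_step (hK : InA Y.d n K) (hθ : Y.IsTheta n T K θ) {s : S} (hs : s ∈ T)
    (h : ∀ v, 0 ≤ Y.hh n T θ K v) (v : S → ℝ) : 0 ≤ Y.hh n T θ (K * Y.σ s) v := by
  have h1 : ∀ z, 0 ≤ Ax M z s → 0 ≤ Y.hh n T θ (K * Y.σ s) z := by
    intro z hz
    rw [← Y.hh_step hK hθ hs hz]
    exact h _
  rcases le_or_gt 0 (Ax M v s) with hv | hv
  · exact h1 v hv
  have hz : 0 ≤ Ax M (rho cs (cs.simple s) v) s := by rw [Ax_simple]; linarith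
  have h2 := Y.hh_up (K := K * Y.σ s) hs (by rwa [mul_inv_cancel_right])
    (hθ.coset (by rw [inv_mul_cancel_left]; exact Y.σ_mem_AT hs)) hz
  rw [simple_simple] at h2
  exact (h1 _ hz).trans h2

theorem down_pos (hK : InA Y.d n K) (hθ : Y.IsTheta n T K θ) (h : ∀ v, 0 ≤ Y.hh n T θ K v)
    {p : G} (hp : p ∈ Pos Y.σ T) : ∀ v, 0 ≤ Y.hh n T θ (K * p) v := by
  induction hp using Submonoid.closure_induction_right with
  | one => rwa [mul_one]
  | mul_right p hp _ hy ih =>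
    obtain ⟨s, hs, rfl⟩ := hy
    rw [← mul_assoc]
    refine down_step (Y.down_Pos hK hp) (hθ.coset ?_) hs ih
    rw [inv_mul_cancel_left]
    exact Y.mem_AT_of_Pos hp

theorem le_of_nonneg (hT : PD M T) (hK : InA Y.d n K) (hθ : Y.IsTheta n T K θ)
    (h : ∀ v, 0 ≤ Y.hh n T θ K v) {j : S} (hj : j ∈ T) : θ j ≤ Y.d K n j := by
  obtain ⟨ω, hω, -⟩ := hT.solve (fun r => if r = j then 1 else 0) 0
  have h1 := Y.hh_apart hK hθ (one_mem _) (z := ω) fun s hs => by
    rw [hω s hs]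
    split_ifs
    · exact zero_le_one
    · exact le_rfl
  rw [Y.L_one, mul_one, Bf_coord hj hω fun t ht => by
    rw [Pi.sub_apply, hθ.2 t ht, sub_self], Pi.sub_apply] at h1
  have h2 := h (rho cs 1 ω)
  linarith

theorem main {T' : Finset S} (hT : PD M T) (ih : IH Y n T θ) (h' : T' ⊂ T) {a : G}
    (ha : InA Y.d n a) (hθ : ∀ s ∈ T, Ax M θ s = Y.lam n s)
    (he : ∀ j, j ∉ T' → θ j = Y.d a n j) (hq : Y.Quiet n a T' T' θ) : Y.Quiet n a T T θ := by
  have hθa : Y.IsTheta n T a θ := ⟨hθ, fun t ht => he t fun h => ht (h'.1 h)⟩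
  obtain ⟨y, hy, hy0⟩ := hT.solve (fun r => if r ∈ T' then 0 else 1) 0
  have hdom : ∀ s ∈ T, 0 ≤ Ax M y s := by
    intro s hs
    rw [hy s hs]
    split_ifs
    · exact le_rfl
    · exact zero_le_one
  have hZ : (T.filter fun s => Ax M y s = 0) ⊆ T' := by
    intro s hs
    obtain ⟨h1, h2⟩ := Finset.mem_filter.1 hs
    by_contra h3
    rw [hy s h1, if_neg h3] at h2
    exact one_ne_zero h2
  have h0 : Nz Y n T θ a y ∧ Gd Y n T θ a y := by
    refine ⟨⟨hy0, fun h => ?_, ?_⟩, 1, one_mem _, y, hdom,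
      by rw [map_one, Module.End.one_apply], ?_⟩
    · obtain ⟨s, hs, hs'⟩ := Finset.exists_of_ssubset h'
      have := hy s hs
      rw [h, Ax_zero, if_neg hs'] at this
      exact zero_ne_one this
    · have h1 := Y.hh_apart ha hθa (one_mem _) hdom
      rw [map_one, Module.End.one_apply, Y.L_one, mul_one] at h1
      rw [h1, Bf_eq_sum]
      refine Finset.sum_eq_zero fun s _ => ?_
      by_cases hs : s ∈ T'
      · rw [hy s (h'.1 hs), if_pos hs, zero_mul]
      · rw [Pi.sub_apply, he s hs, sub_self, mul_zero]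
    · rw [Y.L_one, mul_one]
      exact quiet_coset (quiet_widen hq he) hZ (by rw [inv_mul_cancel]; exact one_mem _)
  intro b hb hn j hj
  obtain ⟨K, hK, hKa, hKb⟩ := Y.directed hT ha hn hb
  obtain ⟨x, hx, hg⟩ := Y.climb (p := fun g => ∃ x, Nz Y n T θ g x ∧ Gd Y n T θ g x) hK hKa
    ⟨y, h0⟩ fun g hg s hs hn' ⟨x, h1, h2⟩ => up_step hT (hθa.coset hg) ih hs hn' h1 h2
  have hθK : Y.IsTheta n T K θ := by
    refine hθa.coset ?_
    have := inv_mem (Y.mem_AT_of_Pos hKa)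
    rwa [mul_inv_rev, inv_inv] at this
  have h1 := down_pos hK hθK (hg.nonneg hT hK hθK hx.2.2) hKb
  rw [mul_inv_cancel_left] at h1
  exact le_of_nonneg hT hn (hθa.coset hb) h1 hj

end Apt4

theorem Sys.quiet_basic {T T' : Finset S} (hT : PD M T) (h' : T' ⊆ T) {a : G} (ha : InA Y.d n a)
    {θ : S → ℝ} (hθ : ∀ s ∈ T, Ax M θ s = Y.lam n s) (he : ∀ j, j ∉ T' → θ j = Y.d a n j)
    (hq : Y.Quiet n a T' T' θ) : Y.Quiet n a T T θ := by
  induction T using Finset.strongInduction generalizing T' a with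
  | H T ih =>
    rcases eq_or_ne T' T with e | e
    · rwa [← e]
    · refine Apt4.main hT ?_ (Finset.ssubset_iff_subset_ne.2 ⟨h', e⟩) ha hθ he hq
      intro U hU U' hU' b hb h1 h2
      exact ih U hU (hT.mono hU.1) hU' hb (fun s hs => hθ s (hU.1 hs)) h1 h2

theorem Sys.quiet_ext {U U' T₁ : Finset S} (hT : PD M (U ∪ T₁))
    (horth : ∀ s ∈ U, ∀ t ∈ T₁, cf M s t = 0) (h' : U' ⊆ U) {a : G} (ha : InA Y.d n a)
    {θ : S → ℝ} (hθ : ∀ s ∈ U, Ax M θ s = Y.lam n s) (he : ∀ j, j ∉ U' ∪ T₁ → θ j = Y.d a n j)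
    (hq : Y.Quiet n a U' U' θ) : Y.Quiet n a (U ∪ T₁) U θ := by
  have hd : ∀ s ∈ U, s ∉ T₁ := by
    intro s hs ht
    have := horth s hs s ht
    rw [cf_self] at this
    exact two_ne_zero this
  have h0 : Y.Quiet n a U U θ := by
    have h1 := Y.quiet_basic (θ := fun j => if j ∈ T₁ then Y.d a n j else θ j)
      (hT.mono Finset.subset_union_left) h' ha (fun s hs => ?_) (fun j hj => ?_)
      (fun b hb hn j hj => ?_)
    · intro b hb hn j hj
      have := h1 b hb hn j hj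
      simpa only [if_neg (hd j hj)] using this
    · rw [← hθ s hs]
      exact Ax_congr fun t ht => if_neg fun h => ht (horth s hs t h)
    · split_ifs with h
      · rfl
      · exact he j fun h2 => (Finset.mem_union.1 h2).elim hj h
    · simpa only [if_neg (hd j (h' hj))] using hq b hb hn j hj
  intro b hb hn j hj
  have h1 := Y.walk hT (p := fun g => Y.Quiet n g U U θ) ha h0 ?_ ?_ hn hb
  · exact h1 b (by rw [inv_mul_cancel]; exact one_mem _) hn j hj
  · intro g _ s hs _ hp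
    rcases Finset.mem_union.1 hs with h | h
    · exact Apt4.quiet_coset hp subset_rfl
        (by rw [inv_mul_cancel_left]; exact inv_mem (Y.σ_mem_AT h))
    · intro c hc hcn i hi
      rw [← Y.d_off c s n i fun e => hd i hi (e ▸ h)]
      refine hp _ ?_ (Y.down c s n hcn) i hi
      have hcm := Y.commute_AT (t := s) (fun r hr => horth r hr s h) hc
      have e : g⁻¹ * (c * Y.σ s) = (Y.σ s)⁻¹ * ((g * (Y.σ s)⁻¹)⁻¹ * c * Y.σ s) := by group
      rw [e, hcm.eq, inv_mul_cancel_left]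
      exact hc
  · intro g _ s hs hg hp
    rcases Finset.mem_union.1 hs with h | h
    · exact Apt4.quiet_coset hp subset_rfl (by rw [inv_mul_cancel_left]; exact Y.σ_mem_AT h)
    · intro c hc hcn i hi
      have hcm := Y.commute_AT (t := s) (fun r hr => horth r hr s h) hc
      have hc' : g⁻¹ * (c * (Y.σ s)⁻¹) ∈ AT Y.σ U := by
        have e : g⁻¹ * (c * (Y.σ s)⁻¹) = Y.σ s * ((g * Y.σ s)⁻¹ * c) * (Y.σ s)⁻¹ := by group
        rw [e, ← hcm.eq, mul_inv_cancel_right]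
        exact hc
      have hin : InA Y.d n (c * (Y.σ s)⁻¹) := by
        refine Y.inA_of_two (T := U) (T' := {s}) ?_ hg hcn hc' ?_
        · exact Finset.disjoint_singleton_right.2 fun h2 => hd s h2 h
        · rw [inv_mul_cancel_left]
          exact inv_mem (Y.σ_mem_AT (Finset.mem_singleton_self s))
      have h2 := hp _ hc' hin i hi
      rwa [← Y.d_off _ s n i fun e => hd i hi (e ▸ h), inv_mul_cancel_right] at h2

end Vale.Agent.P203
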