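import Vale.Agent.P203.CoxRoot

namespace Vale.Agent.P203

variable {S W : Type} [Fintype S] [DecidableEq S] [Group W] {M : CoxeterMatrix S}
  {cs : CoxeterSystem M W} {T : Finset S} {w₀ : W}

namespace CoxLong

theorem rho_nonpos {w : W} (h : ∀ s ∈ T, rho cs w (Pi.single s 1) ≤ 0) {x : S → ℝ} (hx : 0 ≤ x)
    (hT : ∀ t, t ∉ T → x t = 0) : rho cs w x ≤ 0 := by
  have e : x = ∑ t, x t • (Pi.single t 1 : S → ℝ) := by
    funext j
    simp [Finset.sum_apply, Pi.single_apply]
  rw [e, map_sum]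
  refine Finset.sum_nonpos fun t _ => ?_
  rw [map_smul]
  by_cases ht : t ∈ T
  · exact smul_nonpos_of_nonneg_of_nonpos (hx t) (h t ht)
  · rw [hT t ht, zero_smul]

end CoxLong

theorem isLongest_of_descents (hw : w₀ ∈ par cs T)
    (h : ∀ s ∈ T, cs.length (w₀ * cs.simple s) < cs.length w₀) : IsLongest cs T w₀ := by
  refine ⟨hw, fun u hu => par_induction_right cs
    (p := fun u => cs.length (w₀ * u) + cs.length u = cs.length w₀) (by simp) ?_ hu⟩
  intro w hwT s hs hlt ih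
  have h1 : rho cs (w₀ * w) (Pi.single s 1) ≤ 0 := by
    rw [rho_mul]
    refine CoxLong.rho_nonpos (fun t ht => root_neg cs (h t ht)) (root_pos cs hlt) fun t ht => ?_
    rw [rho_off cs hwT _ ht, Pi.single_eq_of_ne (fun e : t = s => ht (e ▸ hs))]
  have h2 : ¬ cs.length (w₀ * w) < cs.length (w₀ * w * cs.simple s) := fun h3 =>
    root_ne_zero cs (w₀ * w) s (le_antisymm h1 (root_pos cs h3))
  have h3 := cs.length_mul_simple (w₀ * w) s
  have h4 := cs.length_mul_simple w s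
  rw [← mul_assoc]
  omega

theorem exists_longest (h : Finite (par cs T)) : ∃ w₀, IsLongest cs T w₀ := by
  obtain ⟨w, hw⟩ := Finite.exists_max fun w : par cs T => cs.length w
  refine ⟨w, isLongest_of_descents w.2 fun s hs => ?_⟩
  exact lt_of_le_of_ne (hw ⟨_, mul_mem w.2 ((simple_mem_par cs).mpr hs)⟩)
    (cs.length_mul_simple_ne _ s)

theorem IsLongest.unique {w₁ : W} (h : IsLongest cs T w₀) (h' : IsLongest cs T w₁) : w₀ = w₁ := by
  have h1 := h.2 (w₀⁻¹ * w₁) (mul_mem (inv_mem h.1) h'.1)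
  have h2 := h'.2 (w₁⁻¹ * w₀) (mul_mem (inv_mem h'.1) h.1)
  rw [mul_inv_cancel_left] at h1 h2
  exact inv_mul_eq_one.mp (cs.length_eq_zero_iff.mp (by omega))

theorem IsLongest.descent (h : IsLongest cs T w₀) {s : S} (hs : s ∈ T) :
    cs.length (w₀ * cs.simple s) < cs.length w₀ := by
  have h1 := h.2 _ ((simple_mem_par cs).mpr hs)
  rw [cs.length_simple] at h1
  omega

theorem IsLongest.inv (h : IsLongest cs T w₀) : w₀⁻¹ = w₀ := by
  refine IsLongest.unique (isLongest_of_descents (inv_mem h.1) fun s hs => ?_) h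
  have h1 := h.2 (w₀⁻¹ * (w₀⁻¹ * cs.simple s))
    (mul_mem (inv_mem h.1) (mul_mem (inv_mem h.1) ((simple_mem_par cs).mpr hs)))
  have h2 := cs.length_mul_simple_ne w₀⁻¹ s
  rw [mul_inv_cancel_left] at h1
  rw [cs.length_inv] at h2 ⊢
  omega

theorem IsLongest.left (h : IsLongest cs T w₀) {u : W} (hu : u ∈ par cs T) :
    cs.length (u * w₀) + cs.length u = cs.length w₀ := by
  have h1 := h.2 u⁻¹ (inv_mem hu)
  rwa [cs.length_inv, ← cs.length_inv, mul_inv_rev, inv_inv, h.inv] at h1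

theorem IsLongest.conj (h : IsLongest cs T w₀) {s : S} (hs : s ∈ T) :
    ∃ s' ∈ T, w₀ * cs.simple s = cs.simple s' * w₀ := by
  have hs' := (simple_mem_par cs).mpr hs
  have h1 := h.left hs'
  have h2 := h.2 _ (mul_mem hs' h.1)
  rw [cs.length_simple] at h1
  obtain ⟨s', e⟩ := cs.length_eq_one_iff.mp
    (show cs.length (w₀ * (cs.simple s * w₀)) = 1 by omega)
  refine ⟨s', (simple_mem_par cs).mp (e ▸ mul_mem h.1 (mul_mem hs' h.1)), ?_⟩
  rw [← e, ← mul_assoc, mul_assoc _ w₀ w₀, mul_eq_one_iff_eq_inv.mpr h.inv.symm, mul_one]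

theorem IsLongest.strip (h : IsLongest cs T w₀) {w : W}
    (hw : ∀ s ∈ T, cs.length (w * cs.simple s) < cs.length w) :
    IsMinRep cs T (w * w₀) ∧ cs.length (w * w₀) + cs.length w₀ = cs.length w := by
  obtain ⟨v, u, hu, hv, rfl⟩ := exists_minRep cs T w
  obtain rfl : u = w₀ := by
    refine IsLongest.unique (isLongest_of_descents hu fun s hs => ?_) h
    have h1 := hw s hs
    rw [mul_assoc, hv.length_mul cs hu,
      hv.length_mul cs (mul_mem hu ((simple_mem_par cs).mpr hs))] at h1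
    omega
  have e : v * u * u = v := by rw [mul_assoc, mul_eq_one_iff_eq_inv.mpr h.inv.symm, mul_one]
  rw [e]
  exact ⟨hv, (hv.length_mul cs hu).symm⟩

theorem IsLongest.descent_mul (h : IsLongest cs T w₀) {v : W} (hv : IsMinRep cs T v) {s : S}
    (hs : s ∈ T) : cs.length (v * w₀ * cs.simple s) < cs.length (v * w₀) := by
  have h1 := h.descent hs
  rw [mul_assoc, hv.length_mul cs h.1, hv.length_mul cs (mul_mem h.1 ((simple_mem_par cs).mpr hs))]
  omega

theorem IsLongest.antidominant (h : IsLongest cs T w₀) {z : S → ℝ} (hz : ∀ s ∈ T, 0 ≤ Ax M z s) :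
    ∀ s ∈ T, Ax M (rho cs w₀ z) s ≤ 0 := by
  intro s hs
  have h1 := h.left ((simple_mem_par cs).mpr hs)
  rw [cs.length_simple] at h1
  exact Ax_rho_nonpos cs h.1 hs hz (by omega)

end Vale.Agent.P203
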