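import Vale.Agent.P203.CoxRoot

namespace Vale.Agent.P203

variable {S W : Type} [Fintype S] [DecidableEq S] [Group W] {M : CoxeterMatrix S}
  (cs : CoxeterSystem M W)

theorem isReduced_alt {i j : S} (h : i ≠ j) {k : ℕ} (hk : M i j = 0 ∨ k ≤ M i j) :
    cs.IsReduced (CoxeterSystem.alternatingWord i j k) := by
  induction k generalizing i j with
  | zero => simp [CoxeterSystem.IsReduced, CoxeterSystem.alternatingWord]
  | succ k ih =>
    have e := M.symmetric j i
    have h1 := (ih h.symm (by omega)).eq
    obtain ⟨U, u0, u1, u2, u3⟩ := P035.exists_cheb (M j i) (M.off_diagonal j i h.symm)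
    have q1 : 0 ≤ U k := u3 k (by omega)
    have q2 : 0 ≤ U (k + 1) := u3 (k + 1) (by omega)
    have p : ∀ s : S, 0 ≤ (Pi.single s 1 : S → ℝ) := fun s => Pi.single_nonneg.2 zero_le_one
    have h2 : 0 ≤ rho cs (cs.wordProd (CoxeterSystem.alternatingWord j i k)) (Pi.single j 1) := by
      rw [rho_alt cs j i U u0 u1 u2]
      split_ifs
      · exact add_nonneg (smul_nonneg q2 (p j)) (smul_nonneg q1 (p i))
      · exact add_nonneg (smul_nonneg q1 (p j)) (smul_nonneg q2 (p i))
    have h3 := lt_of_root cs fun h4 => root_ne_zero cs _ _ (le_antisymm h4 h2)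
    have h4 := cs.length_mul_simple (cs.wordProd (CoxeterSystem.alternatingWord j i k)) j
    unfold CoxeterSystem.IsReduced
    rw [CoxeterSystem.alternatingWord_succ, cs.wordProd_concat, List.length_concat]
    omega

namespace CoxMats

omit [Fintype S] [DecidableEq S] in
theorem step {i j s : S} {u : W} (hs : s = i ∨ s = j)
    (h : cs.length u < cs.length (u * cs.simple s))
    (hu : u = cs.wordProd (CoxeterSystem.alternatingWord i j (cs.length u))) :
    u * cs.simple s = cs.wordProd (CoxeterSystem.alternatingWord i j (cs.length u + 1)) ∨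
      u * cs.simple s = cs.wordProd (CoxeterSystem.alternatingWord j i (cs.length u + 1)) := by
  rcases hs with rfl | rfl
  · right
    rw [CoxeterSystem.alternatingWord_succ, cs.wordProd_concat, ← hu]
  · left
    generalize hk : cs.length u = k at hu h
    rcases k with _ | k
    · rw [hu]
      simp [CoxeterSystem.alternatingWord]
    · have h1 := cs.length_wordProd_le (CoxeterSystem.alternatingWord s i k)
      rw [hu, CoxeterSystem.alternatingWord_succ, cs.wordProd_concat,
        cs.simple_mul_simple_cancel_right] at h
      rw [CoxeterSystem.length_alternatingWord] at h1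
      omega

theorem alt_of_par {i j : S} {u : W} (hu : u ∈ par cs {i, j}) :
    u = cs.wordProd (CoxeterSystem.alternatingWord i j (cs.length u)) ∨
      u = cs.wordProd (CoxeterSystem.alternatingWord j i (cs.length u)) := by
  refine par_induction_right cs (p := fun u =>
    u = cs.wordProd (CoxeterSystem.alternatingWord i j (cs.length u)) ∨
      u = cs.wordProd (CoxeterSystem.alternatingWord j i (cs.length u)))
    (Or.inl (by simp [CoxeterSystem.alternatingWord])) (fun u _ s hs h ih => ?_) hu
  have h1 := cs.length_mul_simple u s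
  rw [Finset.mem_insert, Finset.mem_singleton] at hs
  rw [show cs.length (u * cs.simple s) = cs.length u + 1 by omega]
  rcases ih with ih | ih
  · exact step cs hs h ih
  · exact (step cs hs.symm h ih).symm

theorem len_eq {i j : S} (h : i ≠ j) {u : W}
    (hu : u = cs.wordProd (CoxeterSystem.alternatingWord i j (cs.length u)))
    (hi : cs.length (u * cs.simple i) < cs.length u) : cs.length u = M i j := by
  have e := M.symmetric j i
  have h1 : ¬ (M j i = 0 ∨ cs.length u + 1 ≤ M j i) := fun h2 => by
    have h3 := (isReduced_alt cs h.symm h2).eq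
    rw [CoxeterSystem.length_alternatingWord, CoxeterSystem.alternatingWord_succ,
      cs.wordProd_concat, ← hu] at h3
    omega
  by_contra h2
  refine cs.not_isReduced_alternatingWord i j (m := cs.length u) (by omega) (by omega) ?_
  unfold CoxeterSystem.IsReduced
  rw [← hu, CoxeterSystem.length_alternatingWord]

theorem both {i j : S} (h : i ≠ j) {w : W} (hi : cs.length (w * cs.simple i) < cs.length w)
    (hj : cs.length (w * cs.simple j) < cs.length w) :
    ∃ v, w = v * cs.wordProd (CoxeterSystem.braidWord M i j) ∧
      cs.length w = cs.length v + M i j ∧ M i j ≠ 0 := by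
  obtain ⟨v, u, hu, hv, rfl⟩ := exists_minRep cs {i, j} w
  have h1 := hv.length_mul cs hu
  have h2 := hv.length_mul cs (mul_mem hu ((simple_mem_par cs).2 (Finset.mem_insert_self i {j})))
  have h3 := hv.length_mul cs (mul_mem hu ((simple_mem_par cs).2
    (Finset.mem_insert_of_mem (Finset.mem_singleton_self j))))
  rw [← mul_assoc] at h2 h3
  have e := M.symmetric j i
  rcases alt_of_par cs hu with h4 | h4
  · have h5 := len_eq cs h h4 (by omega)
    exact ⟨v, by rw [CoxeterSystem.braidWord, ← h5, ← h4], by omega, by omega⟩
  · have h5 := len_eq cs h.symm h4 (by omega)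
    exact ⟨v, by rw [cs.wordProd_braidWord_eq, CoxeterSystem.braidWord, ← h5, ← h4], by omega,
      by omega⟩

omit [Fintype S] [DecidableEq S] in
theorem red_concat {ω : List S} {i : S} (h : cs.IsReduced (ω.concat i)) :
    cs.IsReduced ω ∧ cs.length (cs.wordProd (ω.concat i) * cs.simple i) <
      cs.length (cs.wordProd (ω.concat i)) := by
  have h1 := h.eq
  have h2 := cs.length_wordProd_le ω
  have h3 := cs.length_mul_simple (cs.wordProd ω) i
  unfold CoxeterSystem.IsReduced
  rw [cs.wordProd_concat, List.length_concat] at h1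
  rw [cs.wordProd_concat, cs.simple_mul_simple_cancel_right]
  omega

theorem mats {G : Type*} [Monoid G] {σ : S → G} (hb : Braid M σ) (n : ℕ) :
    ∀ ω ω' : List S, ω.length = n → cs.IsReduced ω → cs.IsReduced ω' →
      cs.wordProd ω = cs.wordProd ω' → (ω.map σ).prod = (ω'.map σ).prod := by
  induction n with
  | zero =>
    intro ω ω' h0 h1 h2 h3
    have h4 := h1.eq
    rw [h3, h2.eq, h0] at h4
    rw [List.length_eq_zero_iff.1 h0, List.length_eq_zero_iff.1 h4]
  | succ n ih =>
    intro ω ω' h0 h1 h2 h3
    have h4 := h1.eq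
    rw [h3, h2.eq, h0] at h4
    have side : ∀ (η τ : List S) (i j : S), (η.concat j).length = n + 1 →
        cs.IsReduced (η.concat j) → τ.length + M i j = n + 1 → M i j ≠ 0 →
        cs.wordProd (η.concat j) = cs.wordProd τ * cs.wordProd (CoxeterSystem.braidWord M i j) →
        ((η.concat j).map σ).prod =
          (τ.map σ).prod * ((CoxeterSystem.braidWord M i j).map σ).prod := by
      intro η τ i j k0 k1 k2 k3 k4
      obtain ⟨m, hm⟩ := Nat.exists_eq_succ_of_ne_zero k3
      rw [CoxeterSystem.braidWord, hm, CoxeterSystem.alternatingWord_succ] at k4 ⊢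
      rw [cs.wordProd_concat, cs.wordProd_concat, ← mul_assoc, mul_left_inj,
        ← cs.wordProd_append] at k4
      rw [List.length_concat] at k0
      have k5 := (red_concat cs k1).1
      have k6 := ih η _ (by omega) k5 (by
        unfold CoxeterSystem.IsReduced
        rw [← k4, k5.eq, List.length_append, CoxeterSystem.length_alternatingWord]
        omega) k4
      rw [List.map_concat, List.prod_concat, k6, List.map_concat, List.prod_concat, List.map_append,
        List.prod_append, mul_assoc]
    rcases List.eq_nil_or_concat ω with rfl | ⟨η, i, rfl⟩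
    · simp at h0
    rcases List.eq_nil_or_concat ω' with rfl | ⟨η', j, rfl⟩
    · simp at h4
    by_cases hij : i = j
    · subst hij
      rw [cs.wordProd_concat, cs.wordProd_concat, mul_left_inj] at h3
      rw [List.length_concat] at h0
      rw [List.map_concat, List.prod_concat, List.map_concat, List.prod_concat,
        ih η η' (by omega) (red_concat cs h1).1 (red_concat cs h2).1 h3]
    · obtain ⟨v, e1, e2, e3⟩ := both cs hij (red_concat cs h1).2 (h3 ▸ (red_concat cs h2).2)
      obtain ⟨τ, t1, rfl⟩ := cs.exists_isReduced v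
      have e := M.symmetric j i
      rw [h1.eq, t1.eq, h0] at e2
      rw [side η τ j i h0 h1 (by omega) (by omega) (by rw [e1, cs.wordProd_braidWord_eq]),
        side η' τ i j h4 h2 e2.symm e3 (h3 ▸ e1), hb i j]

end CoxMats

variable {G : Type*} [Monoid G] {σ : S → G}

theorem Lf_reduced (hb : Braid M σ) {ω : List S} (h : cs.IsReduced ω) :
    Lf cs σ (cs.wordProd ω) = (ω.map σ).prod :=
  CoxMats.mats cs hb _ _ _ rfl (cs.exists_isReduced _).choose_spec.1 h
    (cs.exists_isReduced _).choose_spec.2.symm

theorem Lf_one : Lf cs σ 1 = 1 := by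
  obtain ⟨h1, h2⟩ := (cs.exists_isReduced 1).choose_spec
  have h3 := h1.eq
  rw [← h2, cs.length_one] at h3
  rw [Lf, List.length_eq_zero_iff.1 h3.symm, List.map_nil, List.prod_nil]

theorem Lf_simple (hb : Braid M σ) (s : S) : Lf cs σ (cs.simple s) = σ s := by
  have h := Lf_reduced cs hb (ω := [s]) (by simp [CoxeterSystem.IsReduced])
  simpa using h

theorem Lf_mul (hb : Braid M σ) {u w : W} (h : cs.length (u * w) = cs.length u + cs.length w) :
    Lf cs σ (u * w) = Lf cs σ u * Lf cs σ w := by
  obtain ⟨ω, h1, rfl⟩ := cs.exists_isReduced u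
  obtain ⟨ω', h2, rfl⟩ := cs.exists_isReduced w
  rw [Lf_reduced cs hb h1, Lf_reduced cs hb h2, ← cs.wordProd_append, Lf_reduced cs hb (by
    unfold CoxeterSystem.IsReduced
    rw [cs.wordProd_append, h, h1.eq, h2.eq, List.length_append]), List.map_append,
    List.prod_append]

end Vale.Agent.P203
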