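import Vale.Agent.P203.SysDefs
import Vale.Agent.P203.CoxMats
import Vale.Agent.P203.CoxLong

namespace Vale.Agent.P203

universe u

variable {S W : Type} [Fintype S] [DecidableEq S] [Group W] {M : CoxeterMatrix S}
  {cs : CoxeterSystem M W} {G : Type u} [Group G] (A : Art cs G) {T : Finset S}

theorem Art.L_one : A.L 1 = 1 := Lf_one cs

theorem Art.L_simple (s : S) : A.L (cs.simple s) = A.σ s := Lf_simple cs A.braid s

theorem Art.L_mul {u w : W} (h : cs.length (u * w) = cs.length u + cs.length w) :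
    A.L (u * w) = A.L u * A.L w := Lf_mul cs A.braid h

theorem Art.pr_L (w : W) : A.pr (A.L w) = w := by
  have h : ∀ ω : List S, A.pr (ω.map A.σ).prod = cs.wordProd ω := by
    intro ω
    induction ω with
    | nil => simp
    | cons s ω ih => rw [List.map_cons, List.prod_cons, map_mul, ih, A.pr_σ, cs.wordProd_cons]
  exact (h _).trans (cs.exists_isReduced w).choose_spec.2.symm

theorem Art.len_one : A.len 1 = 0 := by
  have h := A.len_mul 1 1
  rw [one_mul] at h
  omega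

theorem Art.len_L (w : W) : A.len (A.L w) = cs.length w := by
  have h : ∀ ω : List S, A.len (ω.map A.σ).prod = ω.length := by
    intro ω
    induction ω with
    | nil => simpa using A.len_one
    | cons s ω ih =>
      rw [List.map_cons, List.prod_cons, A.len_mul, ih, A.len_σ, List.length_cons]
      push_cast
      ring
  obtain ⟨h1, h2⟩ := (cs.exists_isReduced w).choose_spec
  refine (h _).trans ?_
  rw [← h1.eq, ← h2]

theorem Art.len_inv (g : G) : A.len g⁻¹ = -A.len g := by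
  have h := A.len_mul g g⁻¹
  rw [mul_inv_cancel, A.len_one] at h
  omega

theorem Art.σ_mem_Pos {s : S} (hs : s ∈ T) : A.σ s ∈ Pos A.σ T :=
  Submonoid.subset_closure ⟨s, hs, rfl⟩

theorem Art.σ_mem_AT {s : S} (hs : s ∈ T) : A.σ s ∈ AT A.σ T :=
  Subgroup.subset_closure ⟨s, hs, rfl⟩

theorem Art.L_mem_Pos {w : W} (hw : w ∈ par cs T) : A.L w ∈ Pos A.σ T := by
  obtain ⟨ω, h1, rfl, h3⟩ := exists_reduced_par cs hw
  have h := Lf_reduced cs A.braid h1
  rw [Art.L, h]
  refine Submonoid.list_prod_mem _ fun x hx => ?_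
  obtain ⟨s, hs, rfl⟩ := List.mem_map.1 hx
  exact A.σ_mem_Pos (h3 s hs)

theorem Art.mem_AT_of_Pos {p : G} (hp : p ∈ Pos A.σ T) : p ∈ AT A.σ T :=
  Subgroup.le_closure_toSubmonoid _ hp

theorem Art.L_mem_AT {w : W} (hw : w ∈ par cs T) : A.L w ∈ AT A.σ T :=
  A.mem_AT_of_Pos (A.L_mem_Pos hw)

theorem Art.AT_mono {T' : Finset S} (h : T ⊆ T') : AT A.σ T ≤ AT A.σ T' :=
  Subgroup.closure_mono (Set.image_mono (Finset.coe_subset.2 h))

theorem Art.Pos_mono {T' : Finset S} (h : T ⊆ T') : Pos A.σ T ≤ Pos A.σ T' :=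
  Submonoid.closure_mono (Set.image_mono (Finset.coe_subset.2 h))

theorem Art.AT_empty : AT A.σ ∅ = ⊥ := by
  rw [AT, Finset.coe_empty, Set.image_empty, Subgroup.closure_empty]

theorem Art.pr_mem_par {a : G} (ha : a ∈ AT A.σ T) : A.pr a ∈ par cs T := by
  induction ha using Subgroup.closure_induction with
  | mem x hx =>
    obtain ⟨s, hs, rfl⟩ := hx
    rw [A.pr_σ]
    exact Subgroup.subset_closure ⟨s, hs, rfl⟩
  | one =>
    rw [map_one]
    exact one_mem _
  | mul x y _ _ hx hy =>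
    rw [map_mul]
    exact mul_mem hx hy
  | inv x _ hx =>
    rw [map_inv]
    exact inv_mem hx

theorem Art.len_nonneg {p : G} (hp : p ∈ Pos A.σ T) : 0 ≤ A.len p := by
  induction hp using Submonoid.closure_induction with
  | mem x hx =>
    obtain ⟨s, -, rfl⟩ := hx
    rw [A.len_σ]
    exact zero_le_one
  | one => rw [A.len_one]
  | mul x y _ _ hx hy =>
    rw [A.len_mul]
    exact add_nonneg hx hy

theorem Art.pos_cases {p : G} (hp : p ∈ Pos A.σ T) :
    p = 1 ∨ ∃ p' ∈ Pos A.σ T, ∃ s ∈ T, p = p' * A.σ s := by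
  induction hp using Submonoid.closure_induction with
  | mem x hx =>
    obtain ⟨s, hs, rfl⟩ := hx
    exact Or.inr ⟨1, one_mem _, s, hs, (one_mul _).symm⟩
  | one => exact Or.inl rfl
  | mul x y hx' _ hx hy =>
    rcases hy with rfl | ⟨p', hp', s, hs, rfl⟩
    · rwa [mul_one]
    · exact Or.inr ⟨x * p', mul_mem hx' hp', s, hs, (mul_assoc _ _ _).symm⟩

theorem Art.pos_cases' {p : G} (hp : p ∈ Pos A.σ T) :
    p = 1 ∨ ∃ p' ∈ Pos A.σ T, ∃ s ∈ T, p = A.σ s * p' := by
  induction hp using Submonoid.closure_induction with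
  | mem x hx =>
    obtain ⟨s, hs, rfl⟩ := hx
    exact Or.inr ⟨1, one_mem _, s, hs, (mul_one _).symm⟩
  | one => exact Or.inl rfl
  | mul x y _ hy' hx hy =>
    rcases hx with rfl | ⟨p', hp', s, hs, rfl⟩
    · rwa [one_mul]
    · exact Or.inr ⟨p' * y, mul_mem hp' hy', s, hs, mul_assoc _ _ _⟩

theorem Art.eq_one_of_len {p : G} (hp : p ∈ Pos A.σ T) (h : A.len p = 0) : p = 1 := by
  rcases A.pos_cases hp with h1 | ⟨p', hp', s, -, rfl⟩
  · exact h1
  · have h2 := A.len_nonneg hp'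
    rw [A.len_mul, A.len_σ] at h
    omega

theorem Art.commute_σ {s t : S} (h : cf M s t = 0) : Commute (A.σ s) (A.σ t) := by
  have h2 : M s t = 2 := by
    unfold cf at h
    have h0 : Real.cos (Real.pi / (M s t : ℝ)) = 0 := by linarith
    by_contra hne
    rcases Nat.lt_or_ge (M s t) 2 with h1 | h1
    · have h3 : M s t = 0 ∨ M s t = 1 := by omega
      rcases h3 with h3 | h3
      · rw [h3] at h0
        simp at h0
      · rw [h3] at h0
        simp at h0
    · have h3 : (2 : ℝ) < M s t := by exact_mod_cast (by omega : 2 < M s t)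
      have h4 : 0 < Real.cos (Real.pi / (M s t : ℝ)) := by
        refine Real.cos_pos_of_mem_Ioo ⟨?_, ?_⟩
        · have : 0 ≤ Real.pi / (M s t : ℝ) := by positivity
          linarith [Real.pi_pos]
        · exact div_lt_div_of_pos_left Real.pi_pos (by norm_num) h3
      exact h4.ne' h0
  have hb := A.braid s t
  rw [CoxeterSystem.braidWord, CoxeterSystem.braidWord, M.symmetric t s, h2] at hb
  simpa [CoxeterSystem.alternatingWord, Commute, SemiconjBy] using hb

theorem Art.commute_AT {t : S} (h : ∀ s ∈ T, cf M s t = 0) {a : G} (ha : a ∈ AT A.σ T) :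
    Commute a (A.σ t) := by
  induction ha using Subgroup.closure_induction with
  | mem x hx =>
    obtain ⟨s, hs, rfl⟩ := hx
    exact A.commute_σ (h s hs)
  | one => exact Commute.one_left _
  | mul x y _ _ hx hy => exact hx.mul_left hy
  | inv x _ hx => exact hx.inv_left

theorem Art.L_coset {w u : W} (hu : u ∈ par cs T) : (A.L w)⁻¹ * A.L (w * u) ∈ AT A.σ T := by
  obtain ⟨v, u₀, hu₀, hv, rfl⟩ := exists_minRep cs T w
  rw [mul_assoc v, A.L_mul (hv.length_mul cs hu₀), A.L_mul (hv.length_mul cs (mul_mem hu₀ hu)),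
    mul_inv_rev, mul_assoc, inv_mul_cancel_left]
  exact mul_mem (inv_mem (A.L_mem_AT hu₀)) (A.L_mem_AT (mul_mem hu₀ hu))

theorem Art.L_longest_right {w₀ u : W} (h : IsLongest cs T w₀) (hu : u ∈ par cs T) :
    A.L w₀ = A.L (w₀ * u⁻¹) * A.L u := by
  have h1 := h.2 u⁻¹ (inv_mem hu)
  rw [cs.length_inv] at h1
  rw [← A.L_mul (by rw [inv_mul_cancel_right]; exact h1.symm), inv_mul_cancel_right]

theorem Art.L_longest_left {w₀ u : W} (h : IsLongest cs T w₀) (hu : u ∈ par cs T) :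
    A.L w₀ = A.L u * A.L (u⁻¹ * w₀) := by
  have h1 := h.left (inv_mem hu)
  rw [cs.length_inv] at h1
  rw [← A.L_mul (by rw [mul_inv_cancel_left]; omega), mul_inv_cancel_left]

theorem Art.delta_comm {w₀ : W} (h : IsLongest cs T w₀) {s : S} (hs : s ∈ T) :
    (∃ s' ∈ T, A.L w₀ * A.σ s = A.σ s' * A.L w₀) ∧ ∃ s' ∈ T, A.σ s * A.L w₀ = A.L w₀ * A.σ s' := by
  obtain ⟨s', hs', he⟩ := h.conj hs
  have he' : cs.simple s * w₀ = w₀ * cs.simple s' := by
    have h1 := congrArg (fun x => x⁻¹) he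
    simpa only [mul_inv_rev, cs.inv_simple, h.inv] using h1
  have hr : ∀ t ∈ T, A.L w₀ = A.L (w₀ * cs.simple t) * A.σ t := by
    intro t ht
    have h1 := A.L_longest_right h ((simple_mem_par cs).2 ht)
    rwa [cs.inv_simple, A.L_simple] at h1
  have hl : ∀ t ∈ T, A.L w₀ = A.σ t * A.L (cs.simple t * w₀) := by
    intro t ht
    have h1 := A.L_longest_left h ((simple_mem_par cs).2 ht)
    rwa [cs.inv_simple, A.L_simple] at h1
  refine ⟨⟨s', hs', ?_⟩, s', hs', ?_⟩
  · calc A.L w₀ * A.σ s = A.σ s' * A.L (cs.simple s' * w₀) * A.σ s := by rw [← hl s' hs']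
      _ = A.σ s' * A.L w₀ := by rw [mul_assoc, ← he, ← hr s hs]
  · calc A.σ s * A.L w₀ = A.σ s * (A.L (w₀ * cs.simple s') * A.σ s') := by rw [← hr s' hs']
      _ = A.L w₀ * A.σ s' := by rw [← mul_assoc, ← he', ← hl s hs]

theorem Art.delta_conj_right {w₀ : W} (h : IsLongest cs T w₀) (N : ℕ) {p : G}
    (hp : p ∈ Pos A.σ T) : ∃ q ∈ Pos A.σ T, p * A.L w₀ ^ N = A.L w₀ ^ N * q := by
  have h1 : ∀ p ∈ Pos A.σ T, ∃ q ∈ Pos A.σ T, p * A.L w₀ = A.L w₀ * q := by
    intro p hp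
    induction hp using Submonoid.closure_induction with
    | mem x hx =>
      obtain ⟨s, hs, rfl⟩ := hx
      obtain ⟨s', hs', he⟩ := (A.delta_comm h hs).2
      exact ⟨_, A.σ_mem_Pos hs', he⟩
    | one => exact ⟨1, one_mem _, by rw [one_mul, mul_one]⟩
    | mul x y _ _ hx hy =>
      obtain ⟨q, hq, he⟩ := hx
      obtain ⟨q', hq', he'⟩ := hy
      exact ⟨q * q', mul_mem hq hq', by rw [mul_assoc, he', ← mul_assoc, he, mul_assoc]⟩
  induction N with
  | zero => exact ⟨p, hp, by rw [pow_zero, one_mul, mul_one]⟩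
  | succ N ih =>
    obtain ⟨q, hq, he⟩ := ih
    obtain ⟨q', hq', he'⟩ := h1 q hq
    exact ⟨q', hq', by rw [pow_succ, ← mul_assoc, he, mul_assoc, he', mul_assoc]⟩

theorem Art.delta_conj_left {w₀ : W} (h : IsLongest cs T w₀) (N : ℕ) {p : G}
    (hp : p ∈ Pos A.σ T) : ∃ q ∈ Pos A.σ T, A.L w₀ ^ N * p = q * A.L w₀ ^ N := by
  have h1 : ∀ p ∈ Pos A.σ T, ∃ q ∈ Pos A.σ T, A.L w₀ * p = q * A.L w₀ := by
    intro p hp
    induction hp using Submonoid.closure_induction with
    | mem x hx =>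
      obtain ⟨s, hs, rfl⟩ := hx
      obtain ⟨s', hs', he⟩ := (A.delta_comm h hs).1
      exact ⟨_, A.σ_mem_Pos hs', he⟩
    | one => exact ⟨1, one_mem _, by rw [one_mul, mul_one]⟩
    | mul x y _ _ hx hy =>
      obtain ⟨q, hq, he⟩ := hx
      obtain ⟨q', hq', he'⟩ := hy
      exact ⟨q * q', mul_mem hq hq', by rw [← mul_assoc, he, mul_assoc, he', mul_assoc]⟩
  induction N with
  | zero => exact ⟨p, hp, by rw [pow_zero, one_mul, mul_one]⟩
  | succ N ih =>
    obtain ⟨q, hq, he⟩ := ih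
    obtain ⟨q', hq', he'⟩ := h1 q hq
    exact ⟨q', hq', by rw [pow_succ', mul_assoc, he, ← mul_assoc, he', mul_assoc]⟩

theorem Art.ore_right (hT : Finite (par cs T)) {a : G} (ha : a ∈ AT A.σ T) :
    ∃ p ∈ Pos A.σ T, a * p ∈ Pos A.σ T := by
  obtain ⟨w₀, h⟩ := exists_longest hT
  have key : ∃ N : ℕ, a * A.L w₀ ^ N ∈ Pos A.σ T := by
    induction ha using Subgroup.closure_induction'' with
    | mem x hx =>
      obtain ⟨s, hs, rfl⟩ := hx
      exact ⟨0, by rw [pow_zero, mul_one]; exact A.σ_mem_Pos hs⟩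
    | inv_mem x hx =>
      obtain ⟨s, hs, rfl⟩ := hx
      have hs' := (simple_mem_par cs).2 hs
      refine ⟨1, ?_⟩
      rw [pow_one, A.L_longest_left h hs', A.L_simple, inv_mul_cancel_left]
      exact A.L_mem_Pos (mul_mem (inv_mem hs') h.1)
    | one => exact ⟨0, by rw [pow_zero, mul_one]; exact one_mem _⟩
    | mul x y _ _ hx hy =>
      obtain ⟨N, hN⟩ := hx
      obtain ⟨N', hN'⟩ := hy
      obtain ⟨q, hq, he⟩ := A.delta_conj_right h N hN'
      refine ⟨N' + N, ?_⟩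
      rw [pow_add, mul_assoc x, ← mul_assoc y, he, ← mul_assoc]
      exact mul_mem hN hq
  obtain ⟨N, hN⟩ := key
  exact ⟨_, pow_mem (A.L_mem_Pos h.1) N, hN⟩

theorem Art.ore_left (hT : Finite (par cs T)) {a : G} (ha : a ∈ AT A.σ T) :
    ∃ p ∈ Pos A.σ T, p * a ∈ Pos A.σ T := by
  obtain ⟨w₀, h⟩ := exists_longest hT
  have key : ∃ N : ℕ, A.L w₀ ^ N * a ∈ Pos A.σ T := by
    induction ha using Subgroup.closure_induction'' with
    | mem x hx =>
      obtain ⟨s, hs, rfl⟩ := hx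
      exact ⟨0, by rw [pow_zero, one_mul]; exact A.σ_mem_Pos hs⟩
    | inv_mem x hx =>
      obtain ⟨s, hs, rfl⟩ := hx
      have hs' := (simple_mem_par cs).2 hs
      refine ⟨1, ?_⟩
      rw [pow_one, A.L_longest_right h hs', A.L_simple, mul_inv_cancel_right]
      exact A.L_mem_Pos (mul_mem h.1 (inv_mem hs'))
    | one => exact ⟨0, by rw [pow_zero, one_mul]; exact one_mem _⟩
    | mul x y _ _ hx hy =>
      obtain ⟨N, hN⟩ := hx
      obtain ⟨N', hN'⟩ := hy
      obtain ⟨q, hq, he⟩ := A.delta_conj_left h N' hN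
      refine ⟨N' + N, ?_⟩
      rw [pow_add, ← mul_assoc _ x, mul_assoc _ _ x, he, mul_assoc]
      exact mul_mem hq hN'
  obtain ⟨N, hN⟩ := key
  exact ⟨_, pow_mem (A.L_mem_Pos h.1) N, hN⟩

theorem Art.mem_cos {g b : G} : b ∈ A.cos T g ↔ g⁻¹ * b ∈ AT A.σ T := Iff.rfl

theorem Art.self_mem_cos (g : G) : g ∈ A.cos T g := by
  rw [A.mem_cos, inv_mul_cancel]
  exact one_mem _

theorem Art.cos_eq {g b : G} (h : b ∈ A.cos T g) : A.cos T b = A.cos T g := by
  rw [A.mem_cos] at h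
  ext x
  rw [A.mem_cos, A.mem_cos, ← Subgroup.mul_mem_cancel_left _ h, mul_assoc, mul_inv_cancel_left]

theorem Art.cos_subset {T' : Finset S} (hT : T' ⊆ T) {g b : G} (h : b ∈ A.cos T g) :
    A.cos T' b ⊆ A.cos T g := by
  rw [← A.cos_eq h]
  exact fun x hx => A.AT_mono hT hx

theorem Art.cos_empty (g : G) : A.cos ∅ g = {g} := by
  ext x
  rw [A.mem_cos, A.AT_empty, Subgroup.mem_bot, inv_mul_eq_one, Set.mem_singleton_iff, eq_comm]

theorem rP_refl (x : Finset S × Set G) : rP x x := Or.inl ⟨subset_rfl, subset_rfl⟩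

theorem rP_symm {x y : Finset S × Set G} (h : rP x y) : rP y x := Or.symm h

theorem leP_trans {x y z : Finset S × Set G} (h : leP x y) (h' : leP y z) : leP x z :=
  ⟨h.1.trans h'.1, h.2.trans h'.2⟩

theorem Art.eq_of_leP {x y : Finset S × Set G} (hx : ∃ g, x.2 = A.cos x.1 g)
    (hy : ∃ g, y.2 = A.cos y.1 g) (h : leP x y) (h1 : x.1 = y.1) : x = y := by
  obtain ⟨g, hg⟩ := hx
  obtain ⟨g', hg'⟩ := hy
  have h2 : g ∈ A.cos y.1 g' := by
    rw [← hg']
    refine h.2 ?_
    rw [hg]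
    exact A.self_mem_cos g
  refine Prod.ext h1 ?_
  rw [hg, hg', h1, A.cos_eq h2]

end Vale.Agent.P203
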