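import Vale.Agent.P203.SalOrd
import Vale.Agent.P203.TopBasic

namespace Vale.Agent.P203

universe u

variable {S W : Type} [Fintype S] [DecidableEq S] [Group W] {M : CoxeterMatrix S}
  {cs : CoxeterSystem M W} {G : Type u} [Group G]

namespace Cover

open Set Function Topology

/-- `h` is the push forward of `f` along `π`, which is injective on the support of `f`. -/
def Proj {V V' : Type*} (π : V → V') (f : V → ℝ) (h : V' → ℝ) : Prop :=
  BijOn π (support f) (support h) ∧ ∀ x, f x ≠ 0 → h (π x) = f x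

section General

variable {V V' : Type*} {π : V → V'} {f : V → ℝ} {h h' : V' → ℝ}

theorem Proj.mk' (hi : InjOn π (support f)) (h1 : ∀ x, f x ≠ 0 → h (π x) = f x)
    (h2 : ∀ v, h v ≠ 0 → ∃ x, f x ≠ 0 ∧ π x = v) : Proj π f h :=
  ⟨⟨fun x hx => (h1 x hx).trans_ne hx, hi, fun v hv => h2 v hv⟩, h1⟩

theorem Proj.exists_of_ne (hp : Proj π f h) {v : V'} (hv : h v ≠ 0) : ∃ x, f x ≠ 0 ∧ π x = v :=
  hp.1.surjOn hv

theorem Proj.unique (hp : Proj π f h) (hp' : Proj π f h') : h = h' := by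
  funext v
  by_cases hv : ∃ x, f x ≠ 0 ∧ π x = v
  · obtain ⟨x, hx, rfl⟩ := hv
    rw [hp.2 x hx, hp'.2 x hx]
  · rw [of_not_not fun h0 => hv (hp.exists_of_ne h0), of_not_not fun h0 => hv (hp'.exists_of_ne h0)]

theorem Proj.finsum_eq (hp : Proj π f h) : ∑ᶠ v, h v = ∑ᶠ x, f x := by
  rw [← finsum_mem_support, ← finsum_mem_support f]
  exact (finsum_mem_eq_of_bijOn π hp.1 fun x hx => (hp.2 x hx).symm).symm

theorem exists_proj (hi : InjOn π (support f)) : ∃ h, Proj π f h := by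
  classical
  refine ⟨fun v => if hv : ∃ x, f x ≠ 0 ∧ π x = v then f hv.choose else 0,
    Proj.mk' hi (fun x hx => ?_) fun v hv => ?_⟩
  · have hv : ∃ x', f x' ≠ 0 ∧ π x' = π x := ⟨x, hx, rfl⟩
    rw [dif_pos hv, hi hv.choose_spec.1 hx hv.choose_spec.2]
  · by_contra h0
    exact hv (dif_neg h0)

theorem exists_ne {r : V → V → Prop} {B : Set V} (hf : f ∈ Rz r B) : ∃ y, f y ≠ 0 := by
  by_contra h0
  have h1 := hf.2.2.1
  rw [show f = fun _ => 0 from funext fun y => of_not_not fun hy => h0 ⟨y, hy⟩, finsum_zero] at h1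
  exact zero_ne_one h1

end General

variable (A : Art cs G)

/-- the projection of the vertices -/
def pv (x : G × Finset S) : W × Finset S := (A.pr x.1, x.2)

theorem eq_of_rS {x y : G × Finset S} (h : A.rS x y) (h2 : x.2 = y.2) : x = y :=
  h.elim (fun h => A.eq_of_leS h h2) fun h => (A.eq_of_leS h h2.symm).symm

omit [Fintype S] [DecidableEq S] in
theorem rel_of_rS {x y : G × Finset S} (h : A.rS x y) :
    SalLE cs (pv A x) (pv A y) ∨ SalLE cs (pv A y) (pv A x) :=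
  h.imp And.left And.left

theorem lift_unique {x x' y : G × Finset S} (h : A.rS x y) (h' : A.rS x' y)
    (he : pv A x = pv A x') : x = x' :=
  (A.existsUnique_lift y (rel_of_rS A h)).unique ⟨rfl, h⟩ ⟨he.symm, h'⟩

variable {A}
variable {f : G × Finset S → ℝ} {h : W × Finset S → ℝ} {y : G × Finset S}

theorem injOn_pv (hf : f ∈ Rz A.rS (SS cs G)) : InjOn (pv A) (support f) :=
  fun x hx x' hx' he => eq_of_rS A (hf.2.2.2.2 x hx x' hx') (Prod.mk.inj he).2

omit [Fintype S] [DecidableEq S] in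
theorem Proj.mem_Sal (hp : Proj (pv A) f h) (hf : f ∈ Rz A.rS (SS cs G)) : h ∈ Sal cs := by
  refine ⟨?_, fun v => ?_, hp.finsum_eq.trans hf.2.2.1, fun v hv => ?_, fun v hv v' hv' => ?_⟩
  · rw [← hp.1.image_eq]
    exact hf.1.image _
  · by_cases hv : h v = 0
    · exact hv.ge
    · obtain ⟨x, hx, rfl⟩ := hp.exists_of_ne hv
      rw [hp.2 x hx]
      exact hf.2.1 x
  · obtain ⟨x, hx, rfl⟩ := hp.exists_of_ne hv
    exact hf.2.2.2.1 hx
  · obtain ⟨x, hx, rfl⟩ := hp.exists_of_ne hv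
    obtain ⟨x', hx', rfl⟩ := hp.exists_of_ne hv'
    exact rel_of_rS A (hf.2.2.2.2 x hx x' hx')

open Classical in
/-- the local section over the star of `y` -/
noncomputable def sec (A : Art cs G) (y : G × Finset S) (h : W × Finset S → ℝ)
    (x : G × Finset S) : ℝ :=
  if A.rS x y then h (pv A x) else 0

omit [Fintype S] [DecidableEq S] in
theorem continuous_sec (A : Art cs G) (y : G × Finset S) : Continuous (sec A y) := by
  refine continuous_pi fun x => ?_
  unfold sec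
  split_ifs
  · exact continuous_apply _
  · exact continuous_const

omit [Fintype S] [DecidableEq S] in
theorem sec_ne {x : G × Finset S} (hx : sec A y h x ≠ 0) : A.rS x y ∧ sec A y h x = h (pv A x) := by
  unfold sec at hx ⊢
  split_ifs at hx ⊢ with h0
  · exact ⟨h0, rfl⟩
  · exact absurd rfl hx

theorem proj_sec (hh : h ∈ Sal cs) (hy : h (pv A y) ≠ 0) : Proj (pv A) (sec A y h) h := by
  refine Proj.mk' (fun x hx x' hx' he => lift_unique A (sec_ne hx).1 (sec_ne hx').1 he)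
    (fun x hx => (sec_ne hx).2.symm) fun v hv => ?_
  obtain ⟨x, ⟨rfl, hx⟩, -⟩ := A.existsUnique_lift y (hh.2.2.2.2 v hv _ hy)
  refine ⟨x, ?_, rfl⟩
  rw [sec, if_pos hx]
  exact hv

theorem sec_mem (hh : h ∈ Sal cs) (hy : h (pv A y) ≠ 0) : sec A y h ∈ Rz A.rS (SS cs G) := by
  have hp := proj_sec hh hy
  refine ⟨?_, fun x => ?_, hp.finsum_eq.symm.trans hh.2.2.1, fun x hx => ?_, fun x hx x' hx' => ?_⟩
  · refine Finite.of_finite_image ?_ hp.1.injOn
    rw [hp.1.image_eq]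
    exact hh.1
  · unfold sec
    split_ifs
    · exact hh.2.1 _
    · exact le_rfl
  · have h1 : pv A x ∈ {x : W × Finset S | Finite (par cs x.2)} := hh.2.2.2.1 (hp.1.mapsTo hx)
    exact h1
  · exact (hh.2.2.2.2 _ (hp.1.mapsTo hx) _ (hp.1.mapsTo hx')).imp
      (A.rS_of_lifts (sec_ne hx).1 (sec_ne hx').1) (A.rS_of_lifts (sec_ne hx').1 (sec_ne hx).1)

theorem Proj.eq_of_rS (hp : Proj (pv A) f h) (hf : f ∈ Rz A.rS (SS cs G)) (hy : f y ≠ 0)
    {x : G × Finset S} (hx : A.rS x y) : h (pv A x) = f x := by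
  by_cases h0 : f x = 0
  · rw [h0]
    by_contra h1
    obtain ⟨x', hx', he⟩ := hp.exists_of_ne h1
    rw [lift_unique A (hf.2.2.2.2 x' hx' y hy) hx he] at hx'
    exact hx' h0
  · exact hp.2 x h0

theorem Proj.eq_sec (hp : Proj (pv A) f h) (hf : f ∈ Rz A.rS (SS cs G)) (hy : f y ≠ 0) :
    f = sec A y h := by
  funext x
  unfold sec
  split_ifs with hx
  · exact (hp.eq_of_rS hf hy hx).symm
  · by_contra h0
    exact hx (hf.2.2.2.2 x h0 y hy)

/-- translation of a function on the vertices -/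
def tr {K : Type*} [Group K] (g : K) (f : K × Finset S → ℝ) (x : K × Finset S) : ℝ :=
  f (g⁻¹ * x.1, x.2)

theorem tr_mem (g : G) (hf : f ∈ Rz A.rS (SS cs G)) : tr g f ∈ Rz A.rS (SS cs G) := by
  let e : G × Finset S ≃ G × Finset S := (Equiv.mulLeft g⁻¹).prodCongr (Equiv.refl _)
  refine ⟨hf.1.preimage (f := e) e.injective.injOn, fun x => hf.2.1 _,
    (finsum_comp_equiv e).trans hf.2.2.1, fun x hx => (hf.2.2.2.1 (show e x ∈ support f from hx) :),
    fun x hx x' hx' => ?_⟩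
  exact (hf.2.2.2.2 (e x) hx (e x') hx').imp (A.leS_mul g⁻¹).1 (A.leS_mul g⁻¹).1

theorem Proj.tr (hp : Proj (pv A) f h) (hf : f ∈ Rz A.rS (SS cs G)) (g : G) :
    Proj (pv A) (tr g f) (tr (A.pr g) h) := by
  refine Proj.mk' (injOn_pv (tr_mem g hf)) (fun x hx => ?_) fun v hv => ?_
  · have := hp.2 _ hx
    rw [pv, map_mul, map_inv] at this
    exact this
  · obtain ⟨x, hx, he⟩ := hp.exists_of_ne hv
    refine ⟨(g * x.1, x.2), by simpa [Cover.tr] using hx, ?_⟩
    have h1 : A.pr x.1 = (A.pr g)⁻¹ * v.1 := (Prod.mk.inj he).1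
    have h2 : x.2 = v.2 := (Prod.mk.inj he).2
    simp [pv, h1, h2]

/-- the action of the group on the realization -/
abbrev act (A : Art cs G) : MulAction G (Rz A.rS (SS cs G)) where
  smul g f := ⟨tr g f.1, tr_mem g f.2⟩
  one_smul f := Subtype.ext (funext fun x => by
    change f.1 (1⁻¹ * x.1, x.2) = f.1 x
    rw [inv_one, one_mul])
  mul_smul g g' f := Subtype.ext (funext fun x => by
    change f.1 ((g * g')⁻¹ * x.1, x.2) = f.1 (g'⁻¹ * (g⁻¹ * x.1), x.2)
    rw [mul_inv_rev, mul_assoc])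

/-- the projection of the realizations -/
noncomputable def P0 (A : Art cs G) (f : Rz A.rS (SS cs G)) : Sal cs :=
  ⟨(exists_proj (injOn_pv f.2)).choose, (exists_proj (injOn_pv f.2)).choose_spec.mem_Sal f.2⟩

theorem proj_P0 (f : Rz A.rS (SS cs G)) : Proj (pv A) f.1 (P0 A f).1 :=
  (exists_proj (injOn_pv f.2)).choose_spec

theorem continuous_P0 (A : Art cs G) : Continuous (P0 A) := by
  refine continuous_induced_rng.2 (continuous_pi fun v => continuous_iff_continuousAt.2 fun f => ?_)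
  obtain ⟨y, hy⟩ := exists_ne f.2
  have hc : ∀ x, Continuous fun f : Rz A.rS (SS cs G) => f.1 x := fun x =>
    (continuous_apply x).comp continuous_subtype_val
  have hU : ∀ᶠ f' : Rz A.rS (SS cs G) in 𝓝 f, f'.1 y ≠ 0 := (hc y).continuousAt.eventually_ne hy
  by_cases hv : ∃ x, pv A x = v ∧ A.rS x y
  · obtain ⟨x, rfl, hx⟩ := hv
    refine (hc x).continuousAt.congr (hU.mono fun f' hf' => ?_)
    exact ((proj_P0 f').eq_of_rS f'.2 hf' hx).symm
  · refine (continuousAt_const (y := (0 : ℝ))).congr (hU.mono fun f' hf' => ?_)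
    by_contra h0
    obtain ⟨x, hx, he⟩ := (proj_P0 f').exists_of_ne (Ne.symm h0)
    exact hv ⟨x, he, f'.2.2.2.2.2 x hx y hf'⟩

theorem P0_sec (h : Sal cs) (hy : h.1 (pv A y) ≠ 0) : P0 A ⟨sec A y h.1, sec_mem h.2 hy⟩ = h :=
  Subtype.ext ((proj_P0 _).unique (proj_sec h.2 hy))

theorem exists_pv (A : Art cs G) (h : Sal cs) : ∃ y, h.1 (pv A y) ≠ 0 := by
  obtain ⟨v, hv⟩ := exists_ne h.2
  refine ⟨(A.L v.1, v.2), ?_⟩
  rw [pv, A.pr_L]
  exact hv

theorem isQuotientMap_P0 (A : Art cs G) : IsQuotientMap (P0 A) := by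
  refine ⟨isCoinducing_iff.2 fun s => ⟨fun hs => ?_, fun hs => hs.preimage (continuous_P0 A)⟩,
    fun h => ?_⟩
  swap
  · obtain ⟨y, hy⟩ := exists_pv A h
    exact ⟨_, P0_sec h hy⟩
  · obtain ⟨O, hO, he⟩ := isOpen_induced_iff.1 hs
    refine isOpen_iff_mem_nhds.2 fun h hh => ?_
    obtain ⟨y, hy⟩ := exists_pv A h
    have key : ∀ h' : Sal cs, h'.1 (pv A y) ≠ 0 → (sec A y h'.1 ∈ O ↔ h' ∈ s) := fun h' hy' => by
      have := Set.ext_iff.1 he ⟨sec A y h'.1, sec_mem h'.2 hy'⟩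
      rwa [mem_preimage, mem_preimage, P0_sec h' hy'] at this
    have h1 : ∀ᶠ h' : Sal cs in 𝓝 h, h'.1 (pv A y) ≠ 0 :=
      ((continuous_apply _).comp continuous_subtype_val).continuousAt.eventually_ne hy
    have h2 : ∀ᶠ h' : Sal cs in 𝓝 h, sec A y h'.1 ∈ O :=
      ((continuous_sec A y).comp continuous_subtype_val).continuousAt.eventually_mem
        (hO.mem_nhds ((key h hy).2 hh))
    filter_upwards [h1, h2] with h' h1 h2 using (key h' h1).1 h2

omit [Fintype S] [DecidableEq S] in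
theorem equivalence_rel (cs : CoxeterSystem M W) :
    Equivalence fun f g : Sal cs => ∃ w : W, ∀ u T, g.1 (w * u, T) = f.1 (u, T) where
  refl f := ⟨1, fun u T => by rw [one_mul]⟩
  symm := fun ⟨w, hw⟩ => ⟨w⁻¹, fun u T => by rw [← hw, mul_inv_cancel_left]⟩
  trans := fun ⟨w, hw⟩ ⟨w', hw'⟩ => ⟨w' * w, fun u T => by rw [mul_assoc, hw', hw]⟩

theorem exists_tr {f₁ f₂ : Rz A.rS (SS cs G)} {w : W}
    (hw : ∀ u T, (P0 A f₂).1 (w * u, T) = (P0 A f₁).1 (u, T)) : ∃ g, tr g f₂.1 = f₁.1 := by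
  have h1 : Proj (pv A) (tr (A.L w⁻¹) f₂.1) (P0 A f₁).1 := by
    have := (proj_P0 f₂).tr f₂.2 (A.L w⁻¹)
    rwa [A.pr_L, show tr w⁻¹ (P0 A f₂).1 = (P0 A f₁).1 from
      funext fun v => by rw [tr, inv_inv, hw]] at this
  have h2 := tr_mem (A.L w⁻¹) f₂.2
  obtain ⟨y, hy⟩ := exists_ne f₁.2
  obtain ⟨y', hy', he⟩ := h1.exists_of_ne (((proj_P0 f₁).2 y hy).trans_ne hy)
  have e1 : A.pr y'.1 = A.pr y.1 := (Prod.mk.inj he).1
  have e2 : y'.2 = y.2 := (Prod.mk.inj he).2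
  have h3 := h1.tr h2 (y.1 * y'.1⁻¹)
  rw [show tr (A.pr (y.1 * y'.1⁻¹)) (P0 A f₁).1 = (P0 A f₁).1 from
    funext fun v => by simp [tr, e1]] at h3
  have h4 : tr (y.1 * y'.1⁻¹) (tr (A.L w⁻¹) f₂.1) y ≠ 0 := by
    rw [tr, mul_inv_rev, inv_inv, inv_mul_cancel_right, ← e2]
    exact hy'
  refine ⟨y.1 * y'.1⁻¹ * A.L w⁻¹, ?_⟩
  rw [(proj_P0 f₁).eq_sec f₁.2 hy, ← h3.eq_sec (tr_mem _ h2) h4]
  funext x
  simp only [tr, mul_inv_rev, mul_assoc]

end Cover

open Cover in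
theorem exists_cover (A : Art cs G) :
    ∃ p : Rz A.rS (SS cs G) → Salvetti cs, IsCoveringMap p ∧ Function.Surjective p := by
  let := act A
  have hq : Topology.IsQuotientMap (fun f => Quot.mk _ (P0 A f) : _ → Salvetti cs) :=
    isQuotientMap_quot_mk.comp (isQuotientMap_P0 A)
  refine ⟨_, IsQuotientCoveringMap.isCoveringMap _ G ⟨hq, ⟨fun g => ?_⟩, ?_, fun f => ?_⟩,
    hq.surjective⟩
  · exact continuous_induced_rng.2 (continuous_pi fun x =>
      (continuous_apply (g⁻¹ * x.1, x.2)).comp continuous_subtype_val)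
  · intro f₁ f₂
    rw [Quot.eq, (equivalence_rel cs).eqvGen_iff]
    constructor
    · rintro ⟨w, hw⟩
      obtain ⟨g, hg⟩ := exists_tr hw
      exact ⟨g, Subtype.ext hg⟩
    · rintro ⟨g, rfl⟩
      refine ⟨(A.pr g)⁻¹, fun u T => ?_⟩
      exact congrFun (((proj_P0 f₂).tr f₂.2 g).unique (proj_P0 (g • f₂))) (u, T)
  · obtain ⟨y, hy⟩ := exists_ne f.2
    refine ⟨{f' | f'.1 y ≠ 0},
      ((continuous_apply y).comp continuous_subtype_val).continuousAt.eventually_ne hy, ?_⟩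
    rintro g ⟨_, ⟨f', h1, rfl⟩, h2⟩
    have h3 := congrArg Prod.fst (eq_of_rS A (f'.2.2.2.2.2 (g⁻¹ * y.1, y.2) h2 y h1) rfl)
    simpa using h3

end Vale.Agent.P203
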