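import Vale.Agent.P203.Defs
import Vale.Agent.P035.GeomRep

namespace Vale.Agent.P203

open Finset

variable {S W : Type} [Fintype S] [DecidableEq S] [Group W] {M : CoxeterMatrix S}

/-- The symmetric Cartan matrix: `2` on the diagonal, `-2 cos (π / m)` elsewhere. -/
noncomputable def cf (M : CoxeterMatrix S) (s t : S) : ℝ :=
  -2 * Real.cos (Real.pi / (M s t : ℝ))

/-- The pairing of `x` with the simple root `s`. -/
noncomputable def Ax (M : CoxeterMatrix S) (x : S → ℝ) (s : S) : ℝ := ∑ t, cf M s t * x t

/-- The Tits form. -/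
noncomputable def Bf (M : CoxeterMatrix S) (x y : S → ℝ) : ℝ := ∑ s, x s * Ax M y s

/-- The Tits form is positive definite on the vectors supported in `T`. -/
def PD (M : CoxeterMatrix S) (T : Finset S) : Prop :=
  ∀ x : S → ℝ, (∀ s, s ∉ T → x s = 0) → x ≠ 0 → 0 < Bf M x x

/-- half of the Tits form as a bilinear map -/
noncomputable def halfB (M : CoxeterMatrix S) : (S → ℝ) →ₗ[ℝ] (S → ℝ) →ₗ[ℝ] ℝ :=
  Matrix.toLinearMap₂' ℝ (Matrix.of fun s t => -Real.cos (Real.pi / (M s t : ℝ)))

theorem halfB_single (s t : S) :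
    halfB M (Pi.single s 1) (Pi.single t 1) = -Real.cos (Real.pi / (M s t : ℝ)) := by
  simp [halfB, Matrix.toLinearMap₂'_apply, Pi.single_apply]

theorem liftable_refl (M : CoxeterMatrix S) :
    M.IsLiftable fun i => P035.grRefl (halfB M) (Pi.single i 1) := by
  have hone : ∀ i, halfB M (Pi.single i 1) (Pi.single i 1) = 1 := fun i => by
    rw [halfB_single, M.diagonal]
    simp
  intro i j
  by_cases hij : i = j
  · subst hij
    rw [M.diagonal, pow_one]
    exact P035.grRefl_sq _ _ (hone i)
  · rcases Nat.eq_zero_or_pos (M i j) with h | h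
    · rw [h, pow_zero]
    · have := M.off_diagonal i j hij
      exact P035.grRefl_pow _ _ _ _ (by omega) (hone i) (hone j) (halfB_single i j)
        (by rw [halfB_single, M.symmetric j i])

/-- The geometric representation. -/
noncomputable def rho (cs : CoxeterSystem M W) : W →* Module.End ℝ (S → ℝ) :=
  cs.lift ⟨_, liftable_refl M⟩

theorem cf_symm (s t : S) : cf M s t = cf M t s := by
  rw [cf, cf, M.symmetric s t]

theorem cf_self (s : S) : cf M s s = 2 := by
  simp [cf, M.diagonal]

theorem cf_nonpos {s t : S} (h : s ≠ t) : cf M s t ≤ 0 := by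
  have h1 := M.off_diagonal s t h
  have : 0 ≤ Real.cos (Real.pi / (M s t : ℝ)) := by
    rcases Nat.eq_zero_or_pos (M s t) with h0 | h0
    · simp [h0]
    · have h2 : (2 : ℝ) ≤ M s t := by exact_mod_cast (by omega : 2 ≤ M s t)
      refine Real.cos_nonneg_of_mem_Icc ⟨?_, ?_⟩
      · have : 0 ≤ Real.pi / (M s t : ℝ) := by positivity
        linarith [Real.pi_pos]
      · exact div_le_div_of_nonneg_left Real.pi_pos.le (by norm_num) h2
  unfold cf
  linarith

theorem rho_simple (cs : CoxeterSystem M W) (s : S) (x : S → ℝ) :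
    rho cs (cs.simple s) x = x - Ax M x s • (Pi.single s 1 : S → ℝ) := by
  rw [rho, cs.lift_apply_simple (liftable_refl M), P035.grRefl_apply]
  congr 2
  simp only [halfB, Matrix.toLinearMap₂'_apply, Ax, cf, Matrix.of_apply, Pi.single_apply,
    smul_eq_mul, mul_ite, ite_mul, one_mul, zero_mul, mul_zero, sum_ite_eq', mem_univ, if_true,
    mul_sum]
  exact sum_congr rfl fun t _ => by rw [M.symmetric t s]; ring

/-- The braid relations for a family of elements of a monoid. -/
def Braid (M : CoxeterMatrix S) {G : Type*} [Monoid G] (σ : S → G) : Prop :=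
  ∀ i j, ((CoxeterSystem.braidWord M i j).map σ).prod =
    ((CoxeterSystem.braidWord M j i).map σ).prod

/-- The set theoretic lift of `W` along a chosen reduced word. -/
noncomputable def Lf (cs : CoxeterSystem M W) {G : Type*} [Monoid G] (σ : S → G) (w : W) : G :=
  ((cs.exists_isReduced w).choose.map σ).prod

/-- `w` is the longest element of `W_T`. -/
def IsLongest (cs : CoxeterSystem M W) (T : Finset S) (w : W) : Prop :=
  w ∈ par cs T ∧ ∀ u ∈ par cs T, cs.length (w * u) + cs.length u = cs.length w

/-- The subgroup generated by the `σ t`, `t ∈ T`. -/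
def AT {G : Type*} [Group G] (σ : S → G) (T : Finset S) : Subgroup G :=
  Subgroup.closure (σ '' (T : Set S))

/-- The submonoid generated by the `σ t`, `t ∈ T`. -/
def Pos {G : Type*} [Group G] (σ : S → G) (T : Finset S) : Submonoid G :=
  Submonoid.closure (σ '' (T : Set S))

end Vale.Agent.P203
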