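import Vale.Agent.P203.CoxDefs

namespace Vale.Agent.P203

open Finset

variable {S : Type} [Fintype S] [DecidableEq S] {M : CoxeterMatrix S}

theorem Ax_add (x y : S → ℝ) (s : S) : Ax M (x + y) s = Ax M x s + Ax M y s := by
  simp [Ax, mul_add, sum_add_distrib]

theorem Ax_sub (x y : S → ℝ) (s : S) : Ax M (x - y) s = Ax M x s - Ax M y s := by
  simp [Ax, mul_sub, sum_sub_distrib]

theorem Ax_neg (x : S → ℝ) (s : S) : Ax M (-x) s = -Ax M x s := by
  simp [Ax, sum_neg_distrib]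

theorem Ax_smul (c : ℝ) (x : S → ℝ) (s : S) : Ax M (c • x) s = c * Ax M x s := by
  simp only [Ax, Pi.smul_apply, smul_eq_mul, mul_sum]
  exact sum_congr rfl fun t _ => by ring

theorem Ax_zero (s : S) : Ax M 0 s = 0 := by simp [Ax]

theorem Ax_single (s t : S) (c : ℝ) : Ax M (Pi.single t c) s = cf M s t * c := by
  simp [Ax, Pi.single_apply]

theorem continuous_Ax (s : S) : Continuous fun x : S → ℝ => Ax M x s := by
  unfold Ax
  fun_prop

theorem Bf_symm (x y : S → ℝ) : Bf M x y = Bf M y x := by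
  simp only [Bf, Ax, mul_sum]
  rw [sum_comm]
  exact sum_congr rfl fun s _ => sum_congr rfl fun t _ => by rw [cf_symm t s]; ring

theorem Bf_eq_sum (x y : S → ℝ) : Bf M x y = ∑ s, Ax M x s * y s := by
  rw [Bf_symm, Bf]
  exact sum_congr rfl fun s _ => mul_comm _ _

theorem Bf_single_left (s : S) (c : ℝ) (y : S → ℝ) : Bf M (Pi.single s c) y = c * Ax M y s := by
  simp [Bf, Pi.single_apply]

theorem Bf_single_right (s : S) (c : ℝ) (x : S → ℝ) : Bf M x (Pi.single s c) = c * Ax M x s := by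
  rw [Bf_symm, Bf_single_left]

theorem Bf_add_left (x x' y : S → ℝ) : Bf M (x + x') y = Bf M x y + Bf M x' y := by
  simp [Bf, add_mul, sum_add_distrib]

theorem Bf_sub_left (x x' y : S → ℝ) : Bf M (x - x') y = Bf M x y - Bf M x' y := by
  simp [Bf, sub_mul, sum_sub_distrib]

theorem Bf_neg_left (x y : S → ℝ) : Bf M (-x) y = -Bf M x y := by
  simp [Bf, sum_neg_distrib]

theorem Bf_smul_left (c : ℝ) (x y : S → ℝ) : Bf M (c • x) y = c * Bf M x y := by
  simp only [Bf, Pi.smul_apply, smul_eq_mul, mul_sum, mul_assoc]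

theorem Bf_zero_left (y : S → ℝ) : Bf M 0 y = 0 := by simp [Bf]

theorem Bf_add_right (x y y' : S → ℝ) : Bf M x (y + y') = Bf M x y + Bf M x y' := by
  rw [Bf_symm, Bf_add_left, Bf_symm y, Bf_symm y']

theorem Bf_sub_right (x y y' : S → ℝ) : Bf M x (y - y') = Bf M x y - Bf M x y' := by
  rw [Bf_symm, Bf_sub_left, Bf_symm y, Bf_symm y']

theorem Bf_neg_right (x y : S → ℝ) : Bf M x (-y) = -Bf M x y := by
  rw [Bf_symm, Bf_neg_left, Bf_symm y]

theorem Bf_smul_right (c : ℝ) (x y : S → ℝ) : Bf M x (c • y) = c * Bf M x y := by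
  rw [Bf_symm, Bf_smul_left, Bf_symm y]

theorem Bf_zero_right (x : S → ℝ) : Bf M x 0 = 0 := by rw [Bf_symm, Bf_zero_left]

/-- raising the other coordinates lowers the pairing with `s` -/
theorem Ax_anti {x y : S → ℝ} {s : S} (h : ∀ t, t ≠ s → x t ≤ y t) (hs : x s = y s) :
    Ax M y s ≤ Ax M x s := by
  refine sum_le_sum fun t _ => ?_
  by_cases ht : t = s
  · rw [ht, hs]
  · exact mul_le_mul_of_nonpos_left (h t ht) (cf_nonpos (Ne.symm ht))

theorem Ax_congr {x y : S → ℝ} {s : S} (h : ∀ t, cf M s t ≠ 0 → x t = y t) :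
    Ax M x s = Ax M y s := by
  refine sum_congr rfl fun t _ => ?_
  by_cases ht : cf M s t = 0
  · rw [ht, zero_mul, zero_mul]
  · rw [h t ht]

/-- The feasible set of the Zariski decomposition. -/
def Feas (M : CoxeterMatrix S) (N T : Finset S) (c d lam : S → ℝ) : Set (S → ℝ) :=
  {e | (∀ j, j ∉ N → e j = c j) ∧ (∀ j ∈ N, Ax M e j ≤ lam j) ∧ ∀ j ∈ N, j ∉ T → e j ≤ d j}

/-- The possible values of the nef part. -/
def Vals (M : CoxeterMatrix S) (D : Set ℝ) (lam : S → ℝ) : Set (S → ℝ) :=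
  {P | ∃ R : Finset S, PD M R ∧ (∀ j ∈ R, Ax M P j = lam j) ∧ ∀ j, j ∉ R → P j ∈ D}

/-- Unfolding data. -/
structure Unf (M : CoxeterMatrix S) (I : Type) [Fintype I] where
  ty : I → S
  surj : Function.Surjective ty
  n : I → I → ℕ
  symm : ∀ i j, n i j = n j i
  le_two : ∀ i j, n i j ≤ 2
  same : ∀ i j, ty i = ty j → n i j = 0
  ε : I → ℝ
  pos : ∀ i, 0 < ε i
  eig : ∀ s j, s ≠ ty j → ∑ i ∈ univ.filter (ty · = s), ε i * n i j = -cf M s (ty j) * ε j

/-- the vertices of a given type -/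
noncomputable def Unf.lst {I : Type} [Fintype I] (U : Unf M I) (s : S) : List I :=
  (univ.filter (U.ty · = s)).toList

end Vale.Agent.P203
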