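import Vale.Agent.P203.CoxLin
import Vale.Agent.P035.GeomPos

namespace Vale.Agent.P203

open Finset

variable {S W : Type} [Fintype S] [DecidableEq S] [Group W] {M : CoxeterMatrix S}
  (cs : CoxeterSystem M W)

theorem rho_mul (u w : W) (x : S → ℝ) : rho cs (u * w) x = rho cs u (rho cs w x) := by
  rw [map_mul, Module.End.mul_apply]

theorem rho_inv_rho (w : W) (x : S → ℝ) : rho cs w⁻¹ (rho cs w x) = x := by
  rw [← rho_mul, inv_mul_cancel, map_one, Module.End.one_apply]

theorem rho_one (x : S → ℝ) : rho cs 1 x = x := by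
  rw [map_one, Module.End.one_apply]

theorem rho_rho_inv (w : W) (x : S → ℝ) : rho cs w (rho cs w⁻¹ x) = x := by
  rw [← rho_mul, mul_inv_cancel, rho_one]

theorem Bf_rho (w : W) (x y : S → ℝ) : Bf M (rho cs w x) (rho cs w y) = Bf M x y := by
  induction w using cs.simple_induction generalizing x y with
  | simple s =>
    simp only [rho_simple, Bf_sub_left, Bf_sub_right, Bf_smul_left, Bf_smul_right, Bf_single_left,
      Bf_single_right, Ax_sub, Ax_smul, Ax_single, cf_self]
    ring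
  | one => rw [rho_one, rho_one]
  | mul u w hu hw => rw [rho_mul, rho_mul, hu, hw]

theorem Bf_rho_left (w : W) (x y : S → ℝ) : Bf M (rho cs w x) y = Bf M x (rho cs w⁻¹ y) := by
  rw [← Bf_rho cs w x, rho_rho_inv]

theorem rho_simple_self (s : S) :
    rho cs (cs.simple s) (Pi.single s 1) = -(Pi.single s 1 : S → ℝ) := by
  rw [rho_simple, Ax_single, cf_self]
  module

theorem rho_alt (i j : S) (U : ℕ → ℝ) (h0 : U 0 = 0) (h1 : U 1 = 1)
    (hU : ∀ n, U (n + 2) = 2 * Real.cos (Real.pi / (M i j : ℝ)) * U (n + 1) - U n) (k : ℕ) :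
    rho cs (cs.wordProd (CoxeterSystem.alternatingWord i j k)) (Pi.single i 1) =
      if Even k then U (k + 1) • (Pi.single i 1 : S → ℝ) + U k • (Pi.single j 1 : S → ℝ)
      else U k • (Pi.single i 1 : S → ℝ) + U (k + 1) • (Pi.single j 1 : S → ℝ) := by
  have hij : rho cs (cs.simple j) (Pi.single i 1) =
      Pi.single i 1 + (2 * Real.cos (Real.pi / (M i j : ℝ))) • (Pi.single j 1 : S → ℝ) := by
    rw [rho_simple, Ax_single, cf_symm, cf]
    module
  have hji : rho cs (cs.simple i) (Pi.single j 1) =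
      Pi.single j 1 + (2 * Real.cos (Real.pi / (M i j : ℝ))) • (Pi.single i 1 : S → ℝ) := by
    rw [rho_simple, Ax_single, cf]
    module
  induction k with
  | zero => simp [CoxeterSystem.alternatingWord, h0, h1]
  | succ k ih =>
    rw [CoxeterSystem.alternatingWord_succ', cs.wordProd_cons, rho_mul, ih]
    by_cases hk : Even k
    · rw [if_pos hk, if_pos hk, if_neg (by simp [Nat.even_add_one, hk]), map_add, map_smul,
        map_smul, hij, rho_simple_self, hU]
      module
    · rw [if_neg hk, if_neg hk, if_pos (by simp [Nat.even_add_one, hk]), map_add, map_smul,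
        map_smul, hji, rho_simple_self, hU]
      module

theorem root_pos {w : W} {s : S} (h : cs.length w < cs.length (w * cs.simple s)) :
    0 ≤ rho cs w (Pi.single s 1) := by
  induction hn : cs.length w using Nat.strong_induction_on generalizing w s with
  | _ n ih =>
  by_cases hw : w = 1
  · rw [hw, rho_one]
    exact Pi.single_nonneg.2 zero_le_one
  · obtain ⟨j, hj⟩ := cs.exists_rightDescent_of_ne_one hw
    have hj' : cs.length (w * cs.simple j) < cs.length w := hj
    have hij : s ≠ j := by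
      rintro rfl
      omega
    obtain ⟨v, k, h1, h2, h3, h4, h5⟩ := P035.exists_strip cs w s j h hj'
    obtain ⟨U, u0, u1, u2, u3⟩ := P035.exists_cheb (M s j) (M.off_diagonal s j hij)
    have p1 := ih _ (hn ▸ h2) h3 rfl
    have p2 := ih _ (hn ▸ h2) h4 rfl
    have q1 : 0 ≤ U k := u3 k (by omega)
    have q2 : 0 ≤ U (k + 1) := u3 (k + 1) h5
    rw [h1, rho_mul, rho_alt cs s j U u0 u1 u2]
    split_ifs
    · rw [map_add, map_smul, map_smul]
      exact add_nonneg (smul_nonneg q2 p1) (smul_nonneg q1 p2)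
    · rw [map_add, map_smul, map_smul]
      exact add_nonneg (smul_nonneg q1 p1) (smul_nonneg q2 p2)

theorem root_neg {w : W} {s : S} (h : cs.length (w * cs.simple s) < cs.length w) :
    rho cs w (Pi.single s 1) ≤ 0 := by
  have h1 := root_pos cs (w := w * cs.simple s) (s := s)
    (by rwa [cs.simple_mul_simple_cancel_right])
  rwa [rho_mul, rho_simple_self, map_neg, neg_nonneg] at h1

theorem root_ne_zero (w : W) (s : S) : rho cs w (Pi.single s 1) ≠ 0 := by
  intro h
  have h1 := rho_inv_rho cs w (Pi.single s 1)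
  rw [h, map_zero] at h1
  simpa using congrFun h1 s

theorem lt_of_root {w : W} {s : S} (h : ¬ rho cs w (Pi.single s 1) ≤ 0) :
    cs.length w < cs.length (w * cs.simple s) :=
  (cs.length_mul_simple_ne w s).lt_or_gt.resolve_left fun h1 => h (root_neg cs h1)

theorem eq_one_of_roots {w : W} (h : ∀ s, ¬ rho cs w (Pi.single s 1) ≤ 0) : w = 1 := by
  by_contra hw
  obtain ⟨s, hs⟩ := cs.exists_rightDescent_of_ne_one hw
  exact h s (root_neg cs hs)

theorem par_mono {T T' : Finset S} (h : T ⊆ T') : par cs T ≤ par cs T' :=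
  Subgroup.closure_mono (Set.image_mono (Finset.coe_subset.2 h))

theorem finite_par_mono {T T' : Finset S} (h : T ⊆ T') (h' : Finite (par cs T')) :
    Finite (par cs T) :=
  Finite.of_injective _ (Subgroup.inclusion_injective (par_mono cs h))

theorem par_empty : par cs ∅ = ⊥ := by
  simp [par]

theorem rho_off {T : Finset S} {w : W} (hw : w ∈ par cs T) (x : S → ℝ) {t : S} (ht : t ∉ T) :
    rho cs w x t = x t := by
  induction hw using Subgroup.closure_induction generalizing x with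
  | mem w h =>
    obtain ⟨s, hs, rfl⟩ := h
    have : t ≠ s := fun e => ht (e ▸ hs)
    simp [rho_simple, this]
  | one => rw [rho_one]
  | mul u w _ _ hu hw => rw [rho_mul, hu, hw]
  | inv w _ hw => rw [← hw (rho cs w⁻¹ x), rho_rho_inv]

theorem rho_fix {Z : Finset S} {w : W} (hw : w ∈ par cs Z) {y : S → ℝ}
    (hy : ∀ s ∈ Z, Ax M y s = 0) : rho cs w y = y := by
  induction hw using Subgroup.closure_induction with
  | mem w h =>
    obtain ⟨s, hs, rfl⟩ := h
    rw [rho_simple, hy s hs, zero_smul, sub_zero]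
  | one => rw [rho_one]
  | mul u w _ _ hu hw => rw [rho_mul, hw, hu]
  | inv w _ hw => rw [← hw, rho_inv_rho, hw]

theorem simple_mem_par {T : Finset S} {s : S} : cs.simple s ∈ par cs T ↔ s ∈ T := by
  refine ⟨fun h => by_contra fun hs => ?_, fun h => Subgroup.subset_closure ⟨s, h, rfl⟩⟩
  have h1 := rho_off cs h (Pi.single s 1) hs
  rw [rho_simple_self] at h1
  norm_num at h1

theorem mem_of_rightDescent {T : Finset S} {w : W} {s : S} (hw : w ∈ par cs T)
    (h : cs.length (w * cs.simple s) < cs.length w) : s ∈ T := by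
  by_contra hs
  have h1 := root_neg cs h s
  rw [rho_off cs hw _ hs] at h1
  norm_num at h1

omit [Fintype S] [DecidableEq S] in
theorem length_inv_mul_simple (w : W) (s : S) :
    cs.length (w⁻¹ * cs.simple s) = cs.length (cs.simple s * w) := by
  rw [← cs.length_inv, mul_inv_rev, inv_inv, cs.inv_simple]

theorem mem_of_leftDescent {T : Finset S} {w : W} {s : S} (hw : w ∈ par cs T)
    (h : cs.length (cs.simple s * w) < cs.length w) : s ∈ T :=
  mem_of_rightDescent cs (inv_mem hw) (by rwa [length_inv_mul_simple, cs.length_inv])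

theorem par_induction_right {T : Finset S} {p : W → Prop} (h1 : p 1)
    (hs : ∀ w ∈ par cs T, ∀ s ∈ T, cs.length w < cs.length (w * cs.simple s) → p w →
      p (w * cs.simple s)) {w : W} (hw : w ∈ par cs T) : p w := by
  induction hn : cs.length w using Nat.strong_induction_on generalizing w with
  | _ n ih =>
  by_cases h0 : w = 1
  · rwa [h0]
  · obtain ⟨s, h2⟩ := cs.exists_rightDescent_of_ne_one h0
    have h3 : cs.length (w * cs.simple s) < cs.length w := h2
    have h4 := mem_of_rightDescent cs hw h3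
    have h5 := mul_mem hw ((simple_mem_par cs).2 h4)
    have h6 := hs _ h5 s h4 (by rwa [cs.simple_mul_simple_cancel_right]) (ih _ (hn ▸ h3) h5 rfl)
    rwa [cs.simple_mul_simple_cancel_right] at h6

theorem exists_reduced_par {T : Finset S} {w : W} (hw : w ∈ par cs T) :
    ∃ ω : List S, cs.IsReduced ω ∧ w = cs.wordProd ω ∧ ∀ s ∈ ω, s ∈ T := by
  refine par_induction_right cs (p := fun w =>
    ∃ ω : List S, cs.IsReduced ω ∧ w = cs.wordProd ω ∧ ∀ s ∈ ω, s ∈ T)
    ⟨[], by simp [CoxeterSystem.IsReduced], by simp, by simp⟩ ?_ hw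
  rintro w _ s hs h ⟨ω, h1, rfl, h2⟩
  refine ⟨ω.concat s, ?_, (cs.wordProd_concat s ω).symm, fun t ht => ?_⟩
  · have h3 := cs.length_mul_simple (cs.wordProd ω) s
    have h4 := h1.eq
    unfold CoxeterSystem.IsReduced
    rw [cs.wordProd_concat, List.length_concat]
    omega
  · rw [List.concat_eq_append, List.mem_append, List.mem_singleton] at ht
    rcases ht with ht | rfl
    · exact h2 t ht
    · exact hs

theorem par_induction_left {T : Finset S} {p : W → Prop} (h1 : p 1)
    (hs : ∀ w ∈ par cs T, ∀ s ∈ T, cs.length w < cs.length (cs.simple s * w) → p w →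
      p (cs.simple s * w)) {w : W} (hw : w ∈ par cs T) : p w := by
  induction hn : cs.length w using Nat.strong_induction_on generalizing w with
  | _ n ih =>
  by_cases h0 : w = 1
  · rwa [h0]
  · obtain ⟨s, h2⟩ := cs.exists_leftDescent_of_ne_one h0
    have h3 : cs.length (cs.simple s * w) < cs.length w := h2
    have h4 := mem_of_leftDescent cs hw h3
    have h5 := mul_mem ((simple_mem_par cs).2 h4) hw
    have h6 := hs _ h5 s h4 (by rwa [cs.simple_mul_simple_cancel_left]) (ih _ (hn ▸ h3) h5 rfl)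
    rwa [cs.simple_mul_simple_cancel_left] at h6

theorem rho_expand (w : W) (x : S → ℝ) :
    rho cs w x = ∑ t, x t • rho cs w (Pi.single t 1) := by
  conv_lhs => rw [← Finset.univ_sum_single x, map_sum]
  refine sum_congr rfl fun t _ => ?_
  rw [← map_smul, ← Pi.single_smul', smul_eq_mul, mul_one]

theorem rho_nonneg {T : Finset S} {w : W} {x : S → ℝ} (hx : 0 ≤ x) (hT : ∀ t, t ∉ T → x t = 0)
    (h : ∀ t ∈ T, 0 ≤ rho cs w (Pi.single t 1)) : 0 ≤ rho cs w x := by
  rw [rho_expand]
  refine sum_nonneg fun t _ => ?_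
  by_cases ht : t ∈ T
  · exact smul_nonneg (hx t) (h t ht)
  · rw [hT t ht, zero_smul]

theorem root_off {T : Finset S} {w : W} (hw : w ∈ par cs T) {s : S} (hs : s ∈ T) (t : S)
    (ht : t ∉ T) : rho cs w (Pi.single s 1) t = 0 := by
  rw [rho_off cs hw _ ht, Pi.single_eq_of_ne fun e : t = s => ht (e ▸ hs)]

theorem length_mul_of_lt {T : Finset S} {w u : W}
    (h : ∀ s ∈ T, cs.length w < cs.length (w * cs.simple s)) (hu : u ∈ par cs T) :
    cs.length (w * u) = cs.length w + cs.length u := by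
  refine par_induction_right cs (p := fun u => cs.length (w * u) = cs.length w + cs.length u)
    (by simp) (fun u hu s hs h1 ih => ?_) hu
  have h2 : 0 ≤ rho cs (w * u) (Pi.single s 1) := by
    rw [rho_mul]
    exact rho_nonneg cs (root_pos cs h1) (root_off cs hu hs) fun t ht => root_pos cs (h t ht)
  have h3 := lt_of_root cs fun h4 => root_ne_zero cs _ _ (le_antisymm h4 h2)
  have h4 := cs.length_mul_simple (w * u) s
  have h5 := cs.length_mul_simple u s
  rw [← mul_assoc]
  omega

theorem isMinRep_iff {T : Finset S} {w : W} :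
    IsMinRep cs T w ↔ ∀ s ∈ T, cs.length w < cs.length (w * cs.simple s) :=
  ⟨fun h s hs => (h _ ((simple_mem_par cs).2 hs)).lt_of_ne (cs.length_mul_simple_ne w s).symm,
    fun h u hu => by
      rw [length_mul_of_lt cs h hu]
      exact Nat.le_add_right _ _⟩

theorem IsMinRep.length_mul {T : Finset S} {w u : W} (h : IsMinRep cs T w) (hu : u ∈ par cs T) :
    cs.length (w * u) = cs.length w + cs.length u :=
  length_mul_of_lt cs ((isMinRep_iff cs).1 h) hu

theorem exists_minRep (T : Finset S) (w : W) :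
    ∃ v, ∃ u ∈ par cs T, IsMinRep cs T v ∧ w = v * u := by
  obtain ⟨u, hu, h⟩ := (InvImage.wf (fun u => cs.length (w * u)) wellFounded_lt).has_min
    (par cs T : Set W) ⟨1, one_mem _⟩
  refine ⟨w * u, u⁻¹, inv_mem hu, fun u' hu' => ?_, (mul_inv_cancel_right w u).symm⟩
  rw [mul_assoc]
  exact not_lt.1 (h _ (mul_mem hu hu'))

theorem IsMinRep.mul {T T' : Finset S} {w u : W} (hT : T' ⊆ T) (h : IsMinRep cs T w)
    (hu : u ∈ par cs T) (hu' : IsMinRep cs T' u) : IsMinRep cs T' (w * u) := by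
  intro u' h1
  rw [mul_assoc, h.length_mul cs hu, h.length_mul cs (mul_mem hu (par_mono cs hT h1))]
  exact Nat.add_le_add_left (hu' u' h1) _

theorem IsMinRep.eq_one {T : Finset S} {w : W} (h : IsMinRep cs T w) (hw : w ∈ par cs T) :
    w = 1 := by
  have h1 := h _ (inv_mem hw)
  rwa [mul_inv_cancel, cs.length_one, Nat.le_zero, cs.length_eq_zero_iff] at h1

theorem Ax_rho (w : W) (z : S → ℝ) (s : S) :
    Ax M (rho cs w z) s = Bf M z (rho cs w⁻¹ (Pi.single s 1)) := by
  rw [← Bf_rho_left, Bf_single_right, one_mul]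

theorem Bf_nonneg {T : Finset S} {z x : S → ℝ} (hz : ∀ t ∈ T, 0 ≤ Ax M z t) (hx : 0 ≤ x)
    (hT : ∀ t, t ∉ T → x t = 0) : 0 ≤ Bf M z x := by
  rw [Bf_eq_sum]
  refine sum_nonneg fun t _ => ?_
  by_cases ht : t ∈ T
  · exact mul_nonneg (hz t ht) (hx t)
  · rw [hT t ht, mul_zero]

theorem Bf_nonpos {T : Finset S} {z x : S → ℝ} (hz : ∀ t ∈ T, 0 ≤ Ax M z t) (hx : x ≤ 0)
    (hT : ∀ t, t ∉ T → x t = 0) : Bf M z x ≤ 0 := by
  have h := Bf_nonneg hz (neg_nonneg.2 hx) fun t ht => by rw [Pi.neg_apply, hT t ht, neg_zero]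
  rwa [Bf_neg_right, neg_nonneg] at h

theorem Bf_pos {T : Finset S} {z x : S → ℝ} (hz : ∀ t ∈ T, 0 < Ax M z t) (hx : 0 ≤ x)
    (h0 : x ≠ 0) (hT : ∀ t, t ∉ T → x t = 0) : 0 < Bf M z x := by
  obtain ⟨s, hs⟩ := Function.ne_iff.1 h0
  have hs' : s ∈ T := by_contra fun h => hs (hT s h)
  rw [Bf_eq_sum]
  refine sum_pos' (fun t _ => ?_) ⟨s, mem_univ s, mul_pos (hz s hs') ((hx s).lt_of_ne' hs)⟩
  by_cases ht : t ∈ T
  · exact mul_nonneg (hz t ht).le (hx t)
  · rw [hT t ht, mul_zero]

theorem Ax_rho_nonneg {T : Finset S} {w : W} {s : S} {z : S → ℝ} (hw : w ∈ par cs T) (hs : s ∈ T)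
    (hz : ∀ t ∈ T, 0 ≤ Ax M z t) (h : cs.length w < cs.length (cs.simple s * w)) :
    0 ≤ Ax M (rho cs w z) s := by
  rw [Ax_rho]
  exact Bf_nonneg hz (root_pos cs (by rwa [length_inv_mul_simple, cs.length_inv]))
    (root_off cs (inv_mem hw) hs)

theorem Ax_rho_pos {T : Finset S} {w : W} {s : S} {z : S → ℝ} (hw : w ∈ par cs T) (hs : s ∈ T)
    (hz : ∀ t ∈ T, 0 < Ax M z t) (h : cs.length w < cs.length (cs.simple s * w)) :
    0 < Ax M (rho cs w z) s := by
  rw [Ax_rho]
  exact Bf_pos hz (root_pos cs (by rwa [length_inv_mul_simple, cs.length_inv]))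
    (root_ne_zero cs _ _) (root_off cs (inv_mem hw) hs)

theorem Ax_rho_nonpos {T : Finset S} {w : W} {s : S} {z : S → ℝ} (hw : w ∈ par cs T) (hs : s ∈ T)
    (hz : ∀ t ∈ T, 0 ≤ Ax M z t) (h : cs.length (cs.simple s * w) < cs.length w) :
    Ax M (rho cs w z) s ≤ 0 := by
  rw [Ax_rho]
  exact Bf_nonpos hz (root_neg cs (by rwa [length_inv_mul_simple, cs.length_inv]))
    (root_off cs (inv_mem hw) hs)

theorem rho_le_of_dominant {T : Finset S} {w : W} {z : S → ℝ} (hw : w ∈ par cs T)
    (hz : ∀ t ∈ T, 0 ≤ Ax M z t) : rho cs w z ≤ z := by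
  refine par_induction_left cs (p := fun w => rho cs w z ≤ z) (rho_one cs z).le
    (fun w hw s hs h ih => ?_) hw
  rw [rho_mul, rho_simple]
  exact (sub_le_self _ (smul_nonneg (Ax_rho_nonneg cs hw hs hz h)
    (Pi.single_nonneg.2 zero_le_one))).trans ih

theorem stab {T : Finset S} {w : W} {y y' : S → ℝ} (hw : w ∈ par cs T)
    (hy : ∀ s ∈ T, 0 ≤ Ax M y s) (hy' : ∀ s ∈ T, 0 ≤ Ax M y' s) (h : rho cs w y = y') :
    y = y' ∧ w ∈ par cs (T.filter fun s => Ax M y s = 0) := by
  revert h
  refine par_induction_right cs (p := fun w => rho cs w y = y' →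
    y = y' ∧ w ∈ par cs (T.filter fun s => Ax M y s = 0))
    (fun h => ⟨(rho_one cs y).symm.trans h, one_mem _⟩) (fun w hw s hs h1 ih h => ?_) hw
  have h2 := Bf_nonpos hy' (root_neg cs (w := w * cs.simple s) (s := s)
    (by rwa [cs.simple_mul_simple_cancel_right]))
    (root_off cs (mul_mem hw ((simple_mem_par cs).2 hs)) hs)
  rw [← h, Bf_rho, Bf_single_right, one_mul] at h2
  have h3 := le_antisymm h2 (hy s hs)
  rw [rho_mul, rho_simple, h3, zero_smul, sub_zero] at h
  exact ⟨(ih h).1, mul_mem (ih h).2 ((simple_mem_par cs).2 (mem_filter.2 ⟨hs, h3⟩))⟩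

theorem lt_simple_mul_of_nonneg {T : Finset S} {w : W} {s : S} {y : S → ℝ} (hw : w ∈ par cs T)
    (hs : s ∈ T) (hy : ∀ t ∈ T, 0 ≤ Ax M y t)
    (hm : IsMinRep cs (T.filter fun t => Ax M y t = 0) w) (h : 0 ≤ Ax M (rho cs w y) s) :
    cs.length w < cs.length (cs.simple s * w) := by
  refine (cs.length_simple_mul_ne w s).lt_or_gt.resolve_left fun h1 => ?_
  have h2 := le_antisymm (Ax_rho_nonpos cs hw hs hy h1) h
  have h3 := (stab cs (mul_mem (inv_mem hw) (mul_mem ((simple_mem_par cs).2 hs) hw)) hy hy (by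
    rw [rho_mul, rho_mul, rho_simple, h2, zero_smul, sub_zero, rho_inv_rho])).2
  have h4 := hm _ h3
  rw [mul_inv_cancel_left] at h4
  omega

theorem exists_dominant {T : Finset S} (hT : Finite (par cs T)) (x : S → ℝ) :
    ∃ w ∈ par cs T, ∃ z, (∀ s ∈ T, 0 ≤ Ax M z s) ∧ x = rho cs w z := by
  obtain ⟨u, hu⟩ := Finite.exists_max fun u : par cs T => ∑ t, rho cs u.1 x t
  refine ⟨u.1⁻¹, inv_mem u.2, rho cs u.1 x, fun s hs => ?_, (rho_inv_rho cs _ _).symm⟩
  have h := hu ⟨_, mul_mem ((simple_mem_par cs).2 hs) u.2⟩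
  simp only [rho_mul, rho_simple, Pi.sub_apply, Pi.smul_apply, smul_eq_mul, sum_sub_distrib,
    ← mul_sum, Pi.single_apply, sum_ite_eq', mem_univ, if_true, mul_one] at h
  linarith

theorem star_lemma {T : Finset S} (hT : Finite (par cs T)) {y : S → ℝ}
    (hy : ∀ s ∈ T, 0 ≤ Ax M y s) :
    ∀ᶠ x in nhds y, ∃ u ∈ par cs (T.filter fun s => Ax M y s = 0), ∃ z,
      (∀ s ∈ T, 0 ≤ Ax M z s) ∧ (∀ s ∈ T, Ax M z s = 0 → Ax M y s = 0) ∧ x = rho cs u z := by
  have hZ := finite_par_mono cs (filter_subset (fun s => Ax M y s = 0) T) hT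
  have h1 : ∀ᶠ x in nhds y, ∀ u : par cs (T.filter fun s => Ax M y s = 0), ∀ s,
      0 < Ax M y s → 0 < Ax M (rho cs u.1⁻¹ x) s := by
    refine Filter.eventually_all.2 fun u => Filter.eventually_all.2 fun s => ?_
    by_cases hs : 0 < Ax M y s
    · have h2 : Continuous fun x => Ax M (rho cs u.1⁻¹ x) s :=
        (continuous_Ax s).comp (LinearMap.continuous_of_finiteDimensional _)
      have h3 : 0 < Ax M (rho cs u.1⁻¹ y) s := by
        rwa [rho_fix cs (inv_mem u.2) fun t ht => (mem_filter.1 ht).2]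
      exact (h2.continuousAt.eventually (lt_mem_nhds h3)).mono fun x hx _ => hx
    · exact .of_forall fun x h => absurd h hs
  refine h1.mono fun x hx => ?_
  obtain ⟨u, hu, z, hz, rfl⟩ := exists_dominant cs hZ x
  have h2 := hx ⟨u, hu⟩
  simp only [rho_inv_rho] at h2
  refine ⟨u, hu, z, fun s hs => ?_, fun s hs h => ?_, rfl⟩
  · rcases (hy s hs).eq_or_lt with h | h
    · exact hz s (mem_filter.2 ⟨hs, h.symm⟩)
    · exact (h2 s h).le
  · exact ((hy s hs).eq_or_lt.resolve_right fun h' => (h2 s h').ne' h).symm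

end Vale.Agent.P203
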