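import Vale.Agent.P203.SalOrd
import Vale.Agent.P203.TopMorse

namespace Vale.Agent.P203

universe u

variable {S W : Type} [Fintype S] [DecidableEq S] [Group W] {M : CoxeterMatrix S}
  {cs : CoxeterSystem M W} {G : Type u} [Group G] (A : Art cs G)

namespace Cyl

open Set Sum

/-- the map from the covering Salvetti poset to the Deligne poset -/
def ph (x : G × Finset S) : Finset S × Set G := (x.2, A.cos x.2 x.1)

/-- comparability in the mapping cylinder -/
def rC : (G × Finset S) ⊕ (Finset S × Set G) → (G × Finset S) ⊕ (Finset S × Set G) → Prop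
  | inl x, inl x' => A.rS x x'
  | inl x, inr y => leP (ph A x) y
  | inr y, inl x => leP (ph A x) y
  | inr y, inr y' => rP y y'

/-- the vertices of the mapping cylinder -/
def VC : Set ((G × Finset S) ⊕ (Finset S × Set G)) := inl '' SS cs G ∪ inr '' A.PP

theorem rC_refl : ∀ v, rC A v v
  | inl x => A.rS_refl x
  | inr y => rP_refl y

theorem rC_symm : ∀ u v, rC A u v → rC A v u
  | inl _, inl _, h => A.rS_symm h
  | inl _, inr _, h => h
  | inr _, inl _, h => h
  | inr _, inr _, h => rP_symm h

omit [Fintype S] [DecidableEq S] in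
theorem inl_mem {x : G × Finset S} : inl x ∈ VC A ↔ x ∈ SS cs G := by simp [VC]

omit [Fintype S] [DecidableEq S] in
theorem inr_mem {y : Finset S × Set G} : inr y ∈ VC A ↔ y ∈ A.PP := by simp [VC]

theorem eq_of_rS {x x' : G × Finset S} (h : A.rS x x') (hc : x.2.card = x'.2.card) : x = x' :=
  h.elim (fun h => A.eq_of_leS h (Finset.eq_of_subset_of_card_le h.1.1 hc.ge)) fun h =>
    (A.eq_of_leS h (Finset.eq_of_subset_of_card_le h.1.1 hc.le)).symm

theorem eq_of_rP {y y' : Finset S × Set G} (hy : y ∈ A.PP) (hy' : y' ∈ A.PP) (h : rP y y')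
    (hc : y.1.card = y'.1.card) : y = y' :=
  h.elim (fun h => A.eq_of_leP hy.2 hy'.2 h (Finset.eq_of_subset_of_card_le h.1 hc.ge)) fun h =>
    (A.eq_of_leP hy'.2 hy.2 h (Finset.eq_of_subset_of_card_le h.1 hc.le)).symm

/-- first height function -/
def h1 : (G × Finset S) ⊕ (Finset S × Set G) → ℕ
  | inl x => Fintype.card S + 1 + x.2.card
  | inr y => y.1.card

/-- second height function -/
def h2 : (G × Finset S) ⊕ (Finset S × Set G) → ℕ
  | inl x => x.2.card
  | inr y => Fintype.card S + 1 + (Fintype.card S - y.1.card)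

theorem dr_right : DR (rC A) (inr '' A.PP) (VC A) := by
  refine morse (rC_refl A) (rC_symm A) (lt := fun u v => h1 u < h1 v)
    (InvImage.wf h1 Nat.lt_wfRel.wf) subset_union_right ?_ ?_ ?_
  · rintro (x | y) hu (x' | y') hv hne hr
    · refine lt_or_gt_of_ne fun he => hne (congrArg inl (eq_of_rS A hr ?_))
      simp only [h1] at he
      omega
    · have := y'.1.card_le_univ
      simp only [h1]
      omega
    · have := y.1.card_le_univ
      simp only [h1]
      omega
    · exact lt_or_gt_of_ne fun he => hne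
        (congrArg inr (eq_of_rP A ((inr_mem A).1 hu) ((inr_mem A).1 hv) hr he))
  · rintro _ ⟨y, -, rfl⟩ (x | y') hu - hlt
    · have := y.1.card_le_univ
      simp only [h1] at hlt
      omega
    · exact ⟨y', (inr_mem A).1 hu, rfl⟩
  · rintro (x | y) hv hB
    · refine contr_cone (rC_symm A) (c := inr (ph A x))
        ⟨(inr_mem A).2 ⟨(inl_mem A).1 hv, x.1, rfl⟩, ⟨subset_rfl, subset_rfl⟩, ?_⟩ ?_
      · simp only [h1, ph]
        omega
      · rintro (x' | y') ⟨-, hr, hlt⟩
        · refine A.leP_of_leS (hr.resolve_right fun h => ?_)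
          have : x.2.card ≤ x'.2.card := Finset.card_le_card h.1.1
          simp only [h1] at hlt
          omega
        · exact Or.inr hr
    · exact absurd ⟨y, (inr_mem A).1 hv, rfl⟩ hB

theorem dr_left (hF : ∀ T g, Finite (par cs T) → Contr A.rS {x | x.2 ⊆ T ∧ x.1 ∈ A.cos T g}) :
    DR (rC A) (inl '' SS cs G) (VC A) := by
  refine morse (rC_refl A) (rC_symm A) (lt := fun u v => h2 u < h2 v)
    (InvImage.wf h2 Nat.lt_wfRel.wf) subset_union_left ?_ ?_ ?_
  · rintro (x | y) hu (x' | y') hv hne hr
    · exact lt_or_gt_of_ne fun he => hne (congrArg inl (eq_of_rS A hr he))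
    · have := x.2.card_le_univ
      simp only [h2]
      omega
    · have := x'.2.card_le_univ
      simp only [h2]
      omega
    · refine lt_or_gt_of_ne fun he => hne
        (congrArg inr (eq_of_rP A ((inr_mem A).1 hu) ((inr_mem A).1 hv) hr ?_))
      have := y.1.card_le_univ
      have := y'.1.card_le_univ
      simp only [h2] at he
      omega
  · rintro _ ⟨x, -, rfl⟩ (x' | y) hu - hlt
    · exact ⟨x', (inl_mem A).1 hu, rfl⟩
    · have := x.2.card_le_univ
      simp only [h2] at hlt
      omega
  · rintro (x | ⟨T, C⟩) hv hB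
    · exact absurd ⟨x, (inl_mem A).1 hv, rfl⟩ hB
    · obtain ⟨hT, g, hg⟩ := (inr_mem A).1 hv
      obtain rfl : C = A.cos T g := hg
      have he : {u ∈ VC A | rC A u (inr (T, A.cos T g)) ∧ h2 u < h2 (inr (T, A.cos T g) :
          (G × Finset S) ⊕ (Finset S × Set G))} = inl '' {x | x.2 ⊆ T ∧ x.1 ∈ A.cos T g} ∪
          inr '' {y ∈ A.PP | leP (T, A.cos T g) y ∧ T.card < y.1.card} := by
        ext (x | y)
        · simp only [mem_ofPred_eq, mem_union, mem_image, inl.injEq, exists_eq_right, reduceCtorEq,
            and_false, exists_false, or_false, inl_mem]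
          refine ⟨fun h => ⟨h.2.1.1, h.2.1.2 (A.self_mem_cos x.1)⟩, fun h =>
            ⟨finite_par_mono cs h.1 hT, ⟨h.1, A.cos_subset h.1 h.2⟩, ?_⟩⟩
          have := x.2.card_le_univ
          simp only [h2]
          omega
        · simp only [mem_ofPred_eq, mem_union, mem_image, inr.injEq, exists_eq_right, reduceCtorEq,
            and_false, exists_false, false_or, inr_mem, h2]
          have := y.1.card_le_univ
          have := T.card_le_univ
          refine and_congr_right fun _ => ⟨fun h => ⟨h.1.resolve_left fun h' => ?_, by omega⟩,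
            fun h => ⟨Or.inr h.1, by omega⟩⟩
          have : y.1.card ≤ T.card := Finset.card_le_card h'.1
          omega
      rw [he]
      refine contr_join (rC_refl A) (rC_symm A)
        ((contr_map_iff (r := A.rS) inl_injective fun _ _ => Iff.rfl).2 (hF T g hT)) ?_
      rintro _ ⟨x, hx, rfl⟩ _ ⟨y, hy, rfl⟩
      exact leP_trans (y := (T, A.cos T g)) ⟨hx.1, A.cos_subset hx.1 hx.2⟩ hy.2.1

end Cyl

open Cyl in
theorem Art.contr_SS (hP : Contr rP A.PP)
    (hF : ∀ T g, Finite (par cs T) → Contr A.rS {x | x.2 ⊆ T ∧ x.1 ∈ A.cos T g}) :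
    Contr A.rS (SS cs G) :=
  (contr_map_iff (r' := rC A) Sum.inl_injective fun _ _ => Iff.rfl).1
    ((dr_left A hF).contr_down (rC_refl A) ((dr_right A).contr_up
      ((contr_map_iff (r := rP) Sum.inr_injective fun _ _ => Iff.rfl).2 hP)))

end Vale.Agent.P203
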