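import Vale.Agent.P203.SalOrd
import Vale.Agent.P203.TopMorse

namespace Vale.Agent.P203

universe u

variable {S W : Type} [Fintype S] [DecidableEq S] [Group W] {M : CoxeterMatrix S}
  {cs : CoxeterSystem M W} {G : Type u} [Group G] (A : Art cs G)

namespace Fiber

open Classical in
/-- The longest element, when it exists. -/
noncomputable def lg (cs : CoxeterSystem M W) (T : Finset S) : W :=
  if h : ∃ w, IsLongest cs T w then h.choose else 1

lemma lg_spec {T : Finset S} (h : Finite (par cs T)) : IsLongest cs T (lg cs T) := by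
  have h' := exists_longest h
  rw [lg, dif_pos h']
  exact h'.choose_spec

lemma finite_empty : Finite (par cs (∅ : Finset S)) := by
  rw [par_empty]
  infer_instance

lemma lg_empty : lg cs (∅ : Finset S) = 1 := by
  have h := (lg_spec (cs := cs) finite_empty).1
  rwa [par_empty, Subgroup.mem_bot] at h

/-- The bottom vertex. -/
noncomputable def bt (x : G × Finset S) : G := x.1 * A.L (lg cs x.2)

lemma bt_empty (g : G) : bt A (g, ∅) = g := by
  rw [bt, lg_empty, A.L_one, mul_one]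

omit [Fintype S] [DecidableEq S] in
lemma bt_mk (v : G) (T : Finset S) : bt A (v * (A.L (lg cs T))⁻¹, T) = v :=
  inv_mul_cancel_right _ _

lemma bt_of_le {x y : G × Finset S} (hx : Finite (par cs x.2)) (h : A.leS y x) :
    ∃ u ∈ par cs x.2, bt A y = x.1 * A.L u ∧
      ∀ s ∈ y.2, cs.length (u * cs.simple s) < cs.length u := by
  obtain ⟨h1, w, hw, hm, h2⟩ := A.leS_iff.1 h
  have hy := lg_spec (finite_par_mono cs h1 hx)
  refine ⟨w * lg cs y.2, mul_mem hw (par_mono cs h1 hy.1), ?_, fun s hs => hy.descent_mul hm hs⟩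
  rw [bt, h2, A.L_mul (hm.length_mul cs hy.1), mul_assoc]

lemma len_le {x y : G × Finset S} (hx : Finite (par cs x.2)) (h : A.leS y x) :
    A.len (bt A y) ≤ A.len (bt A x) ∧ (A.len (bt A y) = A.len (bt A x) → bt A y = bt A x) := by
  obtain ⟨u, hu, h1, -⟩ := bt_of_le A hx h
  have h2 : bt A x = bt A y * A.L (u⁻¹ * lg cs x.2) := by
    rw [h1, mul_assoc, ← A.L_longest_left (lg_spec hx) hu, bt]
  have h3 := congrArg A.len h2
  rw [A.len_mul, A.len_L] at h3
  refine ⟨by omega, fun h4 => ?_⟩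
  have h5 : cs.length (u⁻¹ * lg cs x.2) = 0 := by omega
  rw [h2, cs.length_eq_zero_iff.1 h5, A.L_one, mul_one]

lemma le_of_bt {x y : G × Finset S} (hx : Finite (par cs x.2)) (h : y.2 ⊆ x.2)
    (hb : bt A y = bt A x) : A.leS y x := by
  have h1 := lg_spec hx
  have h2 := lg_spec (finite_par_mono cs h hx)
  have h3 := par_mono cs h h2.1
  refine A.leS_iff.2 ⟨h, lg cs x.2 * lg cs y.2, mul_mem h1.1 h3,
    (h2.strip fun s hs => h1.descent (h hs)).1, ?_⟩
  have h4 := A.L_longest_right h1 h3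
  rw [h2.inv] at h4
  rw [bt, bt, h4, ← mul_assoc] at hb
  exact mul_right_cancel hb

lemma shell {X : Set (G × Finset S)} {K : G} (hK : (K, ∅) ∈ X)
    (hfin : ∀ x ∈ X, Finite (par cs x.2)) (hlow : ∀ x ∈ X, ∀ y, A.leS y x → y ∈ X)
    (hlen : ∀ x ∈ X, A.len K ≤ A.len (bt A x))
    (hM : ∀ x ∈ X, ∃ m ∈ X, bt A m = bt A x ∧ (∀ y ∈ X, bt A y = bt A x → y.2 ⊆ m.2) ∧
      (m.2 = ∅ → bt A x = K))
    (hb : ∀ x ∈ X, x.2.Nonempty → Contr A.rS {y | A.leS y x ∧ bt A y ≠ bt A x}) :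
    Contr A.rS X := by
  classical
  obtain ⟨Top, hTop⟩ : ∃ Top : G × Finset S → Prop,
      ∀ x, Top x ↔ ∀ y ∈ X, bt A y = bt A x → y.2 ⊆ x.2 := ⟨_, fun _ => Iff.rfl⟩
  obtain ⟨f, hf⟩ : ∃ f : G × Finset S → ℕ, ∀ x ∈ X, (f x : ℤ) = A.len (bt A x) - A.len K :=
    ⟨fun x => (A.len (bt A x) - A.len K).toNat, fun x hx =>
      Int.toNat_of_nonneg (sub_nonneg.2 (hlen x hx))⟩
  obtain ⟨h, h0, h1⟩ : ∃ h : G × Finset S → ℕ, (∀ x, Top x → h x = 0) ∧
      ∀ x, ¬ Top x → h x = x.2.card + 1 :=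
    ⟨fun x => if Top x then 0 else x.2.card + 1, fun x hx => if_pos hx, fun x hx => if_neg hx⟩
  obtain ⟨lt, wf, hlt⟩ : ∃ lt : G × Finset S → G × Finset S → Prop, WellFounded lt ∧
      ∀ u v, lt u v ↔ f u < f v ∨ f u = f v ∧ h u < h v :=
    ⟨_, InvImage.wf (fun x => toLex (f x, h x)) wellFounded_lt, fun u v =>
      Prod.Lex.toLex_lt_toLex⟩
  have fle : ∀ u ∈ X, ∀ v ∈ X, A.leS u v → f u ≤ f v ∧ (f u = f v → bt A u = bt A v) :=
    fun u hu v hv huv => by
      have e := len_le A (hfin v hv) huv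
      have e1 := hf u hu
      have e2 := hf v hv
      exact ⟨by omega, fun e3 => e.2 (by omega)⟩
  have feq : ∀ u ∈ X, ∀ v ∈ X, bt A u = bt A v → f u = f v := fun u hu v hv e => by
    have e1 := hf u hu
    have e2 := hf v hv
    rw [e] at e1
    omega
  have tot : ∀ u ∈ X, ∀ v ∈ X, u ≠ v → A.leS u v → lt u v ∨ lt v u := fun u hu v hv hne huv => by
    rw [hlt, hlt]
    obtain ⟨e1, e2⟩ := fle u hu v hv huv
    rcases e1.eq_or_lt with e3 | e3
    · have e4 : u.2 ⊂ v.2 := (A.leS_iff.1 huv).1.ssubset_of_ne fun e => hne (A.eq_of_leS huv e)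
      have e5 := h1 u fun ht => e4.not_subset ((hTop u).1 ht v hv (e2 e3).symm)
      have e6 := Finset.card_lt_card e4
      by_cases ht : Top v
      · have := h0 v ht
        omega
      · have := h1 v ht
        omega
    · exact Or.inl (Or.inl e3)
  have cone : ∀ v ∈ X, ¬ Top v → Contr A.rS {u ∈ X | A.rS u v ∧ lt u v} := fun v hv ht => by
    obtain ⟨m, hm, e1, e2, -⟩ := hM v hv
    have hvm := le_of_bt A (hfin m hm) (e2 v hv rfl) e1.symm
    refine contr_cone (fun _ _ => A.rS_symm) (c := m) ⟨hm, Or.inr hvm, (hlt _ _).2 (Or.inr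
      ⟨feq m hm v hv e1, ?_⟩)⟩ fun u hu => Or.inl ?_
    · rw [h0 m ((hTop m).2 fun y hy e => e2 y hy (e.trans e1)), h1 v ht]
      omega
    · rcases hu.2.1 with e | e
      · exact A.leS_trans e hvm
      · obtain ⟨e3, e4⟩ := fle v hv u hu.1 e
        have e5 := (hlt _ _).1 hu.2.2
        have e6 := (e4 (by omega)).symm
        exact le_of_bt A (hfin m hm) (e2 u hu.1 e6) (e6.trans e1.symm)
  have top : ∀ v ∈ X, Top v →
      {u ∈ X | A.rS u v ∧ lt u v} = {y | A.leS y v ∧ bt A y ≠ bt A v} := fun v hv ht => by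
    have e0 := h0 v ht
    ext u
    constructor
    · rintro ⟨hu, e1, e2⟩
      have e3 : f u < f v := by
        have := (hlt _ _).1 e2
        omega
      exact ⟨e1.resolve_right fun e => (fle v hv u hu e).1.not_gt e3,
        fun e => e3.ne (feq u hu v hv e)⟩
    · rintro ⟨e1, e2⟩
      have hu := hlow v hv u e1
      obtain ⟨e3, e4⟩ := fle u hu v hv e1
      exact ⟨hu, Or.inl e1, (hlt _ _).2 (Or.inl (e3.lt_of_ne fun e => e2 (e4 e)))⟩
  have birth : ∀ v ∈ X, {u ∈ X | A.rS u v ∧ lt u v} = ∅ → v = (K, ∅) := fun v hv e => by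
    have ht : Top v := by
      by_contra ht
      exact (cone v hv ht).1.ne_empty e
    have e1 : v.2 = ∅ := by
      by_contra e1
      rw [top v hv ht] at e
      exact (hb v hv (Finset.nonempty_iff_ne_empty.2 e1)).1.ne_empty e
    obtain ⟨m, hm, e2, -, e3⟩ := hM v hv
    have e4 := e3 (Finset.subset_empty.1 (e1 ▸ (hTop v).1 ht m hm e2))
    obtain ⟨g, T⟩ := v
    obtain rfl : T = ∅ := e1
    rw [bt_empty] at e4
    rw [e4]
  refine (contr_or_empty A.rS_refl (fun _ _ => A.rS_symm) wf (fun u hu v hv hne huv => ?_)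
    (fun v hv => ?_) fun v hv v' hv' e e' => (birth v hv e).trans (birth v' hv' e').symm).resolve_right
    (Set.Nonempty.ne_empty ⟨_, hK⟩)
  · exact huv.elim (tot u hu v hv hne) fun e => (tot v hv u hu hne.symm e).symm
  · by_cases ht : Top v
    · rw [top v hv ht]
      rcases v.2.eq_empty_or_nonempty with e | e
      · refine Or.inr (Set.eq_empty_of_forall_notMem fun y hy => hy.2 ?_)
        rw [A.eq_of_leS hy.1 ((Finset.subset_empty.1 (e ▸ (A.leS_iff.1 hy.1).1)).trans e.symm)]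
      · exact Or.inl (hb v hv e)
    · exact Or.inl (cone v hv ht)

lemma bdry (U : Finset S) : Finite (par cs U) → U.Nonempty → ∀ g : G,
    Contr A.rS {y | A.leS y (g, U) ∧ bt A y ≠ bt A (g, U)} := by
  induction U using Finset.strongInduction with
  | H U ih =>
  intro hU hne g
  have hL := lg_spec hU
  refine shell A (K := g) ⟨A.leS_iff.2 ⟨Finset.empty_subset _, 1, one_mem _, ?_, ?_⟩, ?_⟩
    (fun x hx => finite_par_mono cs (A.leS_iff.1 hx.1).1 hU)
    (fun x hx y hy => ⟨A.leS_trans hy hx.1, fun e => hx.2 ?_⟩) (fun x hx => ?_) (fun x hx => ?_)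
    fun x hx hne' => ?_
  · exact (isMinRep_iff cs).2 fun s hs => absurd hs (Finset.notMem_empty s)
  · rw [A.L_one, mul_one]
  · obtain ⟨s, hs⟩ := hne
    have h1 := hL.descent hs
    intro e
    have h2 := congrArg A.len e
    rw [bt_empty, bt, A.len_mul, A.len_L] at h2
    dsimp only at h2
    omega
  · have h1 := len_le A (x := (g, U)) hU hx.1
    have h2 := (len_le A (finite_par_mono cs (A.leS_iff.1 hx.1).1 hU) hy).1
    rw [e] at h2
    exact h1.2 (le_antisymm h1.1 h2)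
  · obtain ⟨u, -, h1, -⟩ := bt_of_le A (x := (g, U)) hU hx.1
    rw [h1, A.len_mul, A.len_L]
    dsimp only
    omega
  · obtain ⟨u, hu, h1, -⟩ := bt_of_le A (x := (g, U)) hU hx.1
    obtain ⟨D, hD⟩ : ∃ D : Finset S, ∀ s, s ∈ D ↔ cs.length (u * cs.simple s) < cs.length u :=
      ⟨Finset.univ.filter fun s => cs.length (u * cs.simple s) < cs.length u, fun s => by simp⟩
    have hDU : D ⊆ U := fun s hs => mem_of_rightDescent cs hu ((hD s).1 hs)
    have h2 := lg_spec (finite_par_mono cs hDU hU)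
    obtain ⟨h3, h4⟩ := h2.strip fun s hs => (hD s).1 hs
    have h5 : u * lg cs D * lg cs D = u := by
      rw [mul_assoc]
      nth_rw 1 [← h2.inv]
      rw [inv_mul_cancel, mul_one]
    have h6 := A.L_mul (u := u * lg cs D) (w := lg cs D) (by rw [h5, h4])
    rw [h5] at h6
    refine ⟨(bt A x * (A.L (lg cs D))⁻¹, D), ⟨A.leS_iff.2 ⟨hDU, u * lg cs D,
      mul_mem hu (par_mono cs hDU h2.1), h3, ?_⟩, by rw [bt_mk]; exact hx.2⟩, bt_mk A _ _,
      fun y hy e s hs => ?_, fun e => ?_⟩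
    · show bt A x * (A.L (lg cs D))⁻¹ = g * A.L (u * lg cs D)
      rw [h1, h6, ← mul_assoc, mul_inv_cancel_right]
    · obtain ⟨u', -, h7, h8⟩ := bt_of_le A (x := (g, U)) hU hy.1
      have h9 := congrArg A.pr (mul_left_cancel (h7.symm.trans (e.trans h1)))
      rw [A.pr_L, A.pr_L] at h9
      exact (hD s).2 (h9 ▸ h8 s hs)
    · have h7 : u = 1 := by
        by_contra h7
        obtain ⟨s, hs⟩ := cs.exists_rightDescent_of_ne_one h7
        exact Finset.notMem_empty s (e ▸ (hD s).2 hs)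
      rw [h1, h7, A.L_one, mul_one]
  · have h1 := (A.leS_iff.1 hx.1).1
    exact ih x.2 (h1.ssubset_of_ne fun e => hx.2 (congrArg (bt A) (A.eq_of_leS hx.1 e)))
      (finite_par_mono cs h1 hU) hne' x.1

end Fiber

open Vale.Agent.P203.Fiber

theorem Art.contr_bdry {U : Finset S} (hU : Finite (par cs U)) (hne : U.Nonempty) {w₀ : W}
    (h₀ : IsLongest cs U w₀) (g : G) :
    Contr A.rS {y | A.leS y (g, U) ∧ ∀ w₁, IsLongest cs y.2 w₁ → y.1 * A.L w₁ ≠ g * A.L w₀} := by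
  have e : {y | A.leS y (g, U) ∧ ∀ w₁, IsLongest cs y.2 w₁ → y.1 * A.L w₁ ≠ g * A.L w₀} =
      {y | A.leS y (g, U) ∧ bt A y ≠ bt A (g, U)} := by
    ext y
    refine and_congr_right fun hy => ?_
    have h1 := lg_spec (finite_par_mono cs (A.leS_iff.1 hy).1 hU)
    rw [h₀.unique (lg_spec hU)]
    exact ⟨fun h => h _ h1, fun h w₁ hw => by rwa [hw.unique h1]⟩
  rw [e]
  exact bdry A U hU hne g

theorem Art.contr_cone (hL : A.Lcm) {T : Finset S} (hT : Finite (par cs T)) (K : G) :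
    Contr A.rS {x | x.2 ⊆ T ∧ K⁻¹ * x.1 ∈ Pos A.σ T} := by
  classical
  have hb : ∀ x : G × Finset S, x.2 ⊆ T ∧ K⁻¹ * x.1 ∈ Pos A.σ T → K⁻¹ * bt A x ∈ Pos A.σ T :=
    fun x hx => by
      rw [bt, ← mul_assoc]
      exact mul_mem hx.2 (A.L_mem_Pos (par_mono cs hx.1 (lg_spec (finite_par_mono cs hx.1 hT)).1))
  refine shell A (K := K) ⟨Finset.empty_subset _, ?_⟩ (fun x hx => finite_par_mono cs hx.1 hT)
    (fun x hx y hy => ?_) (fun x hx => ?_) (fun x hx => ?_)
    fun x hx hne => bdry A x.2 (finite_par_mono cs hx.1 hT) hne x.1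
  · rw [inv_mul_cancel]
    exact one_mem _
  · obtain ⟨h1, w, hw, -, h2⟩ := A.leS_iff.1 hy
    refine ⟨h1.trans hx.1, ?_⟩
    rw [h2, ← mul_assoc]
    exact mul_mem hx.2 (A.L_mem_Pos (par_mono cs hx.1 hw))
  · have h1 := A.len_nonneg (hb x hx)
    rw [A.len_mul, A.len_inv] at h1
    omega
  · obtain ⟨U, hU⟩ : ∃ U : Finset S, ∀ s, s ∈ U ↔ s ∈ T ∧ K⁻¹ * bt A x * (A.σ s)⁻¹ ∈ Pos A.σ T :=
      ⟨T.filter _, fun s => Finset.mem_filter⟩
    have hUT : U ⊆ T := fun s hs => ((hU s).1 hs).1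
    refine ⟨(bt A x * (A.L (lg cs U))⁻¹, U), ⟨hUT, ?_⟩, bt_mk A _ _, fun y hy e s hs => ?_,
      fun e => ?_⟩
    · rw [← mul_assoc]
      exact hL T U _ hT hUT (fun s hs => ((hU s).1 hs).2) (hb x hx) _
        (lg_spec (finite_par_mono cs hUT hT)).1
    · have h1 := lg_spec (finite_par_mono cs hy.1 hT)
      have h2 := (simple_mem_par cs).2 hs
      refine (hU s).2 ⟨hy.1 hs, ?_⟩
      rw [← e, bt, A.L_longest_right h1 h2, A.L_simple, ← mul_assoc, ← mul_assoc,
        mul_inv_cancel_right]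
      exact mul_mem hy.2 (A.L_mem_Pos (par_mono cs hy.1 (mul_mem h1.1 (inv_mem h2))))
    · rcases A.pos_cases (hb x hx) with h | ⟨p, hp, s, hs, h⟩
      · exact (inv_mul_eq_one.1 h).symm
      · exact absurd (e ▸ (hU s).2 ⟨hs, by rwa [h, mul_inv_cancel_right]⟩) (Finset.notMem_empty s)

theorem Art.contr_fiber (hL : A.Lcm) {T : Finset S} (hT : Finite (par cs T)) (g : G) :
    Contr A.rS {x | x.2 ⊆ T ∧ x.1 ∈ A.cos T g} := by
  refine contr_of_directed ⟨(g, ∅), Finset.empty_subset _, A.self_mem_cos g⟩ fun F hF hf => ?_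
  have key : ∃ K, g⁻¹ * K ∈ AT A.σ T ∧ ∀ x ∈ F, K⁻¹ * x.1 ∈ Pos A.σ T := by
    induction F, hf using Set.Finite.induction_on with
    | empty => exact ⟨g, A.self_mem_cos g, fun x hx => absurd hx (Set.notMem_empty x)⟩
    | @insert x F _ _ ih =>
      obtain ⟨K, hK, h⟩ := ih ((Set.subset_insert x F).trans hF)
      have h1 : K⁻¹ * x.1 ∈ AT A.σ T := by
        have h2 := mul_mem (inv_mem hK) (A.mem_cos.1 (hF (Set.mem_insert x F)).2)
        rwa [mul_inv_rev, inv_inv, mul_assoc, mul_inv_cancel_left] at h2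
      obtain ⟨p, hp, h2⟩ := A.ore_left hT h1
      refine ⟨K * p⁻¹, ?_, fun y hy => ?_⟩
      · rw [← mul_assoc]
        exact mul_mem hK (inv_mem (A.mem_AT_of_Pos hp))
      · rw [mul_inv_rev, inv_inv, mul_assoc]
        rcases hy with rfl | hy
        · exact h2
        · exact mul_mem hp (h y hy)
  obtain ⟨K, hK, h⟩ := key
  refine ⟨{x | x.2 ⊆ T ∧ K⁻¹ * x.1 ∈ Pos A.σ T}, fun x hx => ⟨(hF hx).1, h x hx⟩,
    fun x hx => ⟨hx.1, A.mem_cos.2 ?_⟩, A.contr_cone hL hT K⟩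
  have h2 := mul_mem hK (A.mem_AT_of_Pos hx.2)
  rwa [mul_assoc, mul_inv_cancel_left] at h2

end Vale.Agent.P203
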