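import Vale.Agent.P203.CoxPD

namespace Vale.Agent.P203

variable {S : Type} [Fintype S] [DecidableEq S] {M : CoxeterMatrix S}

namespace Zar

theorem Ax_le_of_le {x y : S → ℝ} (h : x ≤ y) (s : S) :
    Ax M y s ≤ Ax M x s + 2 * (y s - x s) := by
  have h1 : Ax M y s ≤ Ax M (x + Pi.single s (y s - x s)) s := by
    refine Ax_anti (fun t ht => ?_) ?_
    · simpa [Pi.single_eq_of_ne ht] using h t
    · simp
  rwa [Ax_add, Ax_single, cf_self] at h1

theorem ev_le {a b v : ℝ} (h : a < b) :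
    ∀ᶠ ε in nhdsWithin (0 : ℝ) (Set.Ioi 0), a + ε * v ≤ b := by
  have h1 : Filter.Tendsto (fun ε : ℝ => a + ε * v) (nhds 0) (nhds (a + 0 * v)) := by
    have : Continuous fun ε : ℝ => a + ε * v := by fun_prop
    exact this.tendsto 0
  rw [zero_mul, add_zero] at h1
  exact ((h1.eventually (gt_mem_nhds h)).mono fun _ hx => hx.le).filter_mono nhdsWithin_le_nhds

theorem bump {N T : Finset S} {c d lam P v : S → ℝ} (h : IsGreatest (Feas M N T c d lam) P)
    (hv : 0 ≤ v) (hs : ∀ j, v j ≠ 0 → j ∈ N ∧ (j ∈ T ∨ P j < d j))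
    (hA : ∀ k ∈ N, Ax M P k < lam k ∨ Ax M v k ≤ 0) : v = 0 := by
  obtain ⟨⟨h1, h2, h3⟩, hP⟩ := h
  have e1 : ∀ᶠ ε in nhdsWithin (0 : ℝ) (Set.Ioi 0), ∀ k, k ∈ N →
      Ax M P k + ε * Ax M v k ≤ lam k := by
    refine Filter.eventually_all.2 fun k => ?_
    by_cases hk : k ∈ N
    · rcases hA k hk with h' | h'
      · exact (ev_le h').mono fun _ hx _ => hx
      · filter_upwards [self_mem_nhdsWithin] with ε hε _
        have : ε * Ax M v k ≤ 0 := mul_nonpos_of_nonneg_of_nonpos (le_of_lt hε) h'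
        linarith [h2 k hk]
    · exact Filter.Eventually.of_forall fun _ hk' => absurd hk' hk
  have e2 : ∀ᶠ ε in nhdsWithin (0 : ℝ) (Set.Ioi 0), ∀ k, k ∈ N → k ∉ T →
      P k + ε * v k ≤ d k := by
    refine Filter.eventually_all.2 fun k => ?_
    by_cases hk : v k = 0
    · refine Filter.Eventually.of_forall fun ε hN hT => ?_
      rw [hk, mul_zero, add_zero]
      exact h3 k hN hT
    · rcases (hs k hk).2 with h' | h'
      · exact Filter.Eventually.of_forall fun _ _ hT => absurd h' hT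
      · exact (ev_le h').mono fun _ hx _ _ => hx
  obtain ⟨ε, ⟨a1, a2⟩, hε⟩ := ((e1.and e2).and self_mem_nhdsWithin).exists
  have hε' : 0 < ε := hε
  have hF : P + ε • v ∈ Feas M N T c d lam := by
    refine ⟨fun j hj => ?_, fun j hj => ?_, fun j hj hT => a2 j hj hT⟩
    · have : v j = 0 := by
        by_contra h0
        exact hj (hs j h0).1
      simp [this, h1 j hj]
    · rw [Ax_add, Ax_smul]
      exact a1 j hj
  funext j
  have h4 : P j + ε * v j ≤ P j := hP hF j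
  have h5 : 0 ≤ v j := hv j
  have h6 : v j ≤ 0 := by
    by_contra h7
    have := mul_pos hε' (not_le.1 h7)
    linarith
  exact le_antisymm h6 h5

theorem finite_below {D : Set ℝ} (hD : ∀ R : ℝ, (D ∩ Set.Iic R).Finite) (lam P0 : S → ℝ) :
    {P | P ∈ Vals M D lam ∧ P ≤ P0}.Finite := by
  have key : ∀ R : Finset S, {P : S → ℝ | (PD M R ∧ (∀ j ∈ R, Ax M P j = lam j) ∧
      ∀ j, j ∉ R → P j ∈ D) ∧ P ≤ P0}.Finite := by
    intro R
    have hfin : (Set.pi Set.univ fun j : S => insert (0 : ℝ) (D ∩ Set.Iic (P0 j))).Finite :=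
      Set.Finite.pi fun j => (hD _).insert 0
    refine Set.Finite.of_finite_image
      (f := fun (P : S → ℝ) (j : S) => if j ∈ R then (0 : ℝ) else P j) (hfin.subset ?_) ?_
    · rintro _ ⟨P, ⟨⟨-, -, h3⟩, h4⟩, rfl⟩ j -
      by_cases hj : j ∈ R
      · simp [hj]
      · simp only [hj, if_false]
        exact Or.inr ⟨h3 j hj, h4 j⟩
    · have half : ∀ P Q : S → ℝ, PD M R → (∀ j ∈ R, Ax M P j = lam j) →
          (∀ j ∈ R, Ax M Q j = lam j) → (∀ j, j ∉ R → P j = Q j) → P ≤ Q := by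
        intro P Q hR hP hQ hPQ
        refine sub_nonpos.1 (hR.nonpos (fun s hs => ?_) fun s hs => ?_)
        · simp [hPQ s hs]
        · rw [Ax_sub, hP s hs, hQ s hs, sub_self]
      rintro P ⟨⟨hR, hP, -⟩, -⟩ Q ⟨⟨-, hQ, -⟩, -⟩ hPQ
      have h : ∀ j, j ∉ R → P j = Q j := fun j hj => by
        simpa [hj] using congrFun hPQ j
      exact le_antisymm (half P Q hR hP hQ h) (half Q P hR hQ hP fun j hj => (h j hj).symm)
  refine (Set.finite_iUnion key).subset ?_
  rintro P ⟨⟨R, hR⟩, hP⟩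
  exact Set.mem_iUnion.2 ⟨R, hR, hP⟩

end Zar

theorem exists_greatest {N T : Finset S} (hT : PD M (T ∩ N)) {c d lam : S → ℝ}
    (h : (Feas M N T c d lam).Nonempty) : ∃ P, IsGreatest (Feas M N T c d lam) P := by
  obtain ⟨θ, hθ1, hθ2⟩ := hT.solve lam fun j => if j ∈ N then d j else c j
  have hb : ∀ e ∈ Feas M N T c d lam, e ≤ θ := by
    rintro e ⟨h1, h2, h3⟩
    refine sub_nonpos.1 (hT.nonpos (fun s hs => ?_) fun s hs => ?_)
    · rw [Pi.sub_apply, hθ2 s hs]
      by_cases hN : s ∈ N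
      · have : s ∉ T := fun hT' => hs (Finset.mem_inter.2 ⟨hT', hN⟩)
        rw [if_pos hN]
        exact sub_nonpos.2 (h3 s hN this)
      · rw [if_neg hN, h1 s hN, sub_self]
    · rw [Ax_sub, hθ1 s hs]
      exact sub_nonpos.2 (h2 s (Finset.mem_inter.1 hs).2)
  obtain ⟨P, hP⟩ : ∃ P : S → ℝ, ∀ j, P j = sSup ((fun e => e j) '' Feas M N T c d lam) :=
    ⟨_, fun _ => rfl⟩
  have hle : ∀ e ∈ Feas M N T c d lam, e ≤ P := by
    intro e he j
    rw [hP]
    refine le_csSup ⟨θ j, ?_⟩ ⟨e, he, rfl⟩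
    rintro _ ⟨e', he', rfl⟩
    exact hb e' he' j
  have hlub : ∀ j b, (∀ e ∈ Feas M N T c d lam, e j ≤ b) → P j ≤ b := by
    intro j b hb'
    rw [hP]
    refine csSup_le (h.image _) ?_
    rintro _ ⟨e, he, rfl⟩
    exact hb' e he
  refine ⟨P, ⟨fun j hj => ?_, fun j hj => ?_, fun j hj hT' => ?_⟩, hle⟩
  · obtain ⟨e0, he0⟩ := h
    refine le_antisymm (hlub j _ fun e he => (he.1 j hj).le) ?_
    rw [← he0.1 j hj]
    exact hle e0 he0 j
  · have := hlub j (P j - (Ax M P j - lam j) / 2) fun e he => by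
      have h1 := Zar.Ax_le_of_le (M := M) (hle e he) j
      have h2 := he.2.1 j hj
      linarith
    linarith
  · exact hlub j _ fun e he => he.2.2 j hj hT'

theorem greatest_eq {N T : Finset S} {c d lam P : S → ℝ} (h : IsGreatest (Feas M N T c d lam) P)
    {j : S} (hj : j ∈ N) (h' : j ∈ T ∨ P j < d j) : Ax M P j = lam j := by
  by_contra hne
  have hlt : Ax M P j < lam j := lt_of_le_of_ne (h.1.2.1 j hj) hne
  have := Zar.bump (v := Pi.single j 1) h (Pi.single_nonneg.2 zero_le_one) (fun k hk => ?_)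
    fun k _ => ?_
  · simpa using congrFun this j
  · have : k = j := by
      by_contra hkj
      exact hk (Pi.single_eq_of_ne hkj _)
    rw [this]
    exact ⟨hj, h'⟩
  · by_cases hkj : k = j
    · rw [hkj]
      exact Or.inl hlt
    · right
      rw [Ax_single, mul_one]
      exact cf_nonpos hkj

open Classical in
theorem greatest_pd {N T : Finset S} {c d lam P : S → ℝ}
    (h : IsGreatest (Feas M N T c d lam) P) : PD M (N.filter fun j => j ∈ T ∨ P j < d j) := by
  by_contra hn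
  obtain ⟨v, h1, h2, h3, h4⟩ := vinberg hn
  refine h2 (Zar.bump h h1 (fun j hj => ?_) fun k _ => Or.inr (h4 k))
  by_contra hc
  exact hj (h3 j fun hm => hc (Finset.mem_filter.1 hm))

theorem greatest_mem_vals {N T : Finset S} {c d lam P : S → ℝ} {D : Set ℝ}
    (h : IsGreatest (Feas M N T c d lam) P) (hc : ∀ j, j ∉ N → c j ∈ D)
    (hd : ∀ j ∈ N, j ∉ T → d j ∈ D) : P ∈ Vals M D lam := by
  refine ⟨_, greatest_pd h, fun j hj => ?_, fun j hj => ?_⟩
  · have := Finset.mem_filter.1 hj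
    exact greatest_eq h this.1 this.2
  · by_cases hN : j ∈ N
    · have h1 : ¬ (j ∈ T ∨ P j < d j) := fun h' => hj (Finset.mem_filter.2 ⟨hN, h'⟩)
      rw [not_or, not_lt] at h1
      rw [le_antisymm (h.1.2.2 j hN h1.1) h1.2]
      exact hd j hN h1.1
    · rw [h.1.1 j hN]
      exact hc j hN

theorem wf_vals {D : Set ℝ} (hD : ∀ R : ℝ, (D ∩ Set.Iic R).Finite) (lam : S → ℝ) :
    WellFounded fun P P' : S → ℝ => P ∈ Vals M D lam ∧ P' ∈ Vals M D lam ∧ P < P' := by
  refine Subrelation.wf (r := InvImage (· < ·) fun P : S → ℝ =>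
    {Q | Q ∈ Vals M D lam ∧ Q ≤ P}.ncard) ?_ (InvImage.wf _ wellFounded_lt)
  rintro P P' ⟨-, h2, h3⟩
  refine Set.ncard_lt_ncard ⟨fun Q hQ => ⟨hQ.1, hQ.2.trans h3.le⟩, fun hs => ?_⟩
    (Zar.finite_below hD lam P')
  exact h3.not_ge (hs ⟨h2, le_rfl⟩).2

end Vale.Agent.P203
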