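import Vale.Agent.P203.Apt3
import Vale.Agent.P203.Zar
import Vale.Agent.P203.TopMorse

namespace Vale.Agent.P203

universe u

variable {S W : Type} [Fintype S] [DecidableEq S] [Group W] {M : CoxeterMatrix S}
  {cs : CoxeterSystem M W} {G : Type u} [Group G] (Y : Sys cs G) {n : ℕ}

theorem Sys.DD_eq_empty_iff {U T₁ : Finset S} {a : G} {θ : S → ℝ} :
    Y.DD n a U T₁ θ = ∅ ↔ Y.Quiet n a (U ∪ T₁) U θ := by
  refine ⟨fun h b hb hn j hj => not_lt.1 fun hlt => ?_, fun h => Set.eq_empty_of_forall_notMem ?_⟩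
  · exact Set.eq_empty_iff_forall_notMem.1 h (∅, Y.cos ∅ b)
      ⟨Finset.empty_subset _, b, hb, rfl, hn, j, hj, Finset.notMem_empty j, hlt⟩
  · rintro x ⟨-, b, hb, -, hn, j, hj, -, hlt⟩
    exact (h b hb hn j hj).not_gt hlt

namespace MorseDAux

/-- the nef part attached to a face -/
noncomputable def PX (n : ℕ) (U : Finset S) (θ : S → ℝ) (x : Finset S × Set G) : S → ℝ :=
  Classical.epsilon fun P => ∀ b ∈ x.2, IsGreatest (Feas M U x.1 θ (Y.d b n) (Y.lam n)) P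

/-- the set where the nef part is orthogonal -/
noncomputable def ZX (n : ℕ) (U : Finset S) (P : S → ℝ) : Finset S :=
  U.filter fun j => Ax M P j = Y.lam n j

/-- the secondary height -/
noncomputable def kX (n : ℕ) (U T₁ : Finset S) (θ : S → ℝ) (x : Finset S × Set G) : ℕ :=
  if x.1 = ZX Y n U (PX Y n U θ x) ∪ T₁ then 0 else x.1.card + 1

/-- the Morse order -/
def lt (n : ℕ) (a : G) (U T₁ : Finset S) (θ : S → ℝ) (y x : Finset S × Set G) : Prop :=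
  y ∈ Y.DD n a U T₁ θ ∧ x ∈ Y.DD n a U T₁ θ ∧ (PX Y n U θ y < PX Y n U θ x ∨
    PX Y n U θ y = PX Y n U θ x ∧ kX Y n U T₁ θ y < kX Y n U T₁ θ x)

/-- the standing hypotheses -/
structure Hyp (n : ℕ) (a : G) (U T₁ : Finset S) (θ : S → ℝ) : Prop where
  hT : PD M (U ∪ T₁)
  orth : ∀ s ∈ U, ∀ t ∈ T₁, cf M s t = 0
  hθ : ∀ s ∈ U, Ax M θ s = Y.lam n s
  he : ∀ j, j ∉ U ∪ T₁ → θ j = Y.d a n j

variable {Y} {a b : G} {U T₁ : Finset S} {θ P : S → ℝ} {x y : Finset S × Set G} {j : S}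

theorem mem_ZX : j ∈ ZX Y n U P ↔ j ∈ U ∧ Ax M P j = Y.lam n j := Finset.mem_filter

theorem ZX_sub : ZX Y n U P ⊆ U := Finset.filter_subset _ _

theorem exists_rep (hx : x ∈ Y.DD n a U T₁ θ) : ∃ b ∈ x.2, InA Y.d n b :=
  let ⟨_, b, _, h, h', _⟩ := hx
  ⟨b, h ▸ Y.self_mem_cos b, h'⟩

theorem cos_rep (hx : x ∈ Y.DD n a U T₁ θ) (hb : b ∈ x.2) : x.2 = Y.cos x.1 b :=
  let ⟨_, _, _, h, _⟩ := hx
  h.trans (Y.cos_eq (h ▸ hb)).symm

theorem mem_AT (hx : x ∈ Y.DD n a U T₁ θ) (hb : b ∈ x.2) : a⁻¹ * b ∈ AT Y.σ (U ∪ T₁) := by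
  obtain ⟨h0, c, hc, h, -⟩ := hx
  rw [h] at hb
  simpa only [mul_assoc, mul_inv_cancel_left] using mul_mem hc (Y.AT_mono h0 hb)

theorem Hyp.notMem (h : Hyp Y n a U T₁ θ) (hj : j ∈ U) : j ∉ T₁ := fun h' =>
  two_ne_zero ((cf_self j).symm.trans (h.orth j hj j h'))

theorem Hyp.pd (h : Hyp Y n a U T₁ θ) {Z : Finset S} (hZ : Z ⊆ U) : PD M Z :=
  h.hT.mono (hZ.trans Finset.subset_union_left)

theorem Hyp.next_pd (h : Hyp Y n a U T₁ θ) (x : Finset S × Set G) :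
    PD M (ZX Y n U (PX Y n U θ x)) := h.pd ZX_sub

theorem Hyp.spec (h : Hyp Y n a U T₁ θ) (hx : x ∈ Y.DD n a U T₁ θ) (hb : b ∈ x.2) :
    IsGreatest (Feas M U x.1 θ (Y.d b n) (Y.lam n)) (PX Y n U θ x) := by
  refine Classical.epsilon_spec (p := fun P => ∀ b ∈ x.2,
    IsGreatest (Feas M U x.1 θ (Y.d b n) (Y.lam n)) P) ?_ b hb
  obtain ⟨P, hP⟩ := exists_greatest (N := U) (T := x.1) (h.pd Finset.inter_subset_right) (c := θ)
    (d := Y.d b n) (lam := Y.lam n) ⟨fun j => if j ∈ U then 0 else θ j, fun j hj => if_neg hj,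
      fun j hj => le_trans (Finset.sum_nonpos fun t _ => by
        by_cases h1 : t ∈ U
        · simp [h1]
        by_cases h2 : t ∈ T₁
        · simp [h.orth j hj t h2]
        simp only [if_neg h1, h.he t (by simp [h1, h2])]
        exact mul_nonpos_of_nonpos_of_nonneg (cf_nonpos fun e => h1 (e ▸ hj)) (Y.d_nonneg a n t))
        (Y.lam_nonneg n j), fun j hj _ => (if_pos hj).trans_le (Y.d_nonneg b n j)⟩
  refine ⟨P, fun c hc => ?_⟩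
  rw [cos_rep hx hb] at hc
  have e : Feas M U x.1 θ (Y.d c n) (Y.lam n) = Feas M U x.1 θ (Y.d b n) (Y.lam n) :=
    Set.ext fun e => and_congr_right' (and_congr_right' (forall₃_congr fun j _ hj => by
      rw [Y.d_off_AT hc n hj]))
  rwa [e]

theorem Hyp.le (h : Hyp Y n a U T₁ θ) (hx : x ∈ Y.DD n a U T₁ θ) : PX Y n U θ x ≤ θ := by
  obtain ⟨b, hb, -⟩ := exists_rep hx
  obtain ⟨h1, h2, -⟩ := (h.spec hx hb).1
  exact sub_nonpos.1 ((h.pd subset_rfl).nonpos (fun s hs => (sub_eq_zero.2 (h1 s hs)).le)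
    fun s hs => by rw [Ax_sub, h.hθ s hs]; exact sub_nonpos.2 (h2 s hs))

theorem Hyp.not_le (h : Hyp Y n a U T₁ θ) (hx : x ∈ Y.DD n a U T₁ θ) : ¬ θ ≤ PX Y n U θ x :=
  let ⟨_, b, _, h1, _, j, hj, hj', h2⟩ := id hx
  fun e => h2.not_ge ((e j).trans ((h.spec hx (h1 ▸ Y.self_mem_cos b)).1.2.2 j hj hj'))

theorem Hyp.sub (h : Hyp Y n a U T₁ θ) (hx : x ∈ Y.DD n a U T₁ θ) :
    x.1 ⊆ ZX Y n U (PX Y n U θ x) ∪ T₁ := fun j hj =>
  let ⟨_, hb, _⟩ := exists_rep hx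
  Finset.mem_union.2 ((Finset.mem_union.1 (hx.1 hj)).imp_left fun hU =>
    mem_ZX.2 ⟨hU, greatest_eq (h.spec hx hb) hU (Or.inl hj)⟩)

theorem Hyp.off (h : Hyp Y n a U T₁ θ) (hx : x ∈ Y.DD n a U T₁ θ) (hb : b ∈ x.2)
    (hj : j ∉ ZX Y n U (PX Y n U θ x) ∪ T₁) : PX Y n U θ x j = Y.d b n j := by
  by_cases hU : j ∈ U
  · exact ((h.spec hx hb).1.2.2 j hU (mt (h.sub hx ·) hj)).eq_of_not_lt fun h' =>
      hj (Finset.mem_union_left _ (mem_ZX.2 ⟨hU, greatest_eq (h.spec hx hb) hU (Or.inr h')⟩))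
  · have h' : j ∉ U ∪ T₁ := fun h' =>
      (Finset.mem_union.1 h').elim hU fun h' => hj (Finset.mem_union_right _ h')
    rw [(h.spec hx hb).1.1 j hU, h.he j h', Y.d_off_AT (mem_AT hx hb) n h']

theorem Hyp.mono (h : Hyp Y n a U T₁ θ) (hx : x ∈ Y.DD n a U T₁ θ) (hy : y ∈ Y.DD n a U T₁ θ)
    (hl : leP y x) : PX Y n U θ y ≤ PX Y n U θ x :=
  let ⟨_, hb, _⟩ := exists_rep hy
  let ⟨h1, h2, h3⟩ := (h.spec hy hb).1
  (h.spec hx (hl.2 hb)).2 ⟨h1, h2, fun j hj hj' => h3 j hj (mt (hl.1 ·) hj')⟩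

theorem Hyp.drop (h : Hyp Y n a U T₁ θ) (hx : x ∈ Y.DD n a U T₁ θ) (hb : b ∈ x.2) :
    ∃ j ∈ U, j ∉ ZX Y n U (PX Y n U θ x) ∪ T₁ ∧ Y.d b n j < θ j := by
  by_contra! h0
  refine h.not_le hx (sub_nonpos.1 ((h.next_pd x).nonpos (fun s hs => sub_nonpos.2 ?_)
    fun s hs => by rw [Ax_sub, h.hθ s (mem_ZX.1 hs).1, (mem_ZX.1 hs).2, sub_self]))
  by_cases hU : s ∈ U
  · have h' := Finset.notMem_union.2 ⟨hs, h.notMem hU⟩
    exact (h0 s hU h').trans (h.off hx hb h').ge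
  · exact ((h.spec hx hb).1.1 s hU).ge

theorem Hyp.wf (h : Hyp Y n a U T₁ θ) : WellFounded (lt Y n a U T₁ θ) := by
  have hD : ∀ R : ℝ, (({x | ∃ g n s, Y.d g n s = x} ∪ Set.range θ) ∩ Set.Iic R).Finite := fun R => by
    rw [Set.union_inter_distrib_right]
    exact (Y.vals R).union ((Set.finite_range θ).inter_of_left _)
  have hv : ∀ {x}, x ∈ Y.DD n a U T₁ θ → PX Y n U θ x ∈ Vals M _ (Y.lam n) := fun hx =>
    let ⟨b, hb, _⟩ := exists_rep hx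
    greatest_mem_vals (D := {x | ∃ g n s, Y.d g n s = x} ∪ Set.range θ) (h.spec hx hb)
      (fun j _ => Or.inr ⟨j, rfl⟩) fun j _ _ => Or.inl ⟨b, n, j, rfl⟩
  refine Subrelation.wf (fun {y x} ⟨hy, hx, h'⟩ => ?_)
    (InvImage.wf (fun x => (PX Y n U θ x, kX Y n U T₁ θ x))
      ((wf_vals (M := M) hD (Y.lam n)).prod_lex Nat.lt_wfRel.wf))
  exact Prod.lex_def.2 (h'.imp_left fun h' => ⟨hv hy, hv hx, h'⟩)

theorem Hyp.tot (h : Hyp Y n a U T₁ θ) (hx : x ∈ Y.DD n a U T₁ θ) (hy : y ∈ Y.DD n a U T₁ θ)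
    (hne : y ≠ x) (hl : leP y x) : lt Y n a U T₁ θ y x ∨ lt Y n a U T₁ θ x y := by
  rcases (h.mono hx hy hl).eq_or_lt with e | e
  swap
  · exact Or.inl ⟨hy, hx, Or.inl e⟩
  have h1 : y.1 ≠ x.1 := fun e => hne (Y.eq_of_leP (let ⟨_, b, _, h, _⟩ := hy; ⟨b, h⟩)
    (let ⟨_, b, _, h, _⟩ := hx; ⟨b, h⟩) hl e)
  have h2 : kX Y n U T₁ θ y = y.1.card + 1 :=
    if_neg fun h' => h1 (hl.1.antisymm (by rw [h', e]; exact h.sub hx))
  by_cases h3 : x.1 = ZX Y n U (PX Y n U θ x) ∪ T₁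
  · exact Or.inr ⟨hx, hy, Or.inr ⟨e.symm, by rw [h2, kX, if_pos h3]; omega⟩⟩
  · exact Or.inl ⟨hy, hx, Or.inr ⟨e, by
      rw [h2, kX, if_neg h3]
      exact Nat.succ_lt_succ (Finset.card_lt_card (hl.1.ssubset_of_ne h1))⟩⟩

theorem Hyp.cone (h : Hyp Y n a U T₁ θ) (hx : x ∈ Y.DD n a U T₁ θ)
    (ht : x.1 ≠ ZX Y n U (PX Y n U θ x) ∪ T₁) :
    Contr rP {u ∈ Y.DD n a U T₁ θ | rP u x ∧ lt Y n a U T₁ θ u x} := by
  obtain ⟨b, hb, hn⟩ := exists_rep hx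
  obtain ⟨c, hc⟩ : ∃ c : Finset S × Set G, c = (ZX Y n U (PX Y n U θ x) ∪ T₁,
    Y.cos (ZX Y n U (PX Y n U θ x) ∪ T₁) b) := ⟨_, rfl⟩
  have c1 : c.1 = ZX Y n U (PX Y n U θ x) ∪ T₁ := by rw [hc]
  have cb : b ∈ c.2 := hc ▸ Y.self_mem_cos b
  have cD : c ∈ Y.DD n a U T₁ θ := hc ▸ ⟨Finset.union_subset_union_left ZX_sub, b, mem_AT hx hb,
    rfl, hn, h.drop hx hb⟩
  have key : ∀ {u}, u ∈ Y.DD n a U T₁ θ → b ∈ u.2 → PX Y n U θ u = PX Y n U θ x → leP u c :=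
    fun hu hb' e => by
    have := h.sub hu
    rw [e, ← c1] at this
    exact ⟨this, by rw [cos_rep hu hb', cos_rep cD cb]; exact Y.cos_subset this (Y.self_mem_cos b)⟩
  have xc := key hx hb rfl
  have e : PX Y n U θ c = PX Y n U θ x := by
    refine le_antisymm (sub_nonpos.1 ((h.next_pd x).nonpos (fun s hs => sub_nonpos.2 ?_)
      fun s hs => ?_)) (h.mono cD hx xc)
    swap
    · rw [Ax_sub, (mem_ZX.1 hs).2]
      exact sub_nonpos.2 ((h.spec cD cb).1.2.1 s (mem_ZX.1 hs).1)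
    by_cases hU : s ∈ U
    · have h' := Finset.notMem_union.2 ⟨hs, h.notMem hU⟩
      exact ((h.spec cD cb).1.2.2 s hU (c1 ▸ h')).trans (h.off hx hb h').ge
    · rw [(h.spec cD cb).1.1 s hU, (h.spec hx hb).1.1 s hU]
  refine contr_cone (fun _ _ => rP_symm) (c := c) ⟨cD, Or.inr xc, cD, hx, Or.inr ⟨e, ?_⟩⟩ ?_
  · rw [kX, kX, if_pos (by rw [e, c1]), if_neg ht]
    omega
  · rintro u ⟨hu, hl | hl, -, -, h'⟩
    · exact Or.inl (leP_trans hl xc)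
    · exact Or.inl (key hu (hl.2 hb) (le_antisymm (h'.elim le_of_lt fun h' => h'.1.le)
        (h.mono hu hx hl)))

theorem Hyp.top (h : Hyp Y n a U T₁ θ) (hx : x ∈ Y.DD n a U T₁ θ) (hb : b ∈ x.2)
    (ht : x.1 = ZX Y n U (PX Y n U θ x) ∪ T₁) :
    {u ∈ Y.DD n a U T₁ θ | rP u x ∧ lt Y n a U T₁ θ u x} =
      Y.DD n b (ZX Y n U (PX Y n U θ x)) T₁ (PX Y n U θ x) := by
  ext u
  constructor
  · rintro ⟨hu, hl, -, -, h'⟩
    have h1 : PX Y n U θ u < PX Y n U θ x :=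
      h'.resolve_right fun h' => by
        have := h'.2
        rw [kX, kX, if_pos ht] at this
        omega
    replace hl := hl.resolve_right fun hl => h1.not_ge (h.mono hu hx hl)
    obtain ⟨c, hc, hn⟩ := exists_rep hu
    refine ⟨ht ▸ hl.1, c, ht ▸ (cos_rep hx hb).subset (hl.2 hc), cos_rep hu hc, hn, ?_⟩
    by_contra! h0
    obtain ⟨h2, h3, h4⟩ := (h.spec hx (hl.2 hc)).1
    refine h1.not_ge ((h.spec hu hc).2 ⟨h2, h3, fun j hj hj' => ?_⟩)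
    by_cases hZ : j ∈ ZX Y n U (PX Y n U θ x)
    · exact h0 j hZ hj'
    · exact h4 j hj (ht ▸ Finset.notMem_union.2 ⟨hZ, h.notMem hj⟩)
  · rintro ⟨h1, c, hc, h2, hn, j, hj, hj', h3⟩
    rw [← ht] at h1 hc
    have hcx : c ∈ x.2 := (cos_rep hx hb).superset hc
    have hu : u ∈ Y.DD n a U T₁ θ := ⟨h1.trans hx.1, c, mem_AT hx hcx, h2, hn, j, ZX_sub hj, hj',
      h3.trans_le (h.le hx j)⟩
    have hl : leP u x := ⟨h1, by rw [h2, cos_rep hx hb]; exact Y.cos_subset h1 hc⟩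
    exact ⟨hu, Or.inl hl, hu, hx, Or.inl ((h.mono hx hu hl).lt_of_not_ge fun e => h3.not_ge
      ((e j).trans ((h.spec hu (h2 ▸ Y.self_mem_cos c)).1.2.2 j (ZX_sub hj) hj')))⟩

theorem Hyp.next (h : Hyp Y n a U T₁ θ) (hx : x ∈ Y.DD n a U T₁ θ) (hb : b ∈ x.2) :
    Hyp Y n b (ZX Y n U (PX Y n U θ x)) T₁ (PX Y n U θ x) :=
  ⟨h.hT.mono (Finset.union_subset_union_left ZX_sub), fun s hs => h.orth s (ZX_sub hs),
    fun _ hs => (mem_ZX.1 hs).2, fun _ hj => h.off hx hb hj⟩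

theorem Hyp.main (h : Hyp Y n a U T₁ θ) :
    Contr rP (Y.DD n a U T₁ θ) ∨ Y.DD n a U T₁ θ = ∅ := by
  induction U using Finset.strongInduction generalizing a θ with
  | H U ih =>
  refine contr_or_empty rP_refl (fun _ _ => rP_symm) h.wf (fun u hu v hv hne hl => hl.elim
    (h.tot hv hu hne) fun hl => (h.tot hu hv hne.symm hl).symm) (fun x hx => ?_)
    fun x hx y hy ex ey => ?_
  · by_cases ht : x.1 = ZX Y n U (PX Y n U θ x) ∪ T₁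
    · obtain ⟨b, hb, -⟩ := exists_rep hx
      obtain ⟨j, hj, hj', -⟩ := h.drop hx hb
      rw [h.top hx hb ht]
      exact ih _ ((Finset.ssubset_iff_of_subset ZX_sub).2
        ⟨j, hj, (Finset.notMem_union.1 hj').1⟩) (h.next hx hb)
    · exact Or.inl (h.cone hx ht)
  · have tx := by_contra fun ht => (h.cone hx ht).1.ne_empty ex
    have ty := by_contra fun ht => (h.cone hy ht).1.ne_empty ey
    obtain ⟨b, hb, nb⟩ := exists_rep hx
    obtain ⟨c, hc, nc⟩ := exists_rep hy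
    rw [h.top hx hb tx, Y.DD_eq_empty_iff] at ex
    rw [h.top hy hc ty, Y.DD_eq_empty_iff] at ey
    obtain ⟨e1, e2⟩ := Y.uniq h.hT h.orth nb nc
      (by simpa only [mul_inv_rev, inv_inv, mul_assoc, mul_inv_cancel_left] using
        mul_mem (inv_mem (mem_AT hx hb)) (mem_AT hy hc))
      ZX_sub ZX_sub (h.next hx hb).he (h.next hy hc).he (h.next hx hb).hθ (h.next hy hc).hθ
      (fun j hj hj' => ((h.spec hx hb).1.2.1 j hj).lt_of_ne fun e => hj' (mem_ZX.2 ⟨hj, e⟩))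
      (fun j hj hj' => ((h.spec hy hc).1.2.1 j hj).lt_of_ne fun e => hj' (mem_ZX.2 ⟨hj, e⟩)) ex ey
    have e3 : x.1 = y.1 := by rw [tx, e1, ← ty]
    refine Prod.ext e3 ?_
    rw [cos_rep hx hb, cos_rep hy hc, ← e3]
    rw [← tx] at e2
    exact (Y.cos_eq e2).symm

end MorseDAux

theorem Sys.contr_DD {U T₁ : Finset S} (hT : PD M (U ∪ T₁))
    (horth : ∀ s ∈ U, ∀ t ∈ T₁, cf M s t = 0) {a : G} {θ : S → ℝ}
    (hθ : ∀ s ∈ U, Ax M θ s = Y.lam n s) (he : ∀ j, j ∉ U ∪ T₁ → θ j = Y.d a n j) :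
    Contr rP (Y.DD n a U T₁ θ) ∨ Y.DD n a U T₁ θ = ∅ :=
  MorseDAux.Hyp.main ⟨hT, horth, hθ, he⟩

end Vale.Agent.P203
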