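import Vale.Agent.P203.MorseD
import Vale.Agent.P203.Apt4

namespace Vale.Agent.P203

universe u

variable {S W : Type} [Fintype S] [DecidableEq S] [Group W] {M : CoxeterMatrix S}
  {cs : CoxeterSystem M W} {G : Type u} [Group G]

namespace MorseP

open Finset

variable (Y : Sys cs G)

/-- the least degree of a point of the coset -/
noncomputable def nn (x : Finset S × Set G) : ℕ := sInf {n | ∃ b ∈ x.2, InA Y.d n b}

/-- the feasible set of a coset -/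
def FF (x : Finset S × Set G) : Set (S → ℝ) :=
  {e | (∀ j, Ax M e j ≤ Y.lam (nn Y x) j) ∧ ∀ j, j ∉ x.1 → ∀ b ∈ x.2, e j ≤ Y.d b (nn Y x) j}

open Classical in
/-- the nef part of a coset -/
noncomputable def PZ (x : Finset S × Set G) : S → ℝ :=
  if h : ∃ P, IsGreatest (FF Y x) P then h.choose else 0

def Fx (x : Finset S × Set G) : Prop :=
  ¬ (0 < nn Y x ∧ PZ Y x = 0) ∧
    ∀ j, j ∉ x.1 → ∀ b ∈ x.2, 0 < PZ Y x j → Y.d b (nn Y x) j ≤ PZ Y x j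

open Classical in
noncomputable def kk (x : Finset S × Set G) : ℕ :=
  if Fx Y x then Fintype.card S - x.1.card else Fintype.card S + 1 + x.1.card

/-- the Morse order -/
def lt (y x : Finset S × Set G) : Prop :=
  y ∈ Y.PP ∧ x ∈ Y.PP ∧ (nn Y y < nn Y x ∨ (nn Y y = nn Y x ∧
    (PZ Y y < PZ Y x ∨ (PZ Y y = PZ Y x ∧ kk Y y < kk Y x))))

open Classical in
noncomputable def UU (x : Finset S × Set G) : Finset S := x.1.filter fun j => 0 < PZ Y x j

open Classical in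
noncomputable def TT (x : Finset S × Set G) : Finset S := x.1.filter fun j => ¬ 0 < PZ Y x j

noncomputable def th (x : Finset S × Set G) (a : G) : S → ℝ :=
  fun j => if j ∈ UU Y x then PZ Y x j else Y.d a (nn Y x) j

/-- the critical vertices -/
def BB : Set (Finset S × Set G) := {x | x ∈ Y.PP ∧ Fx Y x ∧ ∀ y, leP y x → ¬ lt Y y x}

variable {Y} {x y u : Finset S × Set G} {a b b' : G} {j : S}

theorem pp_pd (hx : x ∈ Y.PP) : PD M x.1 := (pd_iff_finite cs).2 hx.1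

theorem pp_cos (hx : x ∈ Y.PP) (hb : b ∈ x.2) : x.2 = Y.cos x.1 b := by
  obtain ⟨g, hg⟩ := hx.2
  rw [hg] at hb ⊢
  exact (Y.cos_eq hb).symm

theorem pp_mk {T : Finset S} (hT : PD M T) (g : G) : (T, Y.cos T g) ∈ Y.PP :=
  ⟨(pd_iff_finite cs).1 hT, g, rfl⟩

theorem d_eq (hx : x ∈ Y.PP) (hb : b ∈ x.2) (hb' : b' ∈ x.2) (n : ℕ) (hj : j ∉ x.1) :
    Y.d b' n j = Y.d b n j := by
  rw [pp_cos hx hb] at hb'
  exact Y.d_off_AT hb' n hj

theorem exists_rep (hx : x ∈ Y.PP) : ∃ b ∈ x.2, InA Y.d (nn Y x) b := by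
  obtain ⟨g, hg⟩ := hx.2
  obtain ⟨n, hn⟩ := Y.exh g
  exact Nat.sInf_mem (s := {n | ∃ b ∈ x.2, InA Y.d n b}) ⟨n, g, hg ▸ Y.self_mem_cos g, hn⟩

theorem nn_le {n : ℕ} (hb : b ∈ x.2) (h : InA Y.d n b) : nn Y x ≤ n :=
  Nat.sInf_le ⟨b, hb, h⟩

theorem nn_anti (hy : y ∈ Y.PP) (h : leP y x) : nn Y x ≤ nn Y y := by
  obtain ⟨b, hb, h'⟩ := exists_rep hy
  exact nn_le (h.2 hb) h'

theorem le_mk {T : Finset S} (hx : x ∈ Y.PP) (hb : b ∈ x.2) (hT : x.1 ⊆ T) :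
    leP x (T, Y.cos T b) :=
  ⟨hT, by
    rw [pp_cos hx hb]
    exact Y.cos_subset hT (Y.self_mem_cos b)⟩

theorem mk_le {T : Finset S} (hx : x ∈ Y.PP) (hb : b ∈ x.2) (hT : T ⊆ x.1) :
    leP (T, Y.cos T b) x :=
  ⟨hT, by
    rw [pp_cos hx hb]
    exact Y.cos_subset hT (Y.self_mem_cos b)⟩

theorem FF_eq (hx : x ∈ Y.PP) (hb : b ∈ x.2) :
    FF Y x = Feas M univ x.1 0 (Y.d b (nn Y x)) (Y.lam (nn Y x)) := by
  ext e
  constructor
  · rintro ⟨h1, h2⟩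
    exact ⟨fun j hj => absurd (mem_univ j) hj, fun j _ => h1 j, fun j _ hj => h2 j hj b hb⟩
  · rintro ⟨-, h1, h2⟩
    refine ⟨fun j => h1 j (mem_univ j), fun j hj b' hb' => ?_⟩
    rw [d_eq hx hb hb' _ hj]
    exact h2 j (mem_univ j) hj

theorem zero_mem (x : Finset S × Set G) : (0 : S → ℝ) ∈ FF Y x :=
  ⟨fun j => by rw [Ax_zero]; exact Y.lam_nonneg _ j, fun j _ b _ => Y.d_nonneg b _ j⟩

theorem spec' (hx : x ∈ Y.PP) : IsGreatest (FF Y x) (PZ Y x) := by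
  obtain ⟨b, hb, -⟩ := exists_rep hx
  have h : ∃ P, IsGreatest (FF Y x) P := by
    have h0 := zero_mem (Y := Y) x
    rw [FF_eq hx hb] at h0 ⊢
    exact exists_greatest (by rw [inter_univ]; exact pp_pd hx) ⟨0, h0⟩
  rw [PZ, dif_pos h]
  exact h.choose_spec

theorem spec (hx : x ∈ Y.PP) (hb : b ∈ x.2) :
    IsGreatest (Feas M univ x.1 0 (Y.d b (nn Y x)) (Y.lam (nn Y x))) (PZ Y x) := by
  rw [← FF_eq hx hb]
  exact spec' hx

theorem P_nonneg (hx : x ∈ Y.PP) : 0 ≤ PZ Y x := (spec' hx).2 (zero_mem x)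

theorem P_nef (hx : x ∈ Y.PP) (j : S) : Ax M (PZ Y x) j ≤ Y.lam (nn Y x) j := (spec' hx).1.1 j

theorem P_le (hx : x ∈ Y.PP) (hb : b ∈ x.2) (hj : j ∉ x.1) : PZ Y x j ≤ Y.d b (nn Y x) j :=
  (spec' hx).1.2 j hj b hb

theorem P_eq (hx : x ∈ Y.PP) (hb : b ∈ x.2) (h : j ∈ x.1 ∨ PZ Y x j < Y.d b (nn Y x) j) :
    Ax M (PZ Y x) j = Y.lam (nn Y x) j := greatest_eq (spec hx hb) (mem_univ j) h

theorem P_pd (hx : x ∈ Y.PP) (hb : b ∈ x.2) : ∃ R : Finset S, PD M R ∧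
    ∀ j, j ∈ R ↔ j ∈ x.1 ∨ PZ Y x j < Y.d b (nn Y x) j :=
  ⟨_, greatest_pd (spec hx hb), fun j => by simp⟩

theorem le_P (hx : x ∈ Y.PP) (hb : b ∈ x.2) {e : S → ℝ} (h1 : ∀ j, Ax M e j ≤ Y.lam (nn Y x) j)
    (h2 : ∀ j, j ∉ x.1 → e j ≤ Y.d b (nn Y x) j) : e ≤ PZ Y x :=
  (spec hx hb).2 ⟨fun j hj => absurd (mem_univ j) hj, fun j _ => h1 j, fun j _ hj => h2 j hj⟩

theorem P_mono (hy : y ∈ Y.PP) (hx : x ∈ Y.PP) (h : leP y x) (hn : nn Y y = nn Y x) :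
    PZ Y y ≤ PZ Y x := by
  obtain ⟨b, hb, -⟩ := exists_rep hy
  refine le_P hx (h.2 hb) (fun j => hn ▸ P_nef hy j) fun j hj => ?_
  rw [← hn]
  exact P_le hy hb fun h' => hj (h.1 h')

theorem orth (hx : x ∈ Y.PP) {t : S} (h : Ax M (PZ Y x) j = Y.lam (nn Y x) j)
    (hj : ¬ 0 < PZ Y x j) (ht : 0 < PZ Y x t) : cf M j t = 0 := by
  have h0 := P_nonneg hx
  have hj0 : PZ Y x j = 0 := le_antisymm (not_lt.1 hj) (h0 j)
  have h1 : ∀ s ∈ (univ : Finset S), cf M j s * PZ Y x s ≤ 0 := by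
    intro s _
    by_cases hs : j = s
    · rw [← hs, hj0, mul_zero]
    · exact mul_nonpos_of_nonpos_of_nonneg (cf_nonpos hs) (h0 s)
  have h2 : ∑ s, cf M j s * PZ Y x s = 0 :=
    le_antisymm (sum_nonpos h1) (le_of_le_of_eq (Y.lam_nonneg _ j) h.symm)
  have h3 := (sum_eq_zero_iff_of_nonpos h1).1 h2 t (mem_univ t)
  exact (mul_eq_zero.1 h3).resolve_right ht.ne'

theorem drop (hx : x ∈ Y.PP) (hy : y ∈ Y.PP) (h : leP x y) (hn : nn Y y < nn Y x) :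
    (∀ b ∈ x.2, ∀ j, j ∉ y.1 → Y.d b (nn Y x) j = 0) ∧ PZ Y x = 0 := by
  obtain ⟨c, hc, hc'⟩ := exists_rep hy
  have h1 : ∀ b ∈ x.2, ∀ j, j ∉ y.1 → Y.d b (nn Y x) j = 0 := by
    intro b hb j hj
    rw [d_eq hy hc (h.2 hb) _ hj, hc' _ hn]
    rfl
  refine ⟨h1, le_antisymm ?_ (P_nonneg hx)⟩
  obtain ⟨b, hb, -⟩ := exists_rep hx
  refine (pp_pd hy).nonpos (fun s hs => ?_) fun s _ => ?_
  · rw [← h1 b hb s hs]
    exact P_le hx hb fun h' => hs (h.1 h')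
  · have := P_nef hx s
    rwa [Y.lam_zero _ (by omega)] at this

theorem kk_fix (h : kk Y y < kk Y x) (hx : Fx Y x) : Fx Y y ∧ x.1.card < y.1.card := by
  have h1 := card_le_univ x.1
  have h2 := card_le_univ y.1
  unfold kk at h
  rw [if_pos hx] at h
  split_ifs at h with hy
  · exact ⟨hy, by omega⟩
  · omega

theorem kk_nfix (h : kk Y y < kk Y x) (hy : ¬ Fx Y y) : y.1.card < x.1.card := by
  have h1 := card_le_univ x.1
  have h2 := card_le_univ y.1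
  unfold kk at h
  rw [if_neg hy] at h
  split_ifs at h with hx <;> omega

theorem kk_lt (hy : Fx Y y) (hx : ¬ Fx Y x) : kk Y y < kk Y x := by
  unfold kk
  rw [if_pos hy, if_neg hx]
  omega

theorem kk_ne (h : y.1.card < x.1.card) : kk Y y < kk Y x ∨ kk Y x < kk Y y := by
  have h1 := card_le_univ x.1
  have h2 := card_le_univ y.1
  unfold kk
  split_ifs <;> omega

theorem wf : WellFounded (lt Y) := by
  have hv : ∀ x ∈ Y.PP, PZ Y x ∈ Vals M {r | ∃ g n s, Y.d g n s = r} (Y.lam (nn Y x)) := by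
    intro x hx
    obtain ⟨b, hb, -⟩ := exists_rep hx
    exact greatest_mem_vals (spec hx hb) (fun j hj => absurd (mem_univ j) hj)
      fun j _ _ => ⟨_, _, _, rfl⟩
  have key : ∀ n P k x, nn Y x = n → PZ Y x = P → kk Y x = k → Acc (lt Y) x := by
    intro n
    induction n using Nat.strong_induction_on with
    | _ n ihn =>
      intro P
      induction P using (wf_vals (M := M) (D := {r | ∃ g n s, Y.d g n s = r}) Y.vals
        (Y.lam n)).induction with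
      | _ P ihP =>
        intro k
        induction k using Nat.strong_induction_on with
        | _ k ihk =>
          intro x hn hP hk
          refine ⟨x, fun y hy => ?_⟩
          obtain ⟨hy, hx, h | ⟨h1, h | ⟨h2, h3⟩⟩⟩ := hy
          · exact ihn _ (hn ▸ h) _ _ y rfl rfl rfl
          · refine ihP (PZ Y y) ⟨?_, ?_, hP ▸ h⟩ _ y (h1.trans hn) rfl rfl
            · rw [← hn, ← h1]; exact hv y hy
            · rw [← hn, ← hP]; exact hv x hx
          · exact ihk _ (hk ▸ h3) y (h1.trans hn) (h2.trans hP) rfl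
  exact ⟨fun x => key _ _ _ x rfl rfl rfl⟩

theorem tot_le (hy : y ∈ Y.PP) (hx : x ∈ Y.PP) (hne : y ≠ x) (h : leP y x) :
    lt Y y x ∨ lt Y x y := by
  have hc : y.1.card < x.1.card :=
    card_lt_card ⟨h.1, fun h' => hne (Y.eq_of_leP hy.2 hx.2 h (Subset.antisymm h.1 h'))⟩
  rcases (nn_anti hy h).lt_or_eq with hn | hn
  · exact Or.inr ⟨hx, hy, Or.inl hn⟩
  rcases (P_mono hy hx h hn.symm).lt_or_eq with hP | hP
  · exact Or.inl ⟨hy, hx, Or.inr ⟨hn.symm, Or.inl hP⟩⟩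
  rcases kk_ne (Y := Y) hc with hk | hk
  · exact Or.inl ⟨hy, hx, Or.inr ⟨hn.symm, Or.inr ⟨hP, hk⟩⟩⟩
  · exact Or.inr ⟨hx, hy, Or.inr ⟨hn, Or.inr ⟨hP.symm, hk⟩⟩⟩

theorem upper (h : leP x u) (hl : lt Y u x) :
    nn Y u < nn Y x ∨ (nn Y u = nn Y x ∧ PZ Y u = PZ Y x ∧ kk Y u < kk Y x) := by
  obtain ⟨hu, hx, h1 | ⟨h1, h2 | h2⟩⟩ := hl
  · exact Or.inl h1
  · exact absurd (P_mono hx hu h h1.symm) h2.not_ge
  · exact Or.inr ⟨h1, h2⟩

/-- vertices of positive degree with vanishing nef part -/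
theorem link_one (hx : x ∈ Y.PP) (hn : 0 < nn Y x) (hP : PZ Y x = 0) :
    Contr rP {u ∈ Y.PP | rP u x ∧ lt Y u x} := by
  obtain ⟨b, hb, hb'⟩ := exists_rep hx
  obtain ⟨R, hR, hR'⟩ := P_pd hx hb
  have hxR : x.1 ⊆ R := fun j hj => (hR' j).2 (Or.inl hj)
  have hc := pp_mk (Y := Y) hR b
  have hle := le_mk hx hb hxR
  obtain ⟨m, hm⟩ : ∃ m, nn Y x = m + 1 := ⟨nn Y x - 1, by omega⟩
  have hlt : nn Y (R, Y.cos R b) < nn Y x := by
    obtain ⟨a, ha, ha'⟩ := Y.kill (n := m) hR (g := b) (hm ▸ hb') fun t ht => by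
      have h1 : ¬ PZ Y x t < Y.d b (nn Y x) t := fun h => ht ((hR' t).2 (Or.inr h))
      rw [hP, hm] at h1
      exact le_antisymm (not_lt.1 h1) (Y.d_nonneg b _ t)
    have : nn Y (R, Y.cos R b) ≤ m := nn_le (b := b * a) (Y.mem_cos.2 (by simpa using ha)) ha'
    omega
  refine contr_cone (fun _ _ => rP_symm) (c := (R, Y.cos R b))
    ⟨hc, Or.inr hle, hc, hx, Or.inl hlt⟩ ?_
  rintro u ⟨hu, h | h, hl⟩
  · exact Or.inl (leP_trans h hle)
  · rcases upper h hl with h1 | ⟨h1, h2, h3⟩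
    · refine Or.inr (mk_le hu (h.2 hb) fun j hj => ?_)
      rcases (hR' j).1 hj with h2 | h2
      · exact h.1 h2
      · by_contra h3
        rw [(drop hx hu h h1).1 b hb j h3, hP] at h2
        exact lt_irrefl _ h2
    · have h4 := kk_nfix h3 fun hf => hf.1 ⟨h1 ▸ hn, h2.trans hP⟩
      exact absurd (card_le_card h.1) h4.not_ge

/-- the other vertices that are not fixed -/
theorem link_two (hx : x ∈ Y.PP) (h0 : ¬ (0 < nn Y x ∧ PZ Y x = 0)) (hf : ¬ Fx Y x) :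
    Contr rP {u ∈ Y.PP | rP u x ∧ lt Y u x} := by
  classical
  obtain ⟨b, hb, hb'⟩ := exists_rep hx
  obtain ⟨R, hR, hR'⟩ := P_pd hx hb
  obtain ⟨T, hT⟩ : ∃ T : Finset S, ∀ j, j ∈ T ↔
      j ∈ x.1 ∨ (0 < PZ Y x j ∧ PZ Y x j < Y.d b (nn Y x) j) :=
    ⟨univ.filter fun j => j ∈ x.1 ∨ (0 < PZ Y x j ∧ PZ Y x j < Y.d b (nn Y x) j), fun j => by simp⟩
  have hTR : T ⊆ R := fun j hj => (hR' j).2 (((hT j).1 hj).imp_right And.right)
  have hxT : x.1 ⊆ T := fun j hj => (hT j).2 (Or.inl hj)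
  have hc := pp_mk (Y := Y) (hR.mono hTR) b
  have hle := le_mk hx hb hxT
  have hbc : b ∈ (T, Y.cos T b).2 := Y.self_mem_cos b
  have hno : ∀ u ∈ Y.PP, leP x u → ¬ nn Y u < nn Y x := fun u hu h h1 =>
    h0 ⟨by omega, (drop hx hu h h1).2⟩
  have hn : nn Y (T, Y.cos T b) = nn Y x :=
    le_antisymm (nn_anti hx hle) (not_lt.1 (hno _ hc hle))
  have hP : PZ Y (T, Y.cos T b) = PZ Y x := by
    refine le_antisymm (sub_nonpos.1 (hR.nonpos (fun s hs => ?_) fun s hs => ?_))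
      (P_mono hx hc hle hn.symm)
    · have h1 := P_le hc hbc (j := s) fun h => hs (hTR h)
      have h2 : ¬ PZ Y x s < Y.d b (nn Y x) s := fun h => hs ((hR' s).2 (Or.inr h))
      rw [hn] at h1
      rw [Pi.sub_apply]
      linarith [not_lt.1 h2]
    · have h1 := P_nef hc s
      rw [hn] at h1
      rw [Ax_sub, P_eq hx hb ((hR' s).1 hs)]
      linarith
  have hfc : Fx Y (T, Y.cos T b) := by
    refine ⟨by rw [hn, hP]; exact h0, fun j hj b' hb'' hj' => ?_⟩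
    rw [d_eq hc hbc hb'' _ hj, hn, hP]
    rw [hP] at hj'
    exact not_lt.1 fun h => hj ((hT j).2 (Or.inr ⟨hj', h⟩))
  refine contr_cone (fun _ _ => rP_symm) (c := (T, Y.cos T b))
    ⟨hc, Or.inr hle, hc, hx, Or.inr ⟨hn, Or.inr ⟨hP, kk_lt hfc hf⟩⟩⟩ ?_
  rintro u ⟨hu, h | h, hl⟩
  · exact Or.inl (leP_trans h hle)
  · rcases upper h hl with h1 | ⟨h1, h2, h3⟩
    · exact absurd h1 (hno u hu h)
    · have hfu : Fx Y u := by
        by_contra hfu
        exact absurd (card_le_card h.1) (kk_nfix h3 hfu).not_ge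
      refine Or.inr (mk_le hu (h.2 hb) fun j hj => ?_)
      rcases (hT j).1 hj with h4 | ⟨h4, h5⟩
      · exact h.1 h4
      · by_contra h6
        have h7 := hfu.2 j h6 b (h.2 hb) (h2 ▸ h4)
        rw [h1, h2] at h7
        exact absurd h5 h7.not_gt

theorem mem_UU : j ∈ UU Y x ↔ j ∈ x.1 ∧ 0 < PZ Y x j := by simp [UU]

theorem mem_TT : j ∈ TT Y x ↔ j ∈ x.1 ∧ ¬ 0 < PZ Y x j := by simp [TT]

theorem UU_union_TT : UU Y x ∪ TT Y x = x.1 := by
  ext j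
  rw [mem_union, mem_UU, mem_TT]
  tauto

theorem th_pos (h : j ∈ UU Y x) : th Y x a j = PZ Y x j := if_pos h

theorem th_neg (h : j ∉ UU Y x) : th Y x a j = Y.d a (nn Y x) j := if_neg h

theorem UU_orth (hx : x ∈ Y.PP) : ∀ s ∈ UU Y x, ∀ t ∈ TT Y x, cf M s t = 0 := by
  intro s hs t ht
  obtain ⟨b, hb, -⟩ := exists_rep hx
  rw [cf_symm]
  exact orth hx (P_eq hx hb (Or.inl (mem_TT.1 ht).1)) (mem_TT.1 ht).2 (mem_UU.1 hs).2

theorem th_eq (hx : x ∈ Y.PP) (hf : Fx Y x) (ha : a ∈ x.2) :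
    ∀ s ∈ UU Y x, Ax M (th Y x a) s = Y.lam (nn Y x) s := by
  intro s hs
  rw [← P_eq hx ha (Or.inl (mem_UU.1 hs).1)]
  refine Ax_congr fun t ht => ?_
  by_cases h1 : t ∈ UU Y x
  · exact th_pos h1
  rw [th_neg h1]
  by_cases h2 : t ∈ x.1
  · exact absurd (UU_orth hx s hs t (mem_TT.2 ⟨h2, fun h => h1 (mem_UU.2 ⟨h2, h⟩)⟩)) ht
  refine le_antisymm (not_lt.1 fun h3 => ?_) (P_le hx ha h2)
  by_cases h4 : 0 < PZ Y x t
  · exact absurd h3 (hf.2 t h2 a ha h4).not_gt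
  · apply ht
    rw [cf_symm]
    exact orth hx (P_eq hx ha (Or.inr h3)) h4 (mem_UU.1 hs).2

theorem lower_eq (hx : x ∈ Y.PP) (hf : Fx Y x) (ha : a ∈ x.2) :
    Y.DD (nn Y x) a (UU Y x) (TT Y x) (th Y x a) = {y | leP y x ∧ lt Y y x} := by
  ext y
  constructor
  · rintro ⟨h1, b, h2, h3, h4, j, hj, hj', h5⟩
    rw [UU_union_TT] at h1 h2
    have hy : y ∈ Y.PP := ⟨finite_par_mono cs h1 hx.1, b, h3⟩
    have hby : b ∈ y.2 := h3 ▸ Y.self_mem_cos b
    have hle : leP y x := ⟨h1, by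
      rw [h3, pp_cos hx ha]
      exact Y.cos_subset h1 h2⟩
    have hn : nn Y y = nn Y x := le_antisymm (nn_le hby h4) (nn_anti hy hle)
    refine ⟨hle, hy, hx, Or.inr ⟨hn, Or.inl (lt_of_le_of_ne (P_mono hy hx hle hn) fun h => ?_)⟩⟩
    have h6 := P_le hy hby hj'
    rw [th_pos hj] at h5
    rw [h, hn] at h6
    exact absurd h5 h6.not_gt
  · rintro ⟨hle, hy, -, h1 | ⟨h1, h2 | ⟨-, h2⟩⟩⟩
    · exact absurd (nn_anti hy hle) h1.not_ge
    · obtain ⟨b, hb, hb'⟩ := exists_rep hy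
      have hbx := hle.2 hb
      refine ⟨by rw [UU_union_TT]; exact hle.1, b, ?_, pp_cos hy hb, h1 ▸ hb', ?_⟩
      · rw [UU_union_TT]
        rw [pp_cos hx ha] at hbx
        exact hbx
      · by_contra hcon
        push Not at hcon
        refine h2.not_ge (le_P hy hb (fun j => h1 ▸ P_nef hx j) fun j hj => ?_)
        rw [h1]
        by_cases h3 : j ∈ x.1
        · by_cases h4 : 0 < PZ Y x j
          · have h5 := hcon j (mem_UU.2 ⟨h3, h4⟩) hj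
            rwa [th_pos (mem_UU.2 ⟨h3, h4⟩)] at h5
          · exact (not_lt.1 h4).trans (Y.d_nonneg b _ j)
        · exact P_le hx hbx h3
    · exact absurd (card_le_card hle.1) (kk_fix h2 hf).2.not_ge

theorem mem_BB_iff (hx : x ∈ Y.PP) (hf : Fx Y x) (ha : a ∈ x.2) :
    x ∈ BB Y ↔ Y.DD (nn Y x) a (UU Y x) (TT Y x) (th Y x a) = ∅ := by
  rw [lower_eq hx hf ha, Set.eq_empty_iff_forall_notMem]
  exact ⟨fun h y hy => h.2.2 y hy.1 hy.2, fun h => ⟨hx, hf, fun y h1 h2 => h y ⟨h1, h2⟩⟩⟩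

theorem link_three (hx : x ∈ Y.PP) (hf : Fx Y x) (hB : x ∉ BB Y) :
    Contr rP {u ∈ Y.PP | rP u x ∧ lt Y u x} := by
  obtain ⟨a, ha, -⟩ := exists_rep hx
  have h1 := (Y.contr_DD (n := nn Y x) (a := a) (θ := th Y x a)
    (by rw [UU_union_TT]; exact pp_pd hx) (UU_orth hx) (th_eq hx hf ha)
    fun j hj => th_neg fun h => hj (mem_union_left _ h)).resolve_right
      fun h => hB ((mem_BB_iff hx hf ha).2 h)
  rw [lower_eq hx hf ha] at h1
  have h2 := contr_join (B := {y | leP x y ∧ lt Y y x}) rP_refl (fun _ _ => rP_symm) h1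
    fun y hy z hz => Or.inl (leP_trans hy.1 hz.1)
  have h3 : {u ∈ Y.PP | rP u x ∧ lt Y u x} =
      {y | leP y x ∧ lt Y y x} ∪ {y | leP x y ∧ lt Y y x} := by
    ext u
    constructor
    · rintro ⟨-, h | h, hl⟩
      · exact Or.inl ⟨h, hl⟩
      · exact Or.inr ⟨h, hl⟩
    · rintro (⟨h, hl⟩ | ⟨h, hl⟩)
      · exact ⟨hl.1, Or.inl h, hl⟩
      · exact ⟨hl.1, Or.inr h, hl⟩
  rwa [h3]

theorem closed (hx : x ∈ BB Y) (hu : u ∈ Y.PP) (h : rP u x) (hl : lt Y u x) : u ∈ BB Y := by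
  obtain ⟨hxP, hf, hB⟩ := id hx
  have hle : leP x u := h.resolve_left fun h => hB u h hl
  rcases upper hle hl with h1 | ⟨h1, h2, h3⟩
  · exact absurd ⟨by omega, (drop hxP hu hle h1).2⟩ hf.1
  have hfu := (kk_fix h3 hf).1
  obtain ⟨a, ha, ha'⟩ := exists_rep hxP
  have hau := hle.2 ha
  have hq := Y.DD_eq_empty_iff.1 ((mem_BB_iff hxP hf ha).1 hx)
  have hsub : UU Y x ⊆ UU Y u := fun j hj =>
    mem_UU.2 ⟨hle.1 (mem_UU.1 hj).1, h2 ▸ (mem_UU.1 hj).2⟩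
  rw [mem_BB_iff hu hfu hau, Y.DD_eq_empty_iff]
  refine Y.quiet_ext (by rw [UU_union_TT]; exact pp_pd hu) (UU_orth hu) hsub (h1 ▸ ha')
    (th_eq hu hfu hau) (fun j hj => ?_) fun b hb hb' j hj => ?_
  · by_cases h4 : j ∈ UU Y u
    · have h5 : 0 < PZ Y x j := h2 ▸ (mem_UU.1 h4).2
      have h6 : j ∉ x.1 := fun h => hj (mem_union_left _ (mem_UU.2 ⟨h, h5⟩))
      rw [th_pos h4, h1, h2]
      exact le_antisymm (P_le hxP ha h6) (hf.2 j h6 a ha h5)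
    · exact th_neg h4
  · have h4 := hq b (Y.AT_mono subset_union_left hb) (h1 ▸ hb') j hj
    rw [th_pos hj] at h4
    rw [th_pos (hsub hj), h1, h2]
    exact h4

theorem base_nn : nn Y (∅, Y.cos ∅ 1) = 0 :=
  Nat.le_zero.1 (nn_le (Y.self_mem_cos 1) fun m _ => Y.d_one m)

theorem base_P : PZ Y (∅, Y.cos ∅ 1) = 0 := by
  have hx := pp_mk (Y := Y) pd_empty 1
  refine le_antisymm (fun j => ?_) (P_nonneg hx)
  have := P_le hx (Y.self_mem_cos 1) (j := j) (notMem_empty j)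
  rwa [Y.d_one] at this

theorem eq_base (hy : y ∈ Y.PP) (h : leP y (∅, Y.cos ∅ 1)) : y = (∅, Y.cos ∅ 1) :=
  Y.eq_of_leP hy.2 ⟨1, rfl⟩ h (subset_empty.1 h.1)

theorem base_mem : (∅, Y.cos ∅ 1) ∈ BB Y := by
  refine ⟨pp_mk pd_empty 1, ⟨fun h => ?_, fun j _ b _ h => ?_⟩, fun y hy hl => ?_⟩
  · rw [base_nn] at h
    exact lt_irrefl _ h.1
  · rw [base_P] at h
    exact absurd h (lt_irrefl _)
  · rw [eq_base hl.1 hy] at hl
    exact wf.irrefl.irrefl _ hl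

theorem base_iso (hx : x ∈ BB Y) (h : rP x (∅, Y.cos ∅ 1)) : x = (∅, Y.cos ∅ 1) := by
  rcases h with h | h
  · exact eq_base hx.1 h
  by_contra hne
  rcases tot_le (pp_mk pd_empty 1) hx.1 (Ne.symm hne) h with hl | hl
  · exact hx.2.2 _ h hl
  rcases upper h hl with h1 | ⟨h1, h2, h3⟩
  · rw [base_nn] at h1
    exact Nat.not_lt_zero _ h1
  obtain ⟨j, hj⟩ := card_pos.1 (lt_of_le_of_lt (Nat.zero_le _) (kk_fix h3 base_mem.2.1).2)
  obtain ⟨b, hb, -⟩ := exists_rep hx.1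
  have h4 := P_eq hx.1 hb (Or.inl hj)
  rw [h1, h2, base_nn, base_P, Ax_zero] at h4
  exact absurd h4 (Y.lam_pos j).ne

end MorseP

theorem Art.PP_connected (A : Art cs G) : ∀ v ∈ A.PP,
    Relation.ReflTransGen (fun x y => x ∈ A.PP ∧ y ∈ A.PP ∧ rP x y) (∅, A.cos ∅ 1) v := by
  have hmk : ∀ (T : Finset S) (g : G), PD M T → (T, A.cos T g) ∈ A.PP :=
    fun T g hT => ⟨(pd_iff_finite cs).1 hT, g, rfl⟩
  have hle : ∀ (T : Finset S) (g b : G), b ∈ A.cos T g → leP (∅, A.cos ∅ b) (T, A.cos T g) :=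
    fun T g b hb => ⟨Finset.empty_subset T, A.cos_subset (Finset.empty_subset T) hb⟩
  have step : ∀ (g a : G) (s : S), a ∈ AT A.σ {s} →
      Relation.ReflTransGen (fun x y => x ∈ A.PP ∧ y ∈ A.PP ∧ rP x y) (∅, A.cos ∅ 1)
        (∅, A.cos ∅ g) →
      Relation.ReflTransGen (fun x y => x ∈ A.PP ∧ y ∈ A.PP ∧ rP x y) (∅, A.cos ∅ 1)
        (∅, A.cos ∅ (g * a)) := by
    intro g a s ha h
    have h1 : g * a ∈ A.cos {s} g := by
      rw [A.mem_cos, inv_mul_cancel_left]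
      exact ha
    have h2 : rP (∅, A.cos ∅ g) ({s}, A.cos {s} g) := Or.inl (hle {s} g g (A.self_mem_cos g))
    have h3 : rP ({s}, A.cos {s} g) (∅, A.cos ∅ (g * a)) := Or.inr (hle {s} g (g * a) h1)
    have h4 := hmk ∅ g pd_empty
    have h5 := hmk {s} g (pd_singleton s)
    have h6 := hmk ∅ (g * a) pd_empty
    exact (h.tail (And.intro h4 (And.intro h5 h2))).tail (And.intro h5 (And.intro h6 h3))
  have key : ∀ g : G, Relation.ReflTransGen (fun x y => x ∈ A.PP ∧ y ∈ A.PP ∧ rP x y)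
      (∅, A.cos ∅ 1) (∅, A.cos ∅ g) := by
    intro g
    have hg : g ∈ Subgroup.closure (Set.range A.σ) := A.gen ▸ Subgroup.mem_top g
    induction hg using Subgroup.closure_induction_right with
    | one => exact Relation.ReflTransGen.refl
    | mul_right x _ y hy ih =>
      obtain ⟨s, rfl⟩ := hy
      exact step x _ s (A.σ_mem_AT (Finset.mem_singleton_self s)) ih
    | mul_inv_cancel x _ y hy ih =>
      obtain ⟨s, rfl⟩ := hy
      exact step x _ s (inv_mem (A.σ_mem_AT (Finset.mem_singleton_self s))) ih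
  rintro ⟨T, C⟩ hv
  obtain ⟨g, hg⟩ := hv.2
  refine (key g).tail ⟨hmk _ _ pd_empty, hv, Or.inl ?_⟩
  simp only at hg
  rw [hg]
  exact hle _ _ _ (A.self_mem_cos g)

theorem Sys.contr_PP (Y : Sys cs G) : Contr rP Y.PP := by
  have h : DR rP (MorseP.BB Y) Y.PP := by
    refine morse rP_refl (fun _ _ => rP_symm) (MorseP.wf (Y := Y)) (fun x hx => hx.1)
      (fun u hu v hv hne h => ?_) (fun v hv u hu h hl => MorseP.closed hv hu h hl)
      fun v hv hB => ?_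
    · rcases h with h | h
      · exact MorseP.tot_le hu hv hne h
      · exact (MorseP.tot_le hv hu hne.symm h).symm
    · by_cases hf : MorseP.Fx Y v
      · exact MorseP.link_three hv hf hB
      by_cases h0 : 0 < MorseP.nn Y v ∧ MorseP.PZ Y v = 0
      · exact MorseP.link_one hv h0.1 h0.2
      · exact MorseP.link_two hv h0 hf
  exact h.contr_of_isolated rP_refl (fun _ _ => rP_symm) MorseP.base_mem
    (fun b hb h => MorseP.base_iso hb h) Y.PP_connected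

end Vale.Agent.P203
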