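import Vale.Agent.P203.ArtBasic

namespace Vale.Agent.P203

universe u

variable {S W : Type} [Fintype S] [DecidableEq S] [Group W] {M : CoxeterMatrix S}
  {cs : CoxeterSystem M W} {G : Type u} [Group G] (A : Art cs G)

theorem Art.leS_iff {x y : G × Finset S} :
    A.leS x y ↔ x.2 ⊆ y.2 ∧ ∃ w ∈ par cs y.2, IsMinRep cs x.2 w ∧ x.1 = y.1 * A.L w := by
  constructor
  · rintro ⟨⟨h1, h2, h3⟩, h4⟩
    exact ⟨h1, _, h2, h3, h4⟩
  · rintro ⟨h1, w, h2, h3, h4⟩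
    have e : (A.pr y.1)⁻¹ * A.pr x.1 = w := by rw [h4, map_mul, A.pr_L, inv_mul_cancel_left]
    refine ⟨⟨h1, ?_, ?_⟩, ?_⟩
    · exact e ▸ h2
    · exact e ▸ h3
    · rw [e, h4]

theorem Art.leS_refl (x : G × Finset S) : A.leS x x :=
  A.leS_iff.2 ⟨subset_rfl, 1, one_mem _, fun u _ => by simp, by rw [A.L_one, mul_one]⟩

theorem Art.leS_trans {x y z : G × Finset S} (h : A.leS x y) (h' : A.leS y z) : A.leS x z := by
  obtain ⟨h1, w, h2, h3, h4⟩ := A.leS_iff.1 h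
  obtain ⟨k1, v, k2, k3, k4⟩ := A.leS_iff.1 h'
  exact A.leS_iff.2 ⟨h1.trans k1, v * w, mul_mem k2 (par_mono cs k1 h2), k3.mul cs h1 h2 h3, by
    rw [A.L_mul (k3.length_mul cs h2), h4, k4, mul_assoc]⟩

theorem Art.rS_refl (x : G × Finset S) : A.rS x x := Or.inl (A.leS_refl x)

theorem Art.rS_symm {x y : G × Finset S} (h : A.rS x y) : A.rS y x := Or.symm h

theorem Art.eq_of_leS {x y : G × Finset S} (h : A.leS x y) (h2 : x.2 = y.2) : x = y := by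
  obtain ⟨-, w, h3, h4, h5⟩ := A.leS_iff.1 h
  rw [h4.eq_one cs (h2 ▸ h3), A.L_one, mul_one] at h5
  exact Prod.ext h5 h2

theorem Art.leS_mul (g : G) {x y : G × Finset S} :
    A.leS (g * x.1, x.2) (g * y.1, y.2) ↔ A.leS x y := by
  simp only [A.leS_iff, mul_assoc, mul_right_inj]

theorem Art.leP_of_leS {x y : G × Finset S} (h : A.leS x y) :
    leP (x.2, A.cos x.2 x.1) (y.2, A.cos y.2 y.1) := by
  obtain ⟨h1, w, h2, -, h4⟩ := A.leS_iff.1 h
  refine ⟨h1, A.cos_subset h1 (A.mem_cos.2 ?_)⟩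
  rw [h4, inv_mul_cancel_left]
  exact A.L_mem_AT h2

theorem Art.finite_nbhd {y : G × Finset S} (hy : y ∈ SS cs G) :
    {x ∈ SS cs G | A.rS x y}.Finite := by
  have hF : (⋃ T ∈ {T : Finset S | Finite (par cs T)}, (par cs T : Set W)).Finite :=
    (Set.toFinite _).biUnion fun T hT => Set.finite_coe_iff.1 hT
  have hP := hF.prod (Set.finite_univ (α := Finset S))
  refine ((hP.image fun p => (y.1 * A.L p.1, p.2)).union
    (hP.image fun p => (y.1 * (A.L p.1)⁻¹, p.2))).subset ?_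
  rintro x ⟨hx, h | h⟩
  · obtain ⟨-, w, h2, -, h4⟩ := A.leS_iff.1 h
    exact Or.inl ⟨(w, x.2), ⟨Set.mem_biUnion hy h2, trivial⟩, Prod.ext h4.symm rfl⟩
  · obtain ⟨-, w, h2, -, h4⟩ := A.leS_iff.1 h
    exact Or.inr ⟨(w, x.2), ⟨Set.mem_biUnion hx h2, trivial⟩,
      Prod.ext (mul_inv_eq_of_eq_mul h4) rfl⟩

theorem Art.rS_of_lifts {x x' y : G × Finset S} (hx : A.rS x y) (hx' : A.rS x' y)
    (h : SalLE cs (A.pr x.1, x.2) (A.pr x'.1, x'.2)) : A.leS x x' := by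
  obtain ⟨h1, h2, h3⟩ := h
  rcases hx with hx | hx <;> rcases hx' with hx' | hx'
  · obtain ⟨-, w, -, -, k4⟩ := A.leS_iff.1 hx
    obtain ⟨-, v, -, l3, l4⟩ := A.leS_iff.1 hx'
    refine ⟨⟨h1, h2, h3⟩, ?_⟩
    have e : w = v * ((A.pr x'.1)⁻¹ * A.pr x.1) := by
      rw [k4, l4, map_mul, map_mul, A.pr_L, A.pr_L]
      group
    have e' := A.L_mul (l3.length_mul cs h2)
    rw [← e] at e'
    exact k4.trans (by rw [e', ← mul_assoc, ← l4])
  · exact A.leS_trans hx hx'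
  · have k1 := (A.leS_iff.1 hx).1
    have l1 := (A.leS_iff.1 hx').1
    rw [← A.eq_of_leS hx (k1.antisymm (h1.trans l1)), A.eq_of_leS hx' (l1.antisymm (k1.trans h1))]
    exact A.leS_refl y
  · obtain ⟨-, w, k2, -, k4⟩ := A.leS_iff.1 hx
    obtain ⟨-, v, -, -, l4⟩ := A.leS_iff.1 hx'
    refine ⟨⟨h1, h2, h3⟩, ?_⟩
    have e : v = (A.pr x'.1)⁻¹ * A.pr x.1 * w := by
      have := congrArg A.pr (k4.symm.trans l4)
      rw [map_mul, map_mul, A.pr_L, A.pr_L] at this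
      rw [mul_assoc, this, inv_mul_cancel_left]
    have e' := A.L_mul (h3.length_mul cs k2)
    rw [← e] at e'
    rw [e', k4, ← mul_assoc] at l4
    exact mul_right_cancel l4

theorem Art.existsUnique_lift (y : G × Finset S) {v : W × Finset S}
    (h : SalLE cs v (A.pr y.1, y.2) ∨ SalLE cs (A.pr y.1, y.2) v) :
    ∃! x : G × Finset S, (A.pr x.1, x.2) = v ∧ A.rS x y := by
  refine existsUnique_of_exists_of_unique ?_ fun x x' hx hx' => ?_
  · rcases h with h | h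
    · have e : A.pr (y.1 * A.L ((A.pr y.1)⁻¹ * v.1)) = v.1 := by
        rw [map_mul, A.pr_L, mul_inv_cancel_left]
      exact ⟨(y.1 * A.L ((A.pr y.1)⁻¹ * v.1), v.2), Prod.ext e rfl,
        Or.inl (A.leS_iff.2 ⟨h.1, _, h.2.1, h.2.2, rfl⟩)⟩
    · have e : A.pr (y.1 * (A.L (v.1⁻¹ * A.pr y.1))⁻¹) = v.1 := by
        rw [map_mul, map_inv, A.pr_L]
        group
      exact ⟨(y.1 * (A.L (v.1⁻¹ * A.pr y.1))⁻¹, v.2), Prod.ext e rfl,
        Or.inr (A.leS_iff.2 ⟨h.1, _, h.2.1, h.2.2, by rw [inv_mul_cancel_right]⟩)⟩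
  · have e := hx.1.trans hx'.1.symm
    exact A.eq_of_leS (A.rS_of_lifts hx.2 hx'.2 (e ▸ (A.leS_refl x).1)) (Prod.ext_iff.1 e).2

end Vale.Agent.P203
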