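import Vale.Agent.P203.CoxDefs
import Vale.Agent.P203.TopDefs

namespace Vale.Agent.P203

open Set

universe u

variable {S W : Type} [Fintype S] [DecidableEq S] [Group W] {M : CoxeterMatrix S}

/-- A group generated by elements satisfying the braid relations, mapping to `W` and to `ℤ`. -/
structure Art (cs : CoxeterSystem M W) (G : Type u) [Group G] where
  σ : S → G
  braid : Braid M σ
  gen : Subgroup.closure (Set.range σ) = ⊤
  pr : G →* W
  pr_σ : ∀ s, pr (σ s) = cs.simple s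
  len : G → ℤ
  len_mul : ∀ g h, len (g * h) = len g + len h
  len_σ : ∀ s, len (σ s) = 1

/-- The cohomology vanishes above degree `n`. -/
def InA {G : Type u} (d : G → ℕ → S → ℝ) (n : ℕ) (g : G) : Prop := ∀ m, n < m → d g m = 0

/-- The numerical shadow of the action on the derived category: `d g n` is the weighted dimension
vector of the `n`-th cohomology of the object attached to `g`, `lam n` the frozen part, and
`Q g n` the set of dimension vectors (with frozen part) of its quotient modules. -/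
structure Sys (cs : CoxeterSystem M W) (G : Type u) [Group G] extends Art cs G where
  d : G → ℕ → S → ℝ
  lam : ℕ → S → ℝ
  Q : G → ℕ → Set ((S → ℝ) × (S → ℝ))
  lam_pos : ∀ s, 0 < lam 0 s
  lam_zero : ∀ n, 0 < n → lam n = 0
  d_one : ∀ n, d 1 n = 0
  d_off : ∀ g s n t, t ≠ s → d (g * σ s) n t = d g n t
  down : ∀ g s n, InA d n g → InA d n (g * σ s)
  exh : ∀ g, ∃ n, InA d n g
  vals : ∀ R : ℝ, {x : ℝ | (∃ g n s, d g n s = x) ∧ x ≤ R}.Finite
  Q_top : ∀ g n, (d g n, lam n) ∈ Q g n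
  Q_le : ∀ g n e μ, (e, μ) ∈ Q g n → 0 ≤ e ∧ e ≤ d g n
  Q_fin : ∀ g n, (Q g n).Finite
  I1 : ∀ g s n e μ, InA d n g → (e, μ) ∈ Q g n → ∃ e', (e', μ) ∈ Q (g * σ s) n ∧
    (∀ t, t ≠ s → e' t = e t) ∧ e s - Ax M e s + μ s ≤ e' s
  I2 : ∀ g s n e' μ, InA d n g → (e', μ) ∈ Q (g * σ s) n → ∃ e, (e, μ) ∈ Q g n ∧
    (∀ t, t ≠ s → e t = e' t) ∧ e s ≤ e' s - Ax M e' s + μ s
  I3 : ∀ g s n, InA d n g → Q (g * σ s) n ⊆ Q (g * σ s * σ s) n
  J1 : ∀ g s n, InA d n g → ¬ InA d n (g * (σ s)⁻¹) →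
    ∃ c : ℝ, 0 < c ∧ ((Pi.single s c : S → ℝ), (0 : S → ℝ)) ∈ Q g n
  J3 : ∀ g n (U : Finset S) e, InA d n g → PD M U → (e, (0 : S → ℝ)) ∈ Q g n →
    (∀ t, t ∉ U → e t = 0) → e ≠ 0 → ∃ s ∈ U, ¬ InA d n (g * (σ s)⁻¹)
  I5 : ∀ g n (T : Finset S) (φ : S → ℝ), PD M T →
    (∀ e, (e, lam n) ∈ Q g n → (∀ t, t ∉ T → e t = d g n t) →
      ∑ t, φ t * e t = ∑ t, φ t * d g n t) →
    ∀ e, (e, lam n) ∈ Q g n → (∀ t, t ∉ T → e t = d g n t) → ∀ t, φ t ≠ 0 → e t = d g n t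

variable {cs : CoxeterSystem M W} {G : Type u} [Group G]

/-- The lift of `W`. -/
noncomputable abbrev Art.L (A : Art cs G) (w : W) : G := Lf cs A.σ w

/-- The coset `g A_T`. -/
def Art.cos (A : Art cs G) (T : Finset S) (g : G) : Set G := {b | g⁻¹ * b ∈ AT A.σ T}

/-- The vertices of the Deligne poset: cosets of spherical parabolic subgroups. -/
def Art.PP (A : Art cs G) : Set (Finset S × Set G) :=
  {x | Finite (par cs x.1) ∧ ∃ g, x.2 = A.cos x.1 g}

/-- The order of the Deligne poset. -/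
def leP (x y : Finset S × Set G) : Prop := x.1 ⊆ y.1 ∧ x.2 ⊆ y.2

/-- Comparability in the Deligne poset. -/
def rP (x y : Finset S × Set G) : Prop := leP x y ∨ leP y x

/-- The order of the covering Salvetti poset. -/
def Art.leS (A : Art cs G) (x y : G × Finset S) : Prop :=
  SalLE cs (A.pr x.1, x.2) (A.pr y.1, y.2) ∧ x.1 = y.1 * A.L ((A.pr y.1)⁻¹ * A.pr x.1)

/-- Comparability in the covering Salvetti poset. -/
def Art.rS (A : Art cs G) (x y : G × Finset S) : Prop := A.leS x y ∨ A.leS y x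

/-- The vertices of the covering Salvetti poset. -/
def SS (cs : CoxeterSystem M W) (G : Type u) : Set (G × Finset S) := {x | Finite (par cs x.2)}

/-- The lcm property of the positive cones of spherical type. -/
def Art.Lcm (A : Art cs G) : Prop :=
  ∀ (T U : Finset S) (v : G), Finite (par cs T) → U ⊆ T →
    (∀ s ∈ U, v * (A.σ s)⁻¹ ∈ Pos A.σ T) → v ∈ Pos A.σ T → ∀ w ∈ par cs U, v * (A.L w)⁻¹ ∈ Pos A.σ T

/-- On the part of the coset `a A_T` of degree at most `n`, `d` dominates `P` on `Z`. -/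
def Sys.Quiet (Y : Sys cs G) (n : ℕ) (a : G) (T Z : Finset S) (P : S → ℝ) : Prop :=
  ∀ b, a⁻¹ * b ∈ AT Y.σ T → InA Y.d n b → ∀ j ∈ Z, P j ≤ Y.d b n j

/-- The faces of the coset `a A_{U ∪ T₁}` on which `d` drops below `θ`. -/
def Sys.DD (Y : Sys cs G) (n : ℕ) (a : G) (U T₁ : Finset S) (θ : S → ℝ) :
    Set (Finset S × Set G) :=
  {x | x.1 ⊆ U ∪ T₁ ∧ ∃ b, a⁻¹ * b ∈ AT Y.σ (U ∪ T₁) ∧ x.2 = Y.cos x.1 b ∧ InA Y.d n b ∧
    ∃ j ∈ U, j ∉ x.1 ∧ Y.d b n j < θ j}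

/-- The quotients of the top cohomology whose kernel is supported in `T`. -/
def Sys.QT (Y : Sys cs G) (n : ℕ) (T : Finset S) (K : G) : Set (S → ℝ) :=
  {e | (e, Y.lam n) ∈ Y.Q K n ∧ ∀ t, t ∉ T → e t = Y.d K n t}

/-- The convex function on the apartment below `K`. -/
noncomputable def Sys.hh (Y : Sys cs G) (n : ℕ) (T : Finset S) (θ : S → ℝ) (K : G)
    (x : S → ℝ) : ℝ :=
  sSup ((fun e => Bf M x (e - θ)) '' Y.QT n T K)

/-- `θ` is the centre of the residue of type `T` through `K`. -/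
def Sys.IsTheta (Y : Sys cs G) (n : ℕ) (T : Finset S) (K : G) (θ : S → ℝ) : Prop :=
  (∀ s ∈ T, Ax M θ s = Y.lam n s) ∧ ∀ t, t ∉ T → θ t = Y.d K n t

end Vale.Agent.P203
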