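import Vale.Agent.P203.CoxMats

namespace Vale.Agent.P203

open Finset

variable {S : Type} [Fintype S] [DecidableEq S] {M : CoxeterMatrix S} {I : Type} [Fintype I]
  [DecidableEq I]

namespace UnfBraid

/-- the unfolded Coxeter matrix -/
def mat (U : Unf M I) : CoxeterMatrix I where
  M := Matrix.of fun i j =>
    if i = j then 1 else if U.n i j = 0 then 2 else if U.n i j = 1 then 3 else 0
  isSymm := Matrix.IsSymm.ext fun i j => by simp only [Matrix.of_apply, U.symm j i, eq_comm]
  diagonal i := by simp
  off_diagonal i j h := by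
    simp only [Matrix.of_apply, if_neg h]
    split_ifs <;> simp

theorem mat_apply (U : Unf M I) {i j : I} (h : i ≠ j) :
    mat U i j = if U.n i j = 0 then 2 else if U.n i j = 1 then 3 else 0 := if_neg h

theorem cf_mat (U : Unf M I) {i j : I} (h : i ≠ j) : cf (mat U) i j = -(U.n i j : ℝ) := by
  have h2 := U.le_two i j
  rw [cf, mat_apply U h]
  split_ifs with h0 h1
  · simp [h0]
  · rw [h1, Nat.cast_ofNat, Real.cos_pi_div_three]
    norm_num
  · rw [show U.n i j = 2 by omega]
    simp

theorem braid_mat (U : Unf M I) {G : Type*} [Monoid G] (τ : I → G)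
    (hc : ∀ i j, U.n i j = 0 → τ i * τ j = τ j * τ i)
    (hb : ∀ i j, U.n i j = 1 → τ i * τ j * τ i = τ j * τ i * τ j) : Braid (mat U) τ := by
  intro i j
  by_cases h : i = j
  · rw [h]
  rw [CoxeterSystem.braidWord, CoxeterSystem.braidWord, (mat U).symmetric j i, mat_apply U h]
  split_ifs with h0 h1
  · simpa [CoxeterSystem.alternatingWord] using hc i j h0
  · simpa [CoxeterSystem.alternatingWord, mul_assoc] using (hb i j h1).symm
  · rfl

/-- the folding map -/
def fold (U : Unf M I) : (I → ℝ) →ₗ[ℝ] (S → ℝ) where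
  toFun x s := ∑ i ∈ univ.filter (U.ty · = s), U.ε i * x i
  map_add' x y := funext fun s => by simp [mul_add, sum_add_distrib]
  map_smul' c x := funext fun s => by
    simp only [Pi.smul_apply, smul_eq_mul, RingHom.id_apply, mul_sum]
    exact sum_congr rfl fun i _ => by ring

theorem fold_apply (U : Unf M I) (x : I → ℝ) (s : S) :
    fold U x s = ∑ i ∈ univ.filter (U.ty · = s), U.ε i * x i := rfl

theorem fold_nonpos (U : Unf M I) {x : I → ℝ} (h : x ≤ 0) : fold U x ≤ 0 :=
  fun _ => sum_nonpos fun i _ => mul_nonpos_of_nonneg_of_nonpos (U.pos i).le (h i)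

theorem fold_single (U : Unf M I) (i : I) :
    fold U (Pi.single i 1) = U.ε i • (Pi.single (U.ty i) 1 : S → ℝ) := by
  funext s
  simp [fold_apply, Pi.single_apply, eq_comm]

theorem Ax_fold (U : Unf M I) (x : I → ℝ) (s : S) :
    Ax M (fold U x) s = ∑ i ∈ univ.filter (U.ty · = s), U.ε i * Ax (mat U) x i := by
  have key : ∀ j, ∑ i ∈ univ.filter (U.ty · = s), U.ε i * cf (mat U) i j =
      cf M s (U.ty j) * U.ε j := fun j => by
    by_cases h : s = U.ty j
    · rw [sum_eq_single j, h, cf_self, cf_self, mul_comm]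
      · intro i hi hij
        rw [cf_mat U hij, U.same i j ((mem_filter.1 hi).2.trans h)]
        simp
      · exact fun hj => (hj (mem_filter.2 ⟨mem_univ _, h.symm⟩)).elim
    · rw [← neg_inj, ← neg_mul, ← U.eig s j h, ← sum_neg_distrib]
      refine sum_congr rfl fun i hi => ?_
      rw [cf_mat U fun e => h ((mem_filter.1 hi).2.symm.trans (congrArg U.ty e))]
      ring
  simp only [Ax, fold_apply, mul_sum, ← mul_assoc]
  rw [sum_comm (s := univ.filter (U.ty · = s)),
    ← sum_fiberwise (s := univ) (g := U.ty)]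
  refine sum_congr rfl fun t _ => sum_congr rfl fun j hj => ?_
  rw [← sum_mul, key, (mem_filter.1 hj).2]

variable {W W' : Type} [Group W] [Group W'] {U : Unf M I}

theorem rho_list (cs' : CoxeterSystem (mat U) W') {s : S} {l : List I} (hl : l.Nodup)
    (ht : ∀ i ∈ l, U.ty i = s) (x : I → ℝ) :
    rho cs' (cs'.wordProd l) x =
      x - ∑ i ∈ l.toFinset, Ax (mat U) x i • (Pi.single i 1 : I → ℝ) := by
  induction l with
  | nil => simp
  | cons i l ih =>
    obtain ⟨h1, h2⟩ := List.nodup_cons.1 hl
    have e : Ax (mat U) (∑ j ∈ l.toFinset, Ax (mat U) x j • (Pi.single j 1 : I → ℝ)) i = 0 := by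
      refine sum_eq_zero fun j _ => ?_
      by_cases hj : j ∈ l
      · rw [cf_mat U fun e : i = j => h1 (e ▸ hj), U.same i j
          ((ht i List.mem_cons_self).trans (ht j (List.mem_cons_of_mem _ hj)).symm)]
        simp
      · rw [Finset.sum_apply, sum_eq_zero, mul_zero]
        intro k hk
        rw [Pi.smul_apply, Pi.single_eq_of_ne fun e : j = k => hj (e ▸ List.mem_toFinset.1 hk),
          smul_zero]
    rw [cs'.wordProd_cons, rho_mul, ih h2 fun j hj => ht j (List.mem_cons_of_mem _ hj),
      rho_simple, Ax_sub, e, sub_zero, List.toFinset_cons,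
      sum_insert fun h => h1 (List.mem_toFinset.1 h)]
    abel

/-- `u` unfolds `w`. -/
def Rel (cs' : CoxeterSystem (mat U) W') (cs : CoxeterSystem M W) (u : W') (w : W) : Prop :=
  ∀ x, fold U (rho cs' u x) = rho cs w (fold U x)

variable {cs' : CoxeterSystem (mat U) W'} {cs : CoxeterSystem M W}

theorem Rel.mul {u u' : W'} {w w' : W} (h : Rel cs' cs u w) (h' : Rel cs' cs u' w') :
    Rel cs' cs (u * u') (w * w') := fun x => by rw [rho_mul, rho_mul, h, h']

theorem Rel.inv {u : W'} {w : W} (h : Rel cs' cs u w) : Rel cs' cs u⁻¹ w⁻¹ := fun x => by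
  have := h (rho cs' u⁻¹ x)
  rw [← rho_mul, mul_inv_cancel, map_one, Module.End.one_apply] at this
  rw [this, rho_inv_rho]

theorem rel_simple (s : S) : Rel cs' cs (cs'.wordProd (U.lst s)) (cs.simple s) := fun x => by
  rw [rho_list cs' (s := s) (l := U.lst s) (nodup_toList _)
      fun i hi => (mem_filter.1 (mem_toList.1 hi)).2, rho_simple, map_sub, map_sum, Ax_fold, sum_smul, Unf.lst, toList_toFinset]
  refine congrArg _ (sum_congr rfl fun i hi => ?_)
  rw [map_smul, fold_single, (mem_filter.1 hi).2, smul_smul, mul_comm]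

theorem rel_word (ω : List S) :
    Rel cs' cs (cs'.wordProd (ω.flatMap U.lst)) (cs.wordProd ω) := by
  induction ω with
  | nil => exact fun x => by simp
  | cons s ω ih =>
    rw [List.flatMap_cons, cs'.wordProd_append, cs.wordProd_cons]
    exact (rel_simple s).mul ih

theorem Rel.root {u : W'} {w : W} (h : Rel cs' cs u w) {i : I}
    (hw : cs.length w < cs.length (w * cs.simple (U.ty i))) :
    ¬ rho cs' u (Pi.single i 1) ≤ 0 := fun h0 => by
  have h1 := fold_nonpos U h0
  rw [h, fold_single, map_smul] at h1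
  exact root_ne_zero cs w _ (le_antisymm
    (fun s => nonpos_of_mul_nonpos_right (h1 s) (U.pos i)) (root_pos cs hw))

theorem Rel.eq_one {u : W'} (h : Rel cs' cs u 1) : u = 1 :=
  eq_one_of_roots cs' fun i => h.root (by simp)

theorem reduced_append {ω : List I} {w : W} (h : Rel cs' cs (cs'.wordProd ω) w)
    (hω : cs'.IsReduced ω) {s : S} (hw : cs.length w < cs.length (w * cs.simple s)) {l : List I}
    (hl : l.Nodup) (ht : ∀ i ∈ l, U.ty i = s) : cs'.IsReduced (ω ++ l) := by
  induction l using List.reverseRecOn with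
  | nil => simpa using hω
  | append_singleton l i ih =>
    obtain ⟨h1, -, h2⟩ := List.nodup_append.1 hl
    have h3 : ∀ j ∈ l, U.ty j = s := fun j hj => ht j (List.mem_append_left _ hj)
    have h4 : U.ty i = s := ht i (by simp)
    have e : rho cs' (cs'.wordProd l) (Pi.single i 1) = Pi.single i 1 := by
      rw [rho_list cs' h1 h3, sum_eq_zero, sub_zero]
      intro j hj
      have hj' := List.mem_toFinset.1 hj
      rw [Ax_single, cf_mat U (h2 j hj' i (by simp)), U.same j i ((h3 j hj').trans h4.symm)]
      simp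
    have h5 := lt_of_root cs' (w := cs'.wordProd (ω ++ l)) (s := i) (by
      rw [cs'.wordProd_append, rho_mul, e]
      exact h.root (h4 ▸ hw))
    have h6 := (ih h1 h3).eq
    have h7 := cs'.length_mul_simple (cs'.wordProd (ω ++ l)) i
    rw [CoxeterSystem.IsReduced, ← List.append_assoc, cs'.wordProd_append (ω ++ l),
      cs'.wordProd_singleton, List.length_append (bs := [i]), List.length_singleton]
    omega

theorem reduced_word {ω : List S} (h : cs.IsReduced ω) : cs'.IsReduced (ω.flatMap U.lst) := by
  induction ω using List.reverseRecOn with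
  | nil => simp [CoxeterSystem.IsReduced]
  | append_singleton ω s ih =>
    have h1 : cs.IsReduced ω := by simpa using h.take ω.length
    have h2 := h.eq
    rw [cs.wordProd_append, cs.wordProd_singleton, List.length_append, List.length_singleton] at h2
    rw [List.flatMap_append, List.flatMap_singleton]
    exact reduced_append (rel_word (cs := cs) ω) (ih h1) (s := s) (by rw [h2, h1.eq]; omega)
      (nodup_toList _) fun i hi => (mem_filter.1 (mem_toList.1 hi)).2

theorem prod_word {G : Type*} [Monoid G] (τ : I → G) (ω : List S) :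
    (ω.map fun s => ((U.lst s).map τ).prod).prod = ((ω.flatMap U.lst).map τ).prod := by
  induction ω with
  | nil => rfl
  | cons s ω ih => rw [List.map_cons, List.prod_cons, ih, List.flatMap_cons, List.map_append,
      List.prod_append]

end UnfBraid

open UnfBraid in
theorem Unf.braid (U : Unf M I) {G : Type*} [Monoid G] (τ : I → G)
    (hc : ∀ i j, U.n i j = 0 → τ i * τ j = τ j * τ i)
    (hb : ∀ i j, U.n i j = 1 → τ i * τ j * τ i = τ j * τ i * τ j) :
    Braid M fun s => ((U.lst s).map τ).prod := by
  intro s t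
  by_cases h : s = t
  · rw [h]
  have hB := braid_mat U τ hc hb
  have h1 := (rel_word (cs' := (mat U).toCoxeterSystem) (cs := M.toCoxeterSystem)
    (CoxeterSystem.braidWord M s t)).inv.mul (rel_word (CoxeterSystem.braidWord M t s))
  rw [M.toCoxeterSystem.wordProd_braidWord_eq s t, inv_mul_cancel] at h1
  rw [prod_word, prod_word, ← Lf_reduced (mat U).toCoxeterSystem hB
      (reduced_word (isReduced_alt M.toCoxeterSystem h (Or.inr le_rfl))),
    ← Lf_reduced (mat U).toCoxeterSystem hB
      (reduced_word (isReduced_alt M.toCoxeterSystem (Ne.symm h) (Or.inr le_rfl))),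
    inv_mul_eq_one.1 h1.eq_one]

end Vale.Agent.P203
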