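import Vale.Agent.P203.CoxLin

namespace Vale.Agent.P203

namespace UnfData

open Finset

/-- a multigraph with a positive eigenvector for the eigenvalue `2 cos (π / m)` -/
theorem exists_graph (m : ℕ) : ∃ (k : ℕ) (f : Fin (k + 1) → ℝ) (b : Fin (k + 1) → Fin (k + 1) → ℕ),
    (∀ i, 0 < f i) ∧ (∀ i j, b i j = b j i) ∧ (∀ i j, b i j ≤ 2) ∧
      (m ≠ 1 → ∀ j, ∑ i, f i * b i j = 2 * Real.cos (Real.pi / (m : ℝ)) * f j) := by
  rcases m with _ | _ | k
  · refine ⟨0, fun _ => 1, fun _ _ => 2, fun _ => one_pos, fun _ _ => rfl, fun _ _ => le_rfl,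
      fun _ j => ?_⟩
    simp
  · exact ⟨0, fun _ => 1, fun _ _ => 2, fun _ => one_pos, fun _ _ => rfl, fun _ _ => le_rfl,
      fun h => absurd rfl h⟩
  · set θ : ℝ := Real.pi / ((k + 1 + 1 : ℕ) : ℝ) with hθ
    have hm : (0 : ℝ) < ((k + 1 + 1 : ℕ) : ℝ) := by positivity
    have hθ0 : 0 < θ := div_pos Real.pi_pos hm
    have hθm : ((k + 1 + 1 : ℕ) : ℝ) * θ = Real.pi := by rw [hθ]; field_simp
    set g : ℕ → ℝ := fun t => Real.sin ((t : ℝ) * θ) with hg
    have g0 : g 0 = 0 := by simp [hg]
    have gm : g (k + 1 + 1) = 0 := by simp only [hg]; rw [hθm, Real.sin_pi]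
    have grec : ∀ t, g t + g (t + 1 + 1) = 2 * Real.cos θ * g (t + 1) := by
      intro t
      have h1 : (t : ℝ) * θ = ((t + 1 : ℕ) : ℝ) * θ - θ := by push_cast; ring
      have h2 : ((t + 1 + 1 : ℕ) : ℝ) * θ = ((t + 1 : ℕ) : ℝ) * θ + θ := by push_cast; ring
      simp only [hg]
      rw [h2, Real.sin_add]
      nth_rewrite 1 [h1]
      rw [Real.sin_sub]
      ring
    refine ⟨k, fun i => g (i + 1), fun i j => (if (i : ℕ) + 1 = j then 1 else 0) +
      (if (j : ℕ) + 1 = i then 1 else 0), fun i => ?_, fun i j => add_comm _ _, fun i j => ?_,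
      fun _ j => ?_⟩
    · refine Real.sin_pos_of_pos_of_lt_pi (by positivity) ?_
      rw [← hθm]
      have : (((i : ℕ) + 1 : ℕ) : ℝ) < ((k + 1 + 1 : ℕ) : ℝ) := by
        have := i.2
        exact_mod_cast (by omega)
      exact mul_lt_mul_of_pos_right this hθ0
    · dsimp only
      split_ifs <;> omega
    · rw [← grec]
      have h1 : ∑ i : Fin (k + 1), g (i + 1) * (if (i : ℕ) + 1 = j then 1 else 0) = g j := by
        rcases Nat.eq_zero_or_pos (j : ℕ) with h | h
        · simp [h, g0]
        · have hj := j.2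
          rw [sum_eq_single (⟨j - 1, by omega⟩ : Fin (k + 1))]
          · have : (j : ℕ) - 1 + 1 = j := by omega
            simp [this]
          · intro i _ hi
            rw [if_neg, mul_zero]
            intro h'
            exact hi (Fin.ext (by simp only; omega))
          · simp
      have h2 : ∑ i : Fin (k + 1), g (i + 1) * (if (j : ℕ) + 1 = i then 1 else 0) =
          g (j + 1 + 1) := by
        have hj := j.2
        rcases Nat.lt_or_ge (j : ℕ) k with h | h
        · rw [sum_eq_single (⟨j + 1, by omega⟩ : Fin (k + 1))]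
          · simp
          · intro i _ hi
            rw [if_neg, mul_zero]
            intro h'
            exact hi (Fin.ext h'.symm)
          · simp
        · have hjk : (j : ℕ) = k := by omega
          rw [hjk, gm]
          refine sum_eq_zero fun i _ => ?_
          have := i.2
          rw [if_neg (by omega), mul_zero]
      rw [← h1, ← h2, ← sum_add_distrib]
      refine sum_congr rfl fun i _ => ?_
      push_cast
      ring

/-- a family of multigraphs on a common vertex set with a common positive eigenvector -/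
theorem exists_family (N : ℕ) : ∃ (K : Type) (_ : Fintype K) (_ : DecidableEq K) (_ : Nonempty K)
    (e : K → ℝ) (a : ℕ → K → K → ℕ), (∀ i, 0 < e i) ∧ (∀ m i j, a m i j = a m j i) ∧
      (∀ m i j, a m i j ≤ 2) ∧
      ∀ m < N, m ≠ 1 → ∀ j, ∑ i, e i * a m i j = 2 * Real.cos (Real.pi / (m : ℝ)) * e j := by
  induction N with
  | zero =>
    exact ⟨Unit, inferInstance, inferInstance, inferInstance, fun _ => 1, fun _ _ _ => 0,
      fun _ => one_pos, fun _ _ _ => rfl, fun _ _ _ => Nat.zero_le _, fun m hm => by omega⟩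
  | succ N ih =>
    obtain ⟨K, _, _, _, e, a, he, hs, hl, hE⟩ := ih
    obtain ⟨k, f, b, hf, hbs, hbl, hF⟩ := exists_graph N
    refine ⟨K × Fin (k + 1), inferInstance, inferInstance, inferInstance, fun p => e p.1 * f p.2,
      fun m p q => if m = N then (if p.1 = q.1 then b p.2 q.2 else 0)
        else (if p.2 = q.2 then a m p.1 q.1 else 0),
      fun p => mul_pos (he _) (hf _), fun m p q => ?_, fun m p q => ?_, fun m hm h1 q => ?_⟩
    · simp only [hs m p.1, hbs p.2, eq_comm (a := p.1), eq_comm (a := p.2)]
    · have := hl m p.1 q.1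
      have := hbl p.2 q.2
      dsimp only
      split_ifs <;> omega
    · by_cases hmN : m = N
      · subst hmN
        have := hF h1 q.2
        rw [Fintype.sum_prod_type, sum_eq_single q.1]
        · simp only [if_true, mul_assoc]
          rw [← mul_sum, this]
          ring
        · intro x _ hx
          simp [hx]
        · simp
      · have := hE m (by omega) h1 q.1
        rw [Fintype.sum_prod_type_right, sum_eq_single q.2]
        · simp only [if_true, if_neg hmN, mul_right_comm _ (f q.2)]
          rw [← sum_mul, this]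
          ring
        · intro x _ hx
          simp [hx, hmN]
        · simp

end UnfData

variable {S : Type} [Fintype S] [DecidableEq S]

theorem exists_unf (M : CoxeterMatrix S) :
    ∃ (I : Type) (_ : Fintype I) (_ : DecidableEq I), Nonempty (Unf M I) := by
  obtain ⟨K, _, _, ⟨k0⟩, e, a, he, hs, hl, hE⟩ :=
    UnfData.exists_family ((Finset.univ.sup fun p : S × S => M p.1 p.2) + 1)
  refine ⟨S × K, inferInstance, inferInstance, ⟨⟨Prod.fst, fun s => ⟨(s, k0), rfl⟩,
    fun p q => if p.1 = q.1 then 0 else a (M p.1 q.1) p.2 q.2, fun p q => ?_, fun p q => ?_,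
    fun p q h => if_pos h, fun p => e p.2, fun p => he _, fun s q hq => ?_⟩⟩⟩
  · simp only [hs _ p.2, eq_comm (a := p.1), M.symmetric p.1]
  · have := hl (M p.1 q.1) p.2 q.2
    split_ifs <;> omega
  · have h1 : M s q.1 < (Finset.univ.sup fun p : S × S => M p.1 p.2) + 1 :=
      Nat.lt_succ_of_le (Finset.le_sup (f := fun p : S × S => M p.1 p.2)
        (Finset.mem_univ (s, q.1)))
    have h2 := hE _ h1 (M.off_diagonal s q.1 hq) q.2
    rw [Finset.sum_filter, Fintype.sum_prod_type, Finset.sum_eq_single s]
    · simp only [if_true, if_neg hq]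
      rw [h2, cf]
      ring
    · intro x _ hx
      simp [hx]
    · simp

end Vale.Agent.P203
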