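import Vale.Agent.P203.CoxLin
import Vale.Agent.P203.DGBasic

namespace Vale.Agent.P203

namespace UnfQ

variable {V : Type}

/-- the double quiver of a symmetric matrix with zero diagonal -/
def quiver (n : V → V → ℕ) (hs : ∀ u v, n u v = n v u) (h0 : ∀ u, n u u = 0) :
    DQ V (Σ p : V × V, Fin (n p.1 p.2)) where
  src a := a.1.1
  star a := ⟨(a.1.2, a.1.1), Fin.cast (hs _ _) a.2⟩
  star_star _ := rfl
  noloop := by
    rintro ⟨⟨u, v⟩, k⟩ h
    have h' : v = u := h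
    subst h'
    exact absurd k.2 (by simp [h0])

theorem nb_quiver [Fintype V] [DecidableEq V] (n : V → V → ℕ) (hs : ∀ u v, n u v = n v u)
    (h0 : ∀ u, n u u = 0) (e : V → ℕ) (i : V) :
    nb (quiver n hs h0) e i = ∑ u, n u i * e u := by
  have h : nb (quiver n hs h0) e i =
      ∑ a : (Σ p : V × V, Fin (n p.1 p.2)), if a.1.2 = i then e a.1.1 else 0 := rfl
  rw [h, Fintype.sum_sigma, Fintype.sum_prod_type]
  refine Finset.sum_congr rfl fun u _ => ?_
  simp

/-- the framed matrix -/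
def fr {I : Type} [DecidableEq I] (n : I → I → ℕ) : I ⊕ I → I ⊕ I → ℕ
  | Sum.inl i, Sum.inl j => n i j
  | Sum.inl i, Sum.inr j => if i = j then 1 else 0
  | Sum.inr i, Sum.inl j => if i = j then 1 else 0
  | Sum.inr _, Sum.inr _ => 0

end UnfQ

variable {S : Type} [Fintype S] [DecidableEq S] {M : CoxeterMatrix S} {I : Type} [Fintype I]
  [DecidableEq I]

theorem Unf.exists_quiver (U : Unf M I) :
    ∃ (Ar : Type) (_ : Fintype Ar) (_ : DecidableEq Ar) (q : DQ (I ⊕ I) Ar),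
      (∀ e i, nb q e (Sum.inl i) = ∑ j, U.n i j * e (Sum.inl j) + e (Sum.inr i)) ∧
      (∀ i j, U.n i j = 0 → ∀ a, ¬ (q.src a = Sum.inl j ∧ q.tgt a = Sum.inl i)) ∧
      ∀ i j, U.n i j = 1 → ∃ β, ∀ a, (q.src a = Sum.inl j ∧ q.tgt a = Sum.inl i) ↔ a = β := by
  have hs : ∀ u v, UnfQ.fr U.n u v = UnfQ.fr U.n v u := by
    rintro (i | i) (j | j)
    · exact U.symm i j
    · simp only [UnfQ.fr, eq_comm]
    · simp only [UnfQ.fr, eq_comm]
    · rfl
  have h0 : ∀ u, UnfQ.fr U.n u u = 0 := by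
    rintro (i | i)
    · exact U.same i i rfl
    · rfl
  refine ⟨_, inferInstance, inferInstance, UnfQ.quiver _ hs h0, fun e i => ?_, fun i j h => ?_,
    fun i j h => ?_⟩
  · rw [UnfQ.nb_quiver, Fintype.sum_sum_type]
    simp [UnfQ.fr, U.symm i]
  · rintro ⟨⟨u, v⟩, k⟩ ⟨h1, h2⟩
    obtain rfl : u = Sum.inl j := h1
    obtain rfl : v = Sum.inl i := h2
    have hk : k.1 < U.n j i := k.2
    rw [U.symm, h] at hk
    exact absurd hk (Nat.not_lt_zero _)
  · have h' : U.n j i = 1 := (U.symm j i).trans h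
    refine ⟨⟨(Sum.inl j, Sum.inl i), ⟨0, Nat.one_pos.trans_eq h'.symm⟩⟩, ?_⟩
    rintro ⟨⟨u, v⟩, k⟩
    constructor
    · rintro ⟨h1, h2⟩
      obtain rfl : u = Sum.inl j := h1
      obtain rfl : v = Sum.inl i := h2
      have hk : k.1 < U.n j i := k.2
      exact congrArg (Sigma.mk _) (Fin.ext (by omega : k.1 = 0))
    · intro h1
      rw [h1]
      exact ⟨rfl, rfl⟩

end Vale.Agent.P203
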