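import Vale.Agent.P203.UnfData
import Vale.Agent.P203.UnfQ
import Vale.Agent.P203.UnfBraid
import Vale.Agent.P203.ModL
import Vale.Agent.P203.DGMod
import Vale.Agent.P203.SysDefs

namespace Vale.Agent.P203

open Finset

variable {S W : Type} [Fintype S] [DecidableEq S] [Group W] {M : CoxeterMatrix S}

namespace UnfSys

variable {I : Type} [Fintype I] [DecidableEq I] (U : Unf M I)

/-- weighted sum over the vertices of each type -/
noncomputable def P (f : I → ℕ) (s : S) : ℝ := ∑ i ∈ univ.filter (U.ty · = s), U.ε i * f i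

variable {U}

theorem P_congr {f g : I → ℕ} {s : S} (h : ∀ i, U.ty i = s → f i = g i) : P U f s = P U g s :=
  sum_congr rfl fun i hi => by rw [h i (mem_filter.1 hi).2]

theorem P_le {f g : I → ℕ} {s : S} (h : ∀ i, U.ty i = s → f i ≤ g i) : P U f s ≤ P U g s :=
  sum_le_sum fun i hi =>
    mul_le_mul_of_nonneg_left (Nat.cast_le.2 (h i (mem_filter.1 hi).2)) (U.pos i).le

theorem P_add (f g : I → ℕ) (s : S) : P U (fun i => f i + g i) s = P U f s + P U g s := by
  simp only [P, Nat.cast_add, mul_add, sum_add_distrib]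

theorem P_zero (s : S) : P U (fun _ => 0) s = 0 := by simp [P]

theorem P_nonneg (f : I → ℕ) (s : S) : 0 ≤ P U f s :=
  sum_nonneg fun i _ => mul_nonneg (U.pos i).le (Nat.cast_nonneg _)

theorem le_P (f : I → ℕ) (i : I) : U.ε i * f i ≤ P U f (U.ty i) :=
  single_le_sum (f := fun i => U.ε i * f i)
    (fun i _ => mul_nonneg (U.pos i).le (Nat.cast_nonneg _)) (mem_filter.2 ⟨mem_univ i, rfl⟩)

theorem eq_of_P {f g : I → ℕ} (h : ∀ i, f i ≤ g i) {i : I}
    (he : P U f (U.ty i) = P U g (U.ty i)) : f i = g i := by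
  have h1 := (sum_eq_sum_iff_of_le fun i _ =>
    mul_le_mul_of_nonneg_left (Nat.cast_le.2 (h i)) (U.pos i).le).1 he i
    (mem_filter.2 ⟨mem_univ i, rfl⟩)
  exact Nat.cast_injective (mul_left_cancel₀ (U.pos i).ne' h1)

theorem zero_of_P {f : I → ℕ} {i : I} (he : P U f (U.ty i) = 0) : f i = 0 :=
  (eq_of_P (f := fun _ => 0) (fun _ => Nat.zero_le _) ((P_zero _).trans he.symm)).symm

theorem P_single (i : I) :
    P U (fun j => (Pi.single (Sum.inl i) 1 : I ⊕ I → ℕ) (Sum.inl j)) =
      Pi.single (U.ty i) (U.ε i) := by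
  funext s
  simp only [P, Pi.single_apply, Sum.inl.injEq, Nat.cast_ite, Nat.cast_one, Nat.cast_zero,
    mul_ite, mul_one, mul_zero, sum_ite_eq', mem_filter, mem_univ, true_and]
  simp only [eq_comm]

theorem P_n (f : I → ℕ) (s : S) :
    P U (fun i => ∑ j, U.n i j * f j) s = 2 * P U f s - Ax M (P U f) s := by
  have h1 : Ax M (P U f) s = ∑ j, cf M s (U.ty j) * (U.ε j * f j) := by
    rw [Ax, ← sum_fiberwise univ U.ty]
    refine sum_congr rfl fun t _ => ?_
    rw [P, mul_sum]
    exact sum_congr rfl fun j hj => by rw [(mem_filter.1 hj).2]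
  rw [h1, P, P, sum_filter (p := (U.ty · = s)) (f := fun i => U.ε i * f i), mul_sum,
    ← sum_sub_distrib]
  simp only [Nat.cast_sum, Nat.cast_mul, mul_sum]
  rw [sum_comm]
  refine sum_congr rfl fun j _ => ?_
  simp only [← mul_assoc]
  rw [← sum_mul]
  by_cases h : U.ty j = s
  · rw [sum_eq_zero fun i hi => by
      rw [U.same i j ((mem_filter.1 hi).2.trans h.symm), Nat.cast_zero, mul_zero],
      if_pos h, h, cf_self]
    ring
  · rw [U.eig s j (Ne.symm h), if_neg h]
    ring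

theorem finite_vals (R : ℝ) : {x : ℝ | (∃ f s, P U f s = x) ∧ x ≤ R}.Finite := by
  refine (Set.finite_iUnion fun s => (Set.finite_Iic fun i => ⌈R / U.ε i⌉₊).image
    fun f => P U f s).subset ?_
  rintro _ ⟨⟨f, s, rfl⟩, hR⟩
  refine Set.mem_iUnion.2 ⟨s, fun i => if U.ty i = s then f i else 0, fun i => ?_,
    P_congr fun i hi => if_pos hi⟩
  simp only
  split_ifs with h
  · subst h
    have h1 := (le_P f i).trans hR
    rw [mul_comm, ← le_div_iff₀ (U.pos i)] at h1
    exact Nat.cast_le.1 (h1.trans (Nat.le_ceil _))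
  · exact Nat.zero_le _

theorem braid_prod {G H : Type*} [Monoid G] [Monoid H] {a : S → G} {b : S → H} (ha : Braid M a)
    (hb : Braid M b) : Braid M fun s => (a s, b s) := fun i j => by
  refine Prod.ext ?_ ?_
  · change MonoidHom.fst G H _ = MonoidHom.fst G H _
    simp only [map_list_prod, List.map_map]
    exact ha i j
  · change MonoidHom.snd G H _ = MonoidHom.snd G H _
    simp only [map_list_prod, List.map_map]
    exact hb i j

theorem braid_const {G : Type*} [Monoid G] (c : G) : Braid M fun _ => c := fun i j => by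
  simp only [List.map_const', CoxeterSystem.braidWord, CoxeterSystem.length_alternatingWord,
    M.symmetric i j]

variable {Ar : Type} [Fintype Ar] [DecidableEq Ar] {q : DQ (I ⊕ I) Ar} {X : Type 1}

variable (U) in
/-- the mutable vertices of a given type -/
noncomputable def ls (s : S) : List (I ⊕ I) := (U.lst s).map Sum.inl

theorem mem_ls {s : S} {v : I ⊕ I} : v ∈ ls U s ↔ ∃ i, U.ty i = s ∧ Sum.inl i = v := by
  simp [ls, Unf.lst]

theorem inl_mem_ls {s : S} {i : I} : Sum.inl i ∈ ls U s ↔ U.ty i = s := by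
  simp [mem_ls]

theorem inr_notMem_ls {s : S} {i : I} : Sum.inr i ∉ ls U s := by
  simp [mem_ls]

/-- the pair of weighted dimension vectors -/
noncomputable def pp (U : Unf M I) (e : I ⊕ I → ℕ) : (S → ℝ) × (S → ℝ) :=
  (P U fun i => e (Sum.inl i), P U fun i => e (Sum.inr i))

theorem P_nb
    (hnb : ∀ e i, nb q e (Sum.inl i) = ∑ j, U.n i j * e (Sum.inl j) + e (Sum.inr i))
    (e : I ⊕ I → ℕ) (s : S) : P U (fun i => nb q e (Sum.inl i)) s =
      2 * (pp U e).1 s - Ax M (pp U e).1 s + (pp U e).2 s := by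
  simp only [hnb, P_add, P_n, pp]

theorem noimag
    (hnb : ∀ e i, nb q e (Sum.inl i) = ∑ j, U.n i j * e (Sum.inl j) + e (Sum.inr i))
    {T : Finset S} (hT : PD M T) {y : I ⊕ I → ℕ} (h1 : ∀ i, y (Sum.inr i) = 0)
    (h2 : ∀ i, U.ty i ∉ T → y (Sum.inl i) = 0) (h3 : ∀ v, 2 * y v ≤ nb q y v) : y = 0 := by
  have h4 : ∀ s, Ax M (pp U y).1 s ≤ 0 := by
    intro s
    have h5 : P U (fun i => y (Sum.inl i) + y (Sum.inl i)) s ≤
        P U (fun i => nb q y (Sum.inl i)) s := P_le fun i _ => by rw [← two_mul]; exact h3 _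
    have h6 : (pp U y).2 s = 0 := (P_congr fun i _ => h1 i).trans (P_zero s)
    rw [P_add, P_nb hnb, h6] at h5
    change (pp U y).1 s + (pp U y).1 s ≤ _ at h5
    linarith
  have h5 : (pp U y).1 = 0 := by
    by_contra h
    refine absurd (hT _ (fun s hs => ?_) h) (not_lt.2 ?_)
    · exact (P_congr fun i hi => h2 i (hi ▸ hs)).trans (P_zero s)
    · exact sum_nonpos fun s _ => mul_nonpos_of_nonneg_of_nonpos (P_nonneg _ s) (h4 s)
  funext v
  rcases v with i | i
  · exact zero_of_P (f := fun i => y (Sum.inl i)) (congrFun h5 _)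
  · exact h1 i

/-- the frozen vertices -/
def Fz (I : Type) [Fintype I] : Finset (I ⊕ I) := univ.map Function.Embedding.inr

variable (cs : CoxeterSystem M W) (U) (D : Mod q (Fz I) X)

/-- the generators in the ambient group -/
noncomputable def sg (s : S) : Equiv.Perm X × W × Multiplicative ℤ :=
  ((D.TL (ls U s))⁻¹, cs.simple s, Multiplicative.ofAdd 1)

/-- the group -/
noncomputable def GG : Subgroup (Equiv.Perm X × W × Multiplicative ℤ) :=
  Subgroup.closure (Set.range (sg U cs D))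

/-- the generators -/
noncomputable def sig (s : S) : GG U cs D := ⟨sg U cs D s, Subgroup.subset_closure ⟨s, rfl⟩⟩

variable {U cs D}

/-- the object attached to a group element -/
noncomputable def ob (g : GG U cs D) : X := (g.1.1)⁻¹ D.E

theorem ob_mul (g : GG U cs D) (s : S) : ob (g * sig U cs D s) = D.TL (ls U s) (ob g) := by
  simp [ob, sig, sg]

theorem ob_mul_inv (g : GG U cs D) (s : S) :
    ob (g * (sig U cs D s)⁻¹) = (D.TL (ls U s))⁻¹ (ob g) := by
  simp [ob, sig, sg]

theorem dim_inr (g : GG U cs D) (m : ℤ) (i : I) :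
    D.dim (ob g) m (Sum.inr i) = D.dim D.E m (Sum.inr i) := by
  have h : ∀ g ∈ GG U cs D, ∀ x, D.dim (g.1⁻¹ x) m (Sum.inr i) = D.dim x m (Sum.inr i) := by
    intro g hg
    induction hg using Subgroup.closure_induction with
    | mem g hg =>
      obtain ⟨s, rfl⟩ := hg
      exact fun x => D.dim_offL m inr_notMem_ls
    | one => exact fun _ => rfl
    | mul g h _ _ h1 h2 =>
      intro x
      rw [Prod.fst_mul, mul_inv_rev, Equiv.Perm.mul_apply, h2, h1]
    | inv g _ h1 =>
      intro x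
      rw [← h1, Prod.fst_inv, inv_inv, ← Equiv.Perm.mul_apply, inv_mul_cancel]
      rfl
  exact h g.1 g.2 D.E

variable (U cs D) in
/-- weighted dimension vectors -/
noncomputable def dd (g : GG U cs D) (n : ℕ) : S → ℝ := (pp U (D.dim (ob g) n)).1

theorem inA_iff (n : ℕ) (g : GG U cs D) : InA (dd U cs D) n g ↔ Le D.dim n (ob g) := by
  refine ⟨fun h m hm => ?_, fun h m hm => ?_⟩
  · obtain ⟨k, rfl⟩ := Int.eq_ofNat_of_zero_le ((Int.natCast_nonneg n).trans hm.le)
    have h1 := h k (Nat.cast_lt.1 hm)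
    funext v
    rcases v with i | i
    · exact zero_of_P (f := fun i => D.dim (ob g) k (Sum.inl i)) (congrFun h1 _)
    · rw [dim_inr, D.dim_E, if_neg fun h2 => by omega]
      rfl
  · funext s
    rw [dd, h m (Nat.cast_lt.2 hm)]
    exact P_zero s

theorem lam_eq (g : GG U cs D) (n : ℤ) : (pp U (D.dim (ob g) n)).2 = (pp U (D.dim D.E n)).2 :=
  funext fun _ => P_congr fun i _ => dim_inr g n i

theorem I5_aux
    (hnb : ∀ e i, nb q e (Sum.inl i) = ∑ j, U.n i j * e (Sum.inl j) + e (Sum.inr i))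
    {x : X} {n : ℤ} {T : Finset S} {φ : S → ℝ} (hT : PD M T)
    (H : ∀ e ∈ D.Q x n, (pp U e).2 = (pp U (D.dim x n)).2 →
      (∀ t, t ∉ T → (pp U e).1 t = (pp U (D.dim x n)).1 t) →
      ∑ t, φ t * (pp U e).1 t = ∑ t, φ t * (pp U (D.dim x n)).1 t) (k : ℕ) :
    ∀ e ∈ D.Q x n, ∑ v, D.dim x n v ≤ ∑ v, e v + k → (pp U e).2 = (pp U (D.dim x n)).2 →
      (∀ t, t ∉ T → (pp U e).1 t = (pp U (D.dim x n)).1 t) →
      ∀ t, φ t ≠ 0 → (pp U e).1 t = (pp U (D.dim x n)).1 t := by
  induction k with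
  | zero =>
    intro e he hk _ _ t _
    have h1 := D.Q_le x n e he
    have h2 : e = D.dim x n := funext fun v =>
      (sum_eq_sum_iff_of_le fun v _ => h1 v).1 (le_antisymm (sum_le_sum fun v _ => h1 v) hk) v
        (mem_univ v)
    rw [h2]
  | succ k ih =>
    intro e he hk h1 h2 t ht
    by_cases h0 : e = D.dim x n
    · rw [h0]
    obtain ⟨y, hy0, hy, hc⟩ := D.CS2 x n e he h0
    have hle := D.Q_le x n e he
    have hle' := D.Q_le x n _ hy
    have y1 : ∀ i, y (Sum.inr i) = 0 := fun i => by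
      have h3 : e (Sum.inr i) = D.dim x n (Sum.inr i) :=
        eq_of_P (f := fun i => e (Sum.inr i)) (g := fun i => D.dim x n (Sum.inr i))
          (fun i => hle _) (congrFun h1 _)
      have h4 : e (Sum.inr i) + y (Sum.inr i) ≤ D.dim x n (Sum.inr i) := hle' _
      omega
    have y2 : ∀ i, U.ty i ∉ T → y (Sum.inl i) = 0 := fun i hi => by
      have h3 : e (Sum.inl i) = D.dim x n (Sum.inl i) :=
        eq_of_P (f := fun i => e (Sum.inl i)) (g := fun i => D.dim x n (Sum.inl i))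
          (fun i => hle _) (h2 _ hi)
      have h4 : e (Sum.inl i) + y (Sum.inl i) ≤ D.dim x n (Sum.inl i) := hle' _
      omega
    obtain ⟨v, rfl⟩ := hc.resolve_right fun h => hy0 (noimag hnb hT y1 y2 h)
    rcases v with i | i
    swap
    · simpa using y1 i
    have hi : U.ty i ∈ T := by
      by_contra h
      simpa using y2 i h
    have e1 : ∀ s, (pp U (e + Pi.single (Sum.inl i) 1)).1 s =
        (pp U e).1 s + (Pi.single (U.ty i) (U.ε i) : S → ℝ) s := fun s => by
      rw [← P_single]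
      exact P_add _ _ s
    have e2 : (pp U (e + Pi.single (Sum.inl i) 1)).2 = (pp U (D.dim x n)).2 := by
      rw [← h1]
      exact funext fun s => P_congr fun j _ => by simp
    have e3 : ∀ t, t ∉ T → (pp U (e + Pi.single (Sum.inl i) 1)).1 t =
        (pp U (D.dim x n)).1 t := fun t ht => by
      rw [e1, Pi.single_eq_of_ne (ne_of_mem_of_not_mem hi ht).symm, add_zero, h2 t ht]
    have e4 := (H _ hy e2 e3).trans (H e he h1 h2).symm
    simp only [e1, mul_add, sum_add_distrib, add_eq_left, Pi.single_apply, mul_ite, mul_zero,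
      sum_ite_eq', mem_univ, if_true, mul_eq_zero, (U.pos i).ne', or_false] at e4
    have e5 : t ≠ U.ty i := fun h => ht (h ▸ e4)
    rw [← ih _ hy ?_ e2 e3 t ht, e1, Pi.single_eq_of_ne e5, add_zero]
    simp only [Pi.add_apply, sum_add_distrib, sum_pi_single', mem_univ, if_true]
    omega

end UnfSys

open UnfSys in
theorem exists_sys (cs : CoxeterSystem M W) :
    ∃ (G : Type 1) (_ : Group G), Nonempty (Sys cs G) := by
  obtain ⟨I, _, _, ⟨U⟩⟩ := exists_unf M
  obtain ⟨Ar, _, _, q, hnb, hc, hb⟩ := U.exists_quiver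
  obtain ⟨X, ⟨D⟩⟩ := exists_mod q (Fz I)
  have hl : ∀ s, Indep q (ls U s) := fun s => by
    refine ⟨(Finset.nodup_toList _).map Sum.inl_injective, fun a h1 h2 => ?_⟩
    obtain ⟨j, hj, h1⟩ := mem_ls.1 h1
    obtain ⟨i, hi, h2⟩ := mem_ls.1 h2
    exact hc i j (U.same i j (hi.trans hj.symm)) a ⟨h1.symm, h2.symm⟩
  have hbr : Braid M (sg U cs D) := by
    refine braid_prod ?_ (braid_prod (fun i j => cs.wordProd_braidWord_eq i j) (braid_const _))
    have h1 := U.braid (fun i => (D.τ (Sum.inl i))⁻¹) (fun i j h => ?_) fun i j h => ?_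
    · refine (congrArg (Braid M) (funext fun s => ?_)).mp h1
      rw [← D.TL_inv (hl s), ls, List.map_map]
      rfl
    · rw [← mul_inv_rev, ← mul_inv_rev, D.comm _ _ (hc i j h)]
    · obtain ⟨β, hβ⟩ := hb i j h
      have h2 := congrArg Inv.inv (D.braid _ _ β hβ)
      simpa only [mul_inv_rev, mul_assoc] using h2
  refine ⟨GG U cs D, inferInstance, ⟨{
    σ := sig U cs D
    braid := fun i j => Subtype.ext ?_
    gen := ?_
    pr := ((MonoidHom.fst _ _).comp (MonoidHom.snd _ _)).comp (GG U cs D).subtype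
    pr_σ := fun s => rfl
    len := fun g => g.1.2.2.toAdd
    len_mul := fun g h => rfl
    len_σ := fun s => rfl
    d := dd U cs D
    lam := fun n => (pp U (D.dim D.E n)).2
    Q := fun g n => pp U '' D.Q (ob g) n
    lam_pos := fun s => ?_
    lam_zero := fun n hn => ?_
    d_one := fun n => ?_
    d_off := fun g s n t ht => ?_
    down := fun g s n h => ?_
    exh := fun g => ?_
    vals := fun R => (finite_vals (U := U) R).subset ?_
    Q_top := fun g n => ⟨_, D.Q_top _ _, Prod.ext rfl (lam_eq g n)⟩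
    Q_le := ?_
    Q_fin := fun g n => ((Set.finite_Iic _).subset (D.Q_le _ _)).image _
    I1 := ?_
    I2 := ?_
    I3 := fun g s n h => ?_
    J1 := fun g s n h h' => ?_
    J3 := ?_
    I5 := ?_ }⟩⟩
  · change (GG U cs D).subtype _ = (GG U cs D).subtype _
    simp only [map_list_prod, List.map_map]
    exact hbr i j
  · refine Eq.trans ?_ (Subgroup.closure_closure_coe_preimage (k := Set.range (sg U cs D)))
    congr 1
    ext g
    exact ⟨fun ⟨s, hs⟩ => ⟨s, congrArg Subtype.val hs⟩, fun ⟨s, hs⟩ => ⟨s, Subtype.ext hs⟩⟩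
  · obtain ⟨i, rfl⟩ := U.surj s
    refine lt_of_lt_of_le ?_ (le_P (fun i => D.dim D.E (0 : ℕ) (Sum.inr i)) i)
    simpa [D.dim_E, Fz] using U.pos i
  · funext s
    exact (P_congr fun i _ => by rw [D.dim_E, if_neg fun h => by omega]).trans (P_zero s)
  · funext s
    refine (P_congr fun i _ => ?_).trans (P_zero s)
    change D.dim D.E n _ = 0
    simp [D.dim_E, Fz]
  · rw [dd, ob_mul]
    exact P_congr fun i hi => D.dim_offL n fun h => ht (hi.symm.trans (inl_mem_ls.1 h))
  · rw [inA_iff] at h ⊢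
    rw [ob_mul]
    exact D.downL h
  · obtain ⟨n, hn⟩ := D.exh (ob g)
    exact ⟨n.toNat, (inA_iff _ _).2 fun m hm => hn m ((Int.self_le_toNat n).trans_lt hm)⟩
  · rintro _ ⟨⟨g, n, s, rfl⟩, h⟩
    exact ⟨⟨_, s, rfl⟩, h⟩
  · rintro g n _ _ ⟨e, he, ⟨⟩⟩
    exact ⟨P_nonneg _, fun s => P_le fun i _ => D.Q_le _ _ e he _⟩
  · rintro g s n _ _ h ⟨e, he, ⟨⟩⟩
    obtain ⟨e', he', h1, h2⟩ := D.I1L (hl s) ((inA_iff _ _).1 h) e he
    refine ⟨(pp U e').1, ⟨e', by rwa [ob_mul], Prod.ext rfl ?_⟩, fun t ht => ?_, ?_⟩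
    · exact funext fun t => P_congr fun i _ => h1 _ inr_notMem_ls
    · exact P_congr fun i hi => h1 _ fun h => ht (hi.symm.trans (inl_mem_ls.1 h))
    · have h3 : P U (fun i => nb q e (Sum.inl i)) s ≤
          P U (fun i => e' (Sum.inl i) + e (Sum.inl i)) s :=
        P_le fun i hi => h2 _ (inl_mem_ls.2 hi)
      rw [P_nb hnb, P_add] at h3
      change _ ≤ (pp U e').1 s + (pp U e).1 s at h3
      change (pp U e).1 s - Ax M (pp U e).1 s + (pp U e).2 s ≤ _
      linarith
  · rintro g s n _ _ h ⟨e', he', ⟨⟩⟩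
    rw [ob_mul] at he'
    obtain ⟨e, he, h1, h2⟩ := D.I2L (hl s) ((inA_iff _ _).1 h) e' he'
    refine ⟨(pp U e).1, ⟨e, he, Prod.ext rfl ?_⟩, fun t ht => ?_, ?_⟩
    · exact funext fun t => P_congr fun i _ => h1 _ inr_notMem_ls
    · exact P_congr fun i hi => h1 _ fun h => ht (hi.symm.trans (inl_mem_ls.1 h))
    · have h3 : P U (fun i => e (Sum.inl i) + e' (Sum.inl i)) s ≤
          P U (fun i => nb q e' (Sum.inl i)) s :=
        P_le fun i hi => h2 _ (inl_mem_ls.2 hi)
      rw [P_nb hnb, P_add] at h3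
      change (pp U e).1 s + (pp U e').1 s ≤ _ at h3
      change _ ≤ (pp U e').1 s - Ax M (pp U e').1 s + (pp U e').2 s
      linarith
  · rw [ob_mul, ob_mul]
    exact Set.image_mono (D.I3L (hl s) ((inA_iff _ _).1 h))
  · rw [inA_iff] at h h'
    rw [ob_mul_inv, D.upL (hl s) h] at h'
    push Not at h'
    obtain ⟨v, hv, h1⟩ := h'
    obtain ⟨i, rfl, rfl⟩ := mem_ls.1 hv
    refine ⟨U.ε i, U.pos i, _, h1, Prod.ext (P_single i) (funext fun t => ?_)⟩
    exact (P_congr fun j _ => by simp).trans (P_zero t)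
  · rintro g n T e h hT ⟨e₀, he, h1⟩ h2 h3
    rw [inA_iff] at h
    obtain rfl : (pp U e₀).1 = e := congrArg Prod.fst h1
    have h4 : (pp U e₀).2 = 0 := congrArg Prod.snd h1
    obtain ⟨y, hy, hy0, hle, hc⟩ := D.CS1 _ _ e₀ he fun h0 => h3 (by
      rw [h0]
      exact funext P_zero)
    have y1 : ∀ i, y (Sum.inr i) = 0 := fun i =>
      Nat.le_zero.1 ((hle _).trans_eq (zero_of_P (f := fun i => e₀ (Sum.inr i)) (congrFun h4 _)))
    have y2 : ∀ i, U.ty i ∉ T → y (Sum.inl i) = 0 := fun i hi =>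
      Nat.le_zero.1 ((hle _).trans_eq (zero_of_P (f := fun i => e₀ (Sum.inl i)) (h2 _ hi)))
    obtain ⟨v, rfl⟩ := hc.resolve_right fun h => hy0 (noimag hnb hT y1 y2 h)
    rcases v with i | i
    · refine ⟨U.ty i, by_contra fun hi => by simpa using y2 i hi, fun h5 => ?_⟩
      rw [inA_iff, ob_mul_inv, D.upL (hl _) h] at h5
      exact h5 _ (inl_mem_ls.2 rfl) hy
    · simpa using y1 i
  · rintro g n T φ hT H e ⟨e₀, he, h1⟩ h2
    obtain rfl : (pp U e₀).1 = e := congrArg Prod.fst h1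
    refine I5_aux hnb hT (fun e he h3 h4 => H _ ⟨e, he, Prod.ext rfl ?_⟩ h4) _ e₀ he
      (Nat.le_add_left _ _) ((congrArg Prod.snd h1).trans (lam_eq g n).symm) h2
    exact h3.trans (lam_eq g n)

end Vale.Agent.P203
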